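import Vale.Agent.P344.H952.Asymp

/-!
# The zero-one law for the complexity of the discrete Fourier transform
-/

namespace Vale.Agent.P344

open Set Filter

/-- `inf (L_N(m)/N + m) / (m log m)` over `N ≥ 1`, `m ≥ 2`. -/
noncomputable def gam : ℝ := sInf {x | ∃ N m : ℕ, 1 ≤ N ∧ 2 ≤ m ∧ x = rate N m}

theorem gam_bdd : BddBelow {x | ∃ N m : ℕ, 1 ≤ N ∧ 2 ≤ m ∧ x = rate N m} :=
  ⟨0, by rintro x ⟨N, m, _, hm, rfl⟩; exact rate_nonneg hm⟩

theorem gam_nonempty : {x | ∃ N m : ℕ, 1 ≤ N ∧ 2 ≤ m ∧ x = rate N m}.Nonempty :=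
  ⟨_, 1, 2, le_rfl, le_rfl, rfl⟩

theorem gam_nonneg : 0 ≤ gam :=
  le_csInf gam_nonempty (by rintro x ⟨N, m, _, hm, rfl⟩; exact rate_nonneg hm)

theorem gam_le {N m : ℕ} (hN : 1 ≤ N) (hm : 2 ≤ m) : gam ≤ rate N m :=
  csInf_le gam_bdd ⟨N, m, hN, hm, rfl⟩

theorem exists_rate_lt {ε : ℝ} (hε : 0 < ε) :
    ∃ N m : ℕ, 1 ≤ N ∧ 2 ≤ m ∧ rate N m < gam + ε := by
  obtain ⟨x, ⟨N, m, hN, hm, rfl⟩, hx⟩ := exists_lt_of_csInf_lt gam_nonempty
    (show gam < gam + ε by linarith)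
  exact ⟨N, m, hN, hm, hx⟩

/-- Amortised lower bound. -/
theorem lower {N n : ℕ} (hN : 1 ≤ N) (hn : 2 ≤ n) :
    N * (gam * (n * Real.logb 2 n) - n) ≤ LMany N n := by
  have h := gam_le hN hn
  have h1 := logb_pos_of_two_le hn
  have hn0 : (0 : ℝ) < n := by exact_mod_cast (by omega : 0 < n)
  have hN0 : (0 : ℝ) < N := by exact_mod_cast (by omega : 0 < N)
  unfold rate at h
  rw [le_div_iff₀ (by positivity)] at h
  have h2 : N * (gam * (n * Real.logb 2 n)) ≤ N * ((LMany N n : ℝ) / N + n) :=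
    mul_le_mul_of_nonneg_left h hN0.le
  have h3 : N * ((LMany N n : ℝ) / N + n) = LMany N n + N * n := by field_simp
  linarith

/-- Upper bound with bounded coefficients and logarithmic depth. -/
theorem upper {δ : ℝ} (hδ : 0 < δ) :
    ∃ Λ₀ : Set ℂ, Λ₀.Finite ∧ (∀ c ∈ Λ₀, IsAlgebraic ℚ c) ∧ ∃ K : ℝ,
    ∀ᶠ n : ℕ in atTop, ∃ s : ℕ,
      Computes (algBall 1 ∪ Λ₀) ((⌊K * Real.logb 2 n⌋₊ : ℕ) : ℕ∞) (dft n) s ∧
      (s : ℝ) ≤ (4 * gam + δ) * (n * Real.logb 2 n) := by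
  obtain ⟨N, m, hN, hm, hr⟩ := exists_rate_lt (show 0 < δ / 8 by linarith)
  obtain ⟨Λ₀, hf, halg, K, h⟩ := transfer hN hm (show 0 < δ / 2 by linarith)
  refine ⟨Λ₀, hf, halg, K, ?_⟩
  filter_upwards [h, eventually_ge_atTop 2] with n hn hn2
  obtain ⟨s, hs, hb⟩ := hn
  refine ⟨s, hs, hb.trans ?_⟩
  have h1 := logb_pos_of_two_le hn2
  have hn0 : (0 : ℝ) < n := by exact_mod_cast (by omega : 0 < n)
  refine mul_le_mul_of_nonneg_right (by linarith) (by positivity)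

theorem mono_floor {C C' x : ℝ} (h : C ≤ C') (hx : 0 ≤ x) :
    ((⌊C * x⌋₊ : ℕ) : ℕ∞) ≤ ((⌊C' * x⌋₊ : ℕ) : ℕ∞) := by
  exact_mod_cast Nat.floor_le_floor (mul_le_mul_of_nonneg_right h hx)

/-- The same with one bound for modulus and depth. -/
theorem upper_ball {δ : ℝ} (hδ : 0 < δ) :
    ∃ C : ℝ, ∀ᶠ n : ℕ in atTop, ∃ s : ℕ,
      Computes (algBall C) ((⌊C * Real.logb 2 n⌋₊ : ℕ) : ℕ∞) (dft n) s ∧
      (s : ℝ) ≤ (4 * gam + δ) * (n * Real.logb 2 n) := by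
  obtain ⟨Λ₀, hf, halg, K, h⟩ := upper hδ
  obtain ⟨C₁, hC₁⟩ := hf.isBounded.exists_norm_le
  refine ⟨max (max 1 C₁) K, ?_⟩
  filter_upwards [h, eventually_ge_atTop 2] with n hn hn2
  obtain ⟨s, hs, hb⟩ := hn
  have h1 := logb_pos_of_two_le hn2
  refine ⟨s, hs.mono_coeff ?_ (mono_floor (le_max_right _ _) (by linarith)), hb⟩
  rintro c (hc | hc)
  · exact ⟨hc.1.trans ((le_max_left _ _).trans (le_max_left _ _)), hc.2⟩
  · exact ⟨(hC₁ c hc).trans ((le_max_right _ _).trans (le_max_left _ _)), halg c hc⟩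

/-- Upper bound for infinitely many orders. -/
theorem upper_frequently {δ : ℝ} (hδ : 0 < δ) :
    ∃ Λ₀ : Set ℂ, Λ₀.Finite ∧ (∀ c ∈ Λ₀, IsAlgebraic ℚ c) ∧ ∃ K : ℝ,
    ∃ᶠ n : ℕ in atTop, ∃ s : ℕ,
      Computes (rootsU ∪ Λ₀) ((⌊K * Real.logb 2 n⌋₊ : ℕ) : ℕ∞) (dft n) s ∧
      (s : ℝ) ≤ (gam + δ) * (n * Real.logb 2 n) := by
  obtain ⟨N, m, hN, hm, hr⟩ := exists_rate_lt (show 0 < δ / 2 by linarith)
  obtain ⟨Λ₀, hf, halg, K, h⟩ := transfer_powers hN hm (show 0 < δ / 2 by linarith)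
  refine ⟨Λ₀, hf, halg, K, ?_⟩
  have ht : Tendsto (fun k : ℕ => m ^ k) atTop atTop :=
    tendsto_pow_atTop_atTop_of_one_lt (by omega)
  refine ht.frequently (Eventually.frequently ?_)
  filter_upwards [h, eventually_ge_atTop 1] with k hk hk1
  obtain ⟨s, hs, hb⟩ := hk
  refine ⟨s, hs, hb.trans ?_⟩
  have hmk : 2 ≤ m ^ k := by
    calc 2 ≤ m := hm
      _ = m ^ 1 := (pow_one m).symm
      _ ≤ m ^ k := Nat.pow_le_pow_right (by omega) hk1
  have h1 := logb_pos_of_two_le hmk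
  refine mul_le_mul_of_nonneg_right (by linarith) (by positivity)

/-- `L(n)` is at least `γ n log n - n`. -/
theorem lower_one {n : ℕ} (hn : 2 ≤ n) : gam * (n * Real.logb 2 n) - n ≤ L n := by
  have h := lower le_rfl hn
  have h1 : (LMany 1 n : ℝ) ≤ L n := by exact_mod_cast LMany_one_le n
  rw [Nat.cast_one, one_mul] at h
  linarith

theorem eventually_logb_ge (B : ℝ) : ∀ᶠ n : ℕ in atTop, B ≤ Real.logb 2 (n : ℝ) :=
  logb_nat_tendsto.eventually_ge_atTop B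

/-- From `c n log n - n ≤ L(n)` to `(c/2) n log n ≤ L(n)`. -/
theorem absorb {c : ℝ} (hc : 0 < c)
    (h : ∀ n : ℕ, 2 ≤ n → c * (n * Real.logb 2 n) - n ≤ L n) :
    ∃ c' : ℝ, 0 < c' ∧ ∀ᶠ n : ℕ in atTop, c' * (n * Real.logb 2 n) ≤ L n := by
  refine ⟨c / 2, by linarith, ?_⟩
  filter_upwards [eventually_logb_ge (2 / c), eventually_ge_atTop 2] with n hn hn2
  have h1 := h n hn2
  have hn0 : (0 : ℝ) < n := by exact_mod_cast (by omega : 0 < n)
  rw [div_le_iff₀ hc] at hn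
  nlinarith

/-- Upper bound for powers of two: roots of unity and finitely many other coefficients. -/
theorem upper_two {δ : ℝ} (hδ : 0 < δ) :
    ∃ Λ₀ : Set ℂ, Λ₀.Finite ∧ (∀ c ∈ Λ₀, IsAlgebraic ℚ c) ∧ ∃ K : ℝ,
    ∀ᶠ k : ℕ in atTop, ∃ s : ℕ,
      Computes (rootsU ∪ Λ₀) ((⌊K * k⌋₊ : ℕ) : ℕ∞) (dft (2 ^ k)) s ∧
      (s : ℝ) ≤ (4 * gam + δ) * (2 ^ k * k) := by
  obtain ⟨Λ₁, _, _, K₁, h₁⟩ := upper (show 0 < δ / 4 by linarith)
  have ht : Tendsto (fun k : ℕ => 2 ^ k) atTop atTop :=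
    tendsto_pow_atTop_atTop_of_one_lt (by omega)
  obtain ⟨B, hB⟩ := exists_nat_ge (4 / δ)
  obtain ⟨k₀, ⟨s, hs, hb⟩, hk1, hkB⟩ :=
    ((ht.eventually h₁).and ((eventually_ge_atTop 1).and (eventually_ge_atTop B))).exists
  have hk₀ : (1 : ℝ) ≤ k₀ := by exact_mod_cast hk1
  have hk₀' : 4 / δ ≤ k₀ := hB.trans (by exact_mod_cast hkB)
  rw [div_le_iff₀ hδ] at hk₀'
  have hl : Real.logb 2 ((2 ^ k₀ : ℕ) : ℝ) = k₀ := by
    push_cast
    rw [Real.logb_pow, Real.logb_self_eq_one (by norm_num), mul_one]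
  have hrate : rate 1 (2 ^ k₀) ≤ 4 * gam + δ / 2 := by
    unfold rate
    rw [hl, div_le_iff₀ (by positivity)]
    have h2 : (LMany 1 (2 ^ k₀) : ℝ) ≤ s := by
      exact_mod_cast (LMany_one_le _).trans (L_le hs)
    rw [hl] at hb
    have hP : (0 : ℝ) < ((2 ^ k₀ : ℕ) : ℝ) := by positivity
    set P : ℝ := ((2 ^ k₀ : ℕ) : ℝ) with hPdef
    have h3 : P ≤ δ / 4 * (P * k₀) := by nlinarith
    rw [Nat.cast_one, div_one]
    calc (LMany 1 (2 ^ k₀) : ℝ) + P ≤ (4 * gam + δ / 4) * (P * k₀) + δ / 4 * (P * k₀) := by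
          linarith
      _ = (4 * gam + δ / 2) * (P * k₀) := by ring
  obtain ⟨Λ₀, hf, halg, K, h⟩ := transfer_two (N := 1) le_rfl hk1 (show 0 < δ / 2 by linarith)
  refine ⟨Λ₀, hf, halg, K, ?_⟩
  filter_upwards [h] with k hk
  obtain ⟨s', hs', hb'⟩ := hk
  refine ⟨s', hs', hb'.trans ?_⟩
  refine mul_le_mul_of_nonneg_right (by linarith) (by positivity)

/-- A restricted lower bound with constant `c` is incompatible with `γ = 0`. -/
theorem gam_pos_of_frequently {c : ℝ} (hc : 0 < c)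
    (h : ∀ C : ℝ, ∃ᶠ n : ℕ in atTop, ∀ s : ℕ,
      Computes (algBall C) ((⌊C * Real.logb 2 n⌋₊ : ℕ) : ℕ∞) (dft n) s →
        c * (n * Real.logb 2 n) ≤ s) : 0 < gam := by
  by_contra hcon
  have h0 : gam = 0 := le_antisymm (not_lt.1 hcon) gam_nonneg
  obtain ⟨C, hC⟩ := upper_ball (show 0 < c / 2 by linarith)
  obtain ⟨n, hn, ⟨s, hs, hb⟩, hn2⟩ :=
    ((h C).and_eventually (hC.and (eventually_ge_atTop 2))).exists
  have h1 := hn s hs
  rw [h0] at hb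
  have h2 := logb_pos_of_two_le hn2
  have hn0 : (0 : ℝ) < n := by exact_mod_cast (by omega : 0 < n)
  have h3 : 0 < (n : ℝ) * Real.logb 2 n := by positivity
  nlinarith

theorem liminf_eq_gam :
    Filter.liminf (fun n : ℕ => (L n : ℝ) / (n * Real.logb 2 n)) atTop = gam := by
  have hpos : ∀ n : ℕ, 2 ≤ n → 0 < (n : ℝ) * Real.logb 2 n := by
    intro n hn
    have h2 := logb_pos_of_two_le hn
    have hn0 : (0 : ℝ) < n := by exact_mod_cast (by omega : 0 < n)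
    positivity
  have hbelow : IsBoundedUnder (· ≥ ·) atTop
      (fun n : ℕ => (L n : ℝ) / (n * Real.logb 2 n)) := by
    refine ⟨0, ?_⟩
    rw [eventually_map]
    filter_upwards [eventually_ge_atTop 2] with n hn
    have := hpos n hn
    positivity
  obtain ⟨_, _, _, _, hC⟩ := upper (show (0 : ℝ) < 1 by norm_num)
  have habove : IsBoundedUnder (· ≤ ·) atTop
      (fun n : ℕ => (L n : ℝ) / (n * Real.logb 2 n)) := by
    refine ⟨4 * gam + 1, ?_⟩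
    rw [eventually_map]
    filter_upwards [hC, eventually_ge_atTop 2] with n hn hn2
    obtain ⟨s, hs, hb⟩ := hn
    rw [div_le_iff₀ (hpos n hn2)]
    have : (L n : ℝ) ≤ s := by exact_mod_cast L_le hs
    linarith
  refine le_antisymm ?_ ?_
  · refine le_of_forall_pos_le_add fun ε hε => ?_
    obtain ⟨_, _, _, _, hC'⟩ := upper_frequently hε
    refine liminf_le_of_frequently_le ?_ hbelow
    refine (hC'.and_eventually (eventually_ge_atTop 2)).mono ?_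
    rintro n ⟨⟨s, hs, hb⟩, hn2⟩
    rw [div_le_iff₀ (hpos n hn2)]
    have : (L n : ℝ) ≤ s := by exact_mod_cast L_le hs
    linarith
  · refine le_of_forall_pos_le_add fun ε hε => ?_
    suffices gam - ε ≤ Filter.liminf (fun n : ℕ => (L n : ℝ) / (n * Real.logb 2 n)) atTop by
      linarith
    refine le_liminf_of_le habove.isCoboundedUnder_ge ?_
    filter_upwards [eventually_logb_ge (1 / ε), eventually_ge_atTop 2] with n hn hn2
    rw [le_div_iff₀ (hpos n hn2)]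
    have h1 := lower_one hn2
    have hn0 : (0 : ℝ) < n := by exact_mod_cast (by omega : 0 < n)
    rw [div_le_iff₀ hε] at hn
    nlinarith

/-- The equivalences. -/
theorem tfae_main : List.TFAE [
    ∃ c : ℝ, 0 < c ∧ ∀ᶠ n : ℕ in atTop, c * (n * Real.logb 2 n) ≤ L n,
    0 < gam,
    ∃ c : ℝ, 0 < c ∧ ∃ᶠ n : ℕ in atTop, c * (n * Real.logb 2 n) ≤ L n,
    ∃ c : ℝ, 0 < c ∧ ∀ C : ℝ, ∀ᶠ n : ℕ in atTop, ∀ s : ℕ,
      Computes (algBall C) ⌊C * Real.logb 2 n⌋₊ (dft n) s → c * (n * Real.logb 2 n) ≤ s,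
    ∃ C : ℕ → ℝ, Tendsto C atTop atTop ∧ ∃ c : ℝ, 0 < c ∧ ∀ᶠ n : ℕ in atTop, ∀ s : ℕ,
      Computes (algBall (C n)) ⌊C n * Real.logb 2 n⌋₊ (dft n) s → c * (n * Real.logb 2 n) ≤ s,
    ∃ c : ℝ, 0 < c ∧ ∀ (Λ₀ : Set ℂ) (K : ℝ), Λ₀.Finite → (∀ z ∈ Λ₀, IsAlgebraic ℚ z) →
      ∀ᶠ k : ℕ in atTop, ∀ s : ℕ,
      Computes (rootsU ∪ Λ₀) ⌊K * k⌋₊ (dft (2 ^ k)) s → c * (2 ^ k * k) ≤ s,
    ∃ c : ℝ, 0 < c ∧ ∀ N n : ℕ, 1 ≤ N → 2 ≤ n →
      N * (c * (n * Real.logb 2 n) - n) ≤ LMany N n] := by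
  tfae_have 2 → 1 := fun h => absorb h fun n hn => lower_one hn
  tfae_have 1 → 3 := fun ⟨c, hc, h⟩ => ⟨c, hc, h.frequently⟩
  tfae_have 3 → 2 := fun ⟨c, hc, h⟩ => gam_pos_of_frequently hc fun C =>
    h.mono fun n hn s hs => hn.trans (by exact_mod_cast L_le hs)
  tfae_have 1 → 4 := fun ⟨c, hc, h⟩ => ⟨c, hc, fun C =>
    h.mono fun n hn s hs => hn.trans (by exact_mod_cast L_le hs)⟩
  tfae_have 4 → 2 := fun ⟨c, hc, h⟩ => gam_pos_of_frequently hc fun C => (h C).frequently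
  tfae_have 1 → 5 := fun ⟨c, hc, h⟩ => ⟨fun n => n, tendsto_natCast_atTop_atTop, c, hc,
    h.mono fun n hn s hs => hn.trans (by exact_mod_cast L_le hs)⟩
  tfae_have 5 → 2 := by
    rintro ⟨C, hC, c, hc, h⟩
    refine gam_pos_of_frequently hc fun C' => Eventually.frequently ?_
    filter_upwards [h, hC.eventually_ge_atTop C', eventually_ge_atTop 2] with n hn hCn hn2 s hs
    have h2 := logb_pos_of_two_le hn2
    exact hn s (hs.mono_coeff (fun z hz => ⟨hz.1.trans hCn, hz.2⟩)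
      (mono_floor hCn (by linarith)))
  tfae_have 1 → 6 := by
    rintro ⟨c, hc, h⟩
    refine ⟨c, hc, fun Λ₀ K _ _ => ?_⟩
    have ht : Tendsto (fun k : ℕ => 2 ^ k) atTop atTop :=
      tendsto_pow_atTop_atTop_of_one_lt (by omega)
    filter_upwards [ht.eventually h] with k hk s hs
    have hl : Real.logb 2 ((2 ^ k : ℕ) : ℝ) = k := by
      push_cast
      rw [Real.logb_pow, Real.logb_self_eq_one (by norm_num), mul_one]
    rw [hl] at hk
    push_cast at hk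
    exact hk.trans (by exact_mod_cast L_le hs)
  tfae_have 6 → 2 := by
    rintro ⟨c, hc, h⟩
    by_contra hcon
    have h0 : gam = 0 := le_antisymm (not_lt.1 hcon) gam_nonneg
    obtain ⟨Λ₀, hf, halg, K, hC⟩ := upper_two (show 0 < c / 2 by linarith)
    obtain ⟨k, hk, ⟨s, hs, hb⟩, hk1⟩ :=
      ((h Λ₀ K hf halg).and (hC.and (eventually_ge_atTop 1))).exists
    have h1 := hk s hs
    rw [h0] at hb
    have hk0 : (0 : ℝ) < k := by exact_mod_cast (by omega : 0 < k)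
    have h3 : 0 < (2 : ℝ) ^ k * k := by positivity
    nlinarith
  tfae_have 2 → 7 := fun h => ⟨gam, h, fun N n hN hn => lower hN hn⟩
  tfae_have 7 → 1 := by
    rintro ⟨c, hc, h⟩
    refine absorb hc fun n hn => ?_
    have h1 := h 1 n le_rfl hn
    have h2 : (LMany 1 n : ℝ) ≤ L n := by exact_mod_cast LMany_one_le n
    rw [Nat.cast_one, one_mul] at h1
    linarith
  tfae_finish

end Vale.Agent.P344
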