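import Vale.Agent.P344.H952.Tower

/-!
# Coefficients may be taken algebraic
-/

namespace Vale.Agent.P344

open Set

/-- The field of algebraic numbers. -/
noncomputable abbrev QBar : IntermediateField ℚ ℂ := algebraicClosure ℚ ℂ

/-- A finitely generated algebra over an algebraically closed field has a point
(Zariski's lemma). -/
theorem exists_point' (K R : Type*) [Field K] [IsAlgClosed K] [CommRing R] [Nontrivial R]
    [Algebra K R] [Algebra.FiniteType K R] : Nonempty (R →ₐ[K] K) := by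
  obtain ⟨M, hM⟩ := Ideal.exists_maximal R
  let _ : Field (R ⧸ M) := Ideal.Quotient.field M
  have h2 : Algebra.FiniteType K (R ⧸ M) :=
    Algebra.FiniteType.of_surjective (Ideal.Quotient.mkₐ K M) (Ideal.Quotient.mkₐ_surjective K M)
  have h3 : Module.Finite K (R ⧸ M) := finite_of_finite_type_of_isJacobsonRing _ _
  have h4 : Algebra.IsIntegral K (R ⧸ M) := Algebra.IsIntegral.of_finite _ _
  have hb : Function.Bijective (algebraMap K (R ⧸ M)) :=
    IsAlgClosed.algebraMap_bijective_of_isIntegral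
  let e : K ≃ₐ[K] (R ⧸ M) := AlgEquiv.ofBijective (Algebra.ofId K _) hb
  exact ⟨e.symm.toAlgHom.comp (Ideal.Quotient.mkₐ K M)⟩

theorem exists_point (Λ₀ : Set ℂ) (hf : Λ₀.Finite) :
    Nonempty (Algebra.adjoin QBar Λ₀ →ₐ[QBar] QBar) := by
  have h0 : IsAlgClosure ℚ QBar := algebraicClosure.isAlgClosure ℚ ℂ
  have : IsAlgClosed QBar := IsAlgClosure.isAlgClosed ℚ
  have h1 : Algebra.FiniteType QBar (Algebra.adjoin QBar Λ₀) :=
    Subalgebra.fg_iff_finiteType _ |>.1 (Subalgebra.fg_def.2 ⟨Λ₀, hf, rfl⟩)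
  exact exists_point' QBar (Algebra.adjoin QBar Λ₀)

/-- The linear form with coefficients `a k`. -/
def form {ι : Type} [Fintype ι] (a : ι → ℂ) : (ι → ℂ) → ℂ := fun x => ∑ k, a k * x k

theorem form_injective {ι : Type} [Fintype ι] [DecidableEq ι] {a b : ι → ℂ}
    (h : form a = form b) : a = b := by
  funext k
  have := congrFun h (Pi.single k 1)
  simpa [form, Pi.single_apply] using this

/-- Specialising the coefficients of a circuit at a point. -/
theorem specialize {ι : Type} [Fintype ι] [DecidableEq ι] {Λ₀ : Set ℂ}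
    (φ : Algebra.adjoin QBar Λ₀ →ₐ[QBar] QBar) {s : ℕ} {V : Set (ℕ × ((ι → ℂ) → ℂ))}
    (h : Steps Λ₀ (inputs ι) s V) : ∃ Λ₁ : Set ℂ, Λ₁.Finite ∧ (∀ c ∈ Λ₁, IsAlgebraic ℚ c) ∧
      ∃ V', Steps Λ₁ (inputs ι) s V' ∧
      ∀ p ∈ V, ∃ a : ι → Algebra.adjoin QBar Λ₀, p.2 = form (fun k => (a k : ℂ)) ∧
        (p.1, form fun k => ((φ (a k) : QBar) : ℂ)) ∈ V' := by
  induction h with
  | zero =>
    refine ⟨∅, finite_empty, by simp, inputs ι, .zero, ?_⟩
    rintro ⟨d, u⟩ ⟨hd, hu⟩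
    simp only at hd hu
    subst hd
    rcases hu with rfl | ⟨k, rfl⟩
    · refine ⟨0, ?_, rfl, Or.inl ?_⟩
      · funext x; simp [form]
      · funext x; simp [form]
    · refine ⟨Pi.single k 1, ?_, rfl, Or.inr ⟨k, ?_⟩⟩
      · funext x
        simp [form, Pi.single_apply, apply_ite]
      · funext x
        simp [form, Pi.single_apply, apply_ite]
  | @add s V d e u v _ h1 h2 ih =>
    obtain ⟨Λ₁, hf, halg, V', hV', hm⟩ := ih
    obtain ⟨a, ha, ha'⟩ := hm _ h1
    obtain ⟨b, hb, hb'⟩ := hm _ h2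
    refine ⟨Λ₁, hf, halg, _, .add hV' ha' hb', ?_⟩
    rintro p (rfl | hp)
    · refine ⟨a + b, ?_, Or.inl ?_⟩
      · simp only at ha hb ⊢
        rw [ha, hb]
        funext x
        simp [form, add_mul, Finset.sum_add_distrib]
      · simp only
        congr 1
        funext x
        simp [form, add_mul, Finset.sum_add_distrib]
    · obtain ⟨c, hc, hc'⟩ := hm p hp
      exact ⟨c, hc, Or.inr hc'⟩
  | @sub s V d e u v _ h1 h2 ih =>
    obtain ⟨Λ₁, hf, halg, V', hV', hm⟩ := ih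
    obtain ⟨a, ha, ha'⟩ := hm _ h1
    obtain ⟨b, hb, hb'⟩ := hm _ h2
    refine ⟨Λ₁, hf, halg, _, .sub hV' ha' hb', ?_⟩
    rintro p (rfl | hp)
    · refine ⟨a - b, ?_, Or.inl ?_⟩
      · simp only at ha hb ⊢
        rw [ha, hb]
        funext x
        simp [form, sub_mul, Finset.sum_sub_distrib]
      · simp only
        congr 1
        funext x
        simp [form, sub_mul, Finset.sum_sub_distrib]
    · obtain ⟨c, hc, hc'⟩ := hm p hp
      exact ⟨c, hc, Or.inr hc'⟩
  | @smul s V d u c _ h1 hc ih =>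
    obtain ⟨Λ₁, hf, halg, V', hV', hm⟩ := ih
    obtain ⟨a, ha, ha'⟩ := hm _ h1
    let c' : Algebra.adjoin QBar Λ₀ := ⟨c, Algebra.subset_adjoin hc⟩
    have hc' : IsAlgebraic ℚ ((φ c' : QBar) : ℂ) := mem_algebraicClosure_iff.1 (φ c').2
    refine ⟨insert ((φ c' : QBar) : ℂ) Λ₁, hf.insert _, ?_, _,
      .smul _ (hV'.mono_coeff (subset_insert _ _)) ha' (mem_insert _ _), ?_⟩
    · rintro z (rfl | hz)
      · exact hc'
      · exact halg z hz
    · rintro p (rfl | hp)
      · refine ⟨fun k => c' * a k, ?_, Or.inl ?_⟩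
        · simp only at ha ⊢
          rw [ha]
          funext x
          simp [form, c', Finset.mul_sum, mul_assoc]
        · simp only
          congr 1
          funext x
          simp [form, Finset.mul_sum, mul_assoc]
      · obtain ⟨b, hb, hb'⟩ := hm p hp
        exact ⟨b, hb, Or.inr hb'⟩

/-- A family of linear forms with algebraic coefficients has an optimal circuit with algebraic
coefficients. -/
theorem Computes.algebraic {ι κ : Type} [Fintype ι] {A : κ → ι → ℂ}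
    (hA : ∀ j k, IsAlgebraic ℚ (A j k)) {F : κ → (ι → ℂ) → ℂ} (hF : ∀ j, F j = form (A j))
    {s : ℕ} {Λ : Set ℂ} {D : ℕ∞} (h : Computes Λ D F s) :
    ∃ Λ₁ : Set ℂ, Λ₁.Finite ∧ (∀ c ∈ Λ₁, IsAlgebraic ℚ c) ∧ Computes Λ₁ D F s := by
  classical
  obtain ⟨V, hV, hout⟩ := h
  obtain ⟨Λ₀, hf, _, hst⟩ := hV.finite_coeff
  obtain ⟨φ⟩ := exists_point Λ₀ hf
  obtain ⟨Λ₁, hf₁, halg, V', hV', hm⟩ := specialize φ hst
  refine ⟨Λ₁, hf₁, halg, V', hV', fun j => ?_⟩
  obtain ⟨d, hd, hdV⟩ := hout j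
  refine ⟨d, hd, ?_⟩
  obtain ⟨a, ha, ha'⟩ := hm _ hdV
  simp only at ha ha'
  rw [hF j] at ha
  have hcoef : ∀ k, A j k = (a k : ℂ) := fun k => congrFun (form_injective ha) k
  have hφ : ∀ k, ((φ (a k) : QBar) : ℂ) = A j k := by
    intro k
    let b : QBar := ⟨A j k, mem_algebraicClosure_iff.2 (hA j k)⟩
    have hb : a k = algebraMap QBar (Algebra.adjoin QBar Λ₀) b := by
      apply Subtype.ext
      rw [← hcoef k]
      rfl
    rw [hb, AlgHom.commutes]
    rfl
  rw [hF j]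
  simp only [hφ] at ha'
  exact ha'

end Vale.Agent.P344
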