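import Vale.Agent.P344.H952.Algebraic

/-!
# Asymptotic consequences
-/

namespace Vale.Agent.P344

open Set Filter

/-- `(L_N(m)/N + m) / (m log m)`. -/
noncomputable def rate (N m : ℕ) : ℝ := ((LMany N m : ℝ) / N + m) / (m * Real.logb 2 m)

theorem LMany_spec (N n : ℕ) : Computes Set.univ ⊤ (dfts N n) (LMany N n) := by
  have h : (LMany N n) ∈ {s | Computes Set.univ ⊤ (dfts N n) s} := by
    refine Nat.sInf_mem ?_
    obtain ⟨s, _, hs⟩ := (naive_family (Λ := Set.univ) (fun _ _ => mem_univ _) N n).computes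
      (D := ⊤) le_top
    exact ⟨s, hs⟩
  exact h

theorem L_spec (n : ℕ) : Computes Set.univ ⊤ (dft n) (L n) := by
  have h : (L n) ∈ {s | Computes Set.univ ⊤ (dft n) s} := by
    refine Nat.sInf_mem ?_
    obtain ⟨s, _, hs⟩ := (naive (Λ := Set.univ) (fun _ _ => mem_univ _) n).computes
      (D := ⊤) le_top
    exact ⟨s, hs⟩
  exact h

theorem Computes.mono_coeff {Λ Λ' : Set ℂ} {D D' : ℕ∞} {ι κ : Type} {F : κ → (ι → ℂ) → ℂ}
    {s : ℕ} (h : Computes Λ D F s) (hΛ : Λ ⊆ Λ') (hD : D ≤ D') : Computes Λ' D' F s := by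
  obtain ⟨V, hV, hF⟩ := h
  refine ⟨V, hV.mono_coeff hΛ, fun j => ?_⟩
  obtain ⟨d, hd, hm⟩ := hF j
  exact ⟨d, hd.trans hD, hm⟩

theorem L_le {Λ : Set ℂ} {D : ℕ∞} {n s : ℕ} (h : Computes Λ D (dft n) s) : L n ≤ s :=
  Nat.sInf_le (h.mono_coeff (subset_univ _) le_top)

theorem LMany_one_le (n : ℕ) : LMany 1 n ≤ L n := by
  obtain ⟨s', hs', hc⟩ := (single (L_spec n).blk).computes (D := ⊤) le_top
  exact (Nat.sInf_le (hc.mono_coeff (subset_univ _) le_rfl)).trans hs'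

theorem logb_pos_of_two_le {m : ℕ} (hm : 2 ≤ m) : 1 ≤ Real.logb 2 m := by
  rw [Real.le_logb_iff_rpow_le (by norm_num) (by exact_mod_cast (by omega : 0 < m))]
  rw [Real.rpow_one]
  exact_mod_cast hm

theorem rate_nonneg {N m : ℕ} (hm : 2 ≤ m) : 0 ≤ rate N m := by
  have := logb_pos_of_two_le hm
  unfold rate
  positivity

theorem choose_kr {R m n : ℕ} (hR : 1 ≤ R) (hm : 2 ≤ m) (hn : R ≤ 2 * n) :
    ∃ k r : ℕ, 0 < r ∧ r ≤ R * m ∧ 2 * n ≤ r * m ^ k ∧ R * m ^ k ≤ 2 * n ∧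
      r * m ^ k ≤ 2 * n + m ^ k := by
  have h1 : 1 ≤ 2 * n / R := (Nat.one_le_div_iff hR).2 hn
  set k := Nat.log m (2 * n / R) with hk
  have h2 : m ^ k ≤ 2 * n / R := Nat.pow_log_le_self m (by omega)
  have h3 : 2 * n / R < m ^ (k + 1) := Nat.lt_pow_succ_log_self (by omega) _
  have hmk : 0 < m ^ k := by positivity
  refine ⟨k, 2 * n / m ^ k + 1, Nat.succ_pos _, ?_, ?_, ?_, ?_⟩
  · have h4 : 2 * n < m ^ (k + 1) * R := (Nat.div_lt_iff_lt_mul hR).1 h3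
    have h5 : 2 * n / m ^ k < R * m := by
      rw [Nat.div_lt_iff_lt_mul hmk]
      calc 2 * n < m ^ (k + 1) * R := h4
        _ = R * m * m ^ k := by rw [pow_succ]; ring
    omega
  · have := Nat.lt_div_mul_add (a := 2 * n) hmk
    rw [Nat.add_mul, one_mul]
    omega
  · calc R * m ^ k ≤ R * (2 * n / R) := Nat.mul_le_mul_left _ h2
      _ ≤ 2 * n := Nat.mul_div_le _ _
  · rw [Nat.add_mul, one_mul]
    have := Nat.div_mul_le_self (2 * n) (m ^ k)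
    omega

theorem rate_mul {N m : ℕ} (hN : 1 ≤ N) (hm : 2 ≤ m) :
    (LMany N m : ℝ) / (N * m) + 1 = rate N m * Real.logb 2 m := by
  have h1 := logb_pos_of_two_le hm
  have h2 : (0 : ℝ) < m := by exact_mod_cast (by omega : 0 < m)
  have h3 : (0 : ℝ) < N := by exact_mod_cast (by omega : 0 < N)
  unfold rate
  field_simp

theorem k_le {m k n : ℕ} (hm : 2 ≤ m) (hn : 1 ≤ n) (h : m ^ k ≤ 2 * n) :
    (k : ℝ) * Real.logb 2 m ≤ 1 + Real.logb 2 n := by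
  have hm0 : (0 : ℝ) < m := by exact_mod_cast (by omega : 0 < m)
  have hn0 : (0 : ℝ) < n := by exact_mod_cast hn
  have h1 : (m : ℝ) ^ k ≤ 2 * n := by exact_mod_cast h
  have h2 : Real.logb 2 ((m : ℝ) ^ k) ≤ Real.logb 2 (2 * n) :=
    Real.logb_le_logb_of_le (by norm_num) (by positivity) h1
  rw [Real.logb_pow, Real.logb_mul (by norm_num) hn0.ne', Real.logb_self_eq_one (by norm_num)] at h2
  exact h2

/-- The coefficients of the outputs of `N` transforms `F_n`. -/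
noncomputable def coeffs (N n : ℕ) (p q : Fin N × Fin n) : ℂ :=
  if q.1 = p.1 then zeta n ^ ((p.2 : ℕ) * (q.2 : ℕ)) else 0

theorem coeffs_alg (N n : ℕ) (p q : Fin N × Fin n) : IsAlgebraic ℚ (coeffs N n p q) := by
  unfold coeffs
  split_ifs
  · exact isAlgebraic_of_rootsU (zeta_pow_mem _ _)
  · exact isAlgebraic_zero

theorem dfts_form (N n : ℕ) (p : Fin N × Fin n) : dfts N n p = form (coeffs N n p) := by
  funext x
  simp only [dfts, dft_def, form, coeffs, Fintype.sum_prod_type, ite_mul, zero_mul]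
  rw [Finset.sum_comm]
  simp

theorem dfts_eq_dftI (N n : ℕ) : dfts N n = dftI (Fin N) n := rfl

/-- Common data extracted from an optimal circuit for `N` transforms `F_m`. -/
theorem base_block (N m : ℕ) : ∃ Λ₀ : Set ℂ, Λ₀.Finite ∧ (∀ c ∈ Λ₀, IsAlgebraic ℚ c) ∧
    Blk Λ₀ (dftI (Fin N) m) (LMany N m) (LMany N m) := by
  obtain ⟨Λ₁, hf₁, halg, hc⟩ :=
    Computes.algebraic (coeffs_alg N m) (dfts_form N m) (LMany_spec N m)
  have h := hc.blk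
  rw [dfts_eq_dftI] at h
  exact ⟨Λ₁, hf₁, halg, h⟩

theorem logb_nat_tendsto : Tendsto (fun n : ℕ => Real.logb 2 (n : ℝ)) atTop atTop :=
  (Real.tendsto_logb_atTop (by norm_num)).comp tendsto_natCast_atTop_atTop

theorem logb_le_self {n : ℕ} (hn : 1 ≤ n) : Real.logb 2 (n : ℝ) ≤ n := by
  have hn0 : (0 : ℝ) < n := by exact_mod_cast hn
  rw [Real.logb_le_iff_le_rpow (by norm_num) hn0, Real.rpow_natCast]
  exact_mod_cast Nat.lt_two_pow_self.le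

/-- The numerical core of `transfer`. -/
theorem numeric_core {R m n r k P c S a ℓ s' δ A : ℝ} (hR1 : 1 ≤ R) (hm0 : 0 < m)
    (hn1 : 1 ≤ n) (hr : 0 ≤ r) (hrR : r ≤ R * m) (hP : 0 ≤ P) (hle : r * P ≤ 2 * n + P)
    (hRk : R * P ≤ 2 * n) (hkA : k * (A + 1) ≤ a * (1 + ℓ)) (hkl : k ≤ 1 + ℓ)
    (hcb : c ≤ (r * P) * (2 * r + k * (A + 1)) + k * S) (hs' : s' ≤ 2 * c + r * P + 2 * n)
    (ha0 : 0 ≤ a) (hS0 : 0 ≤ S) (hℓ : 1 ≤ ℓ) (hℓn : 1 + ℓ ≤ 2 * n)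
    (hB : 4 * (4 * (R * m) + 2 * a + 1) + 4 * S + 2 ≤ δ / 2 * ℓ) (hRa : 4 * a / R ≤ δ / 2) :
    s' ≤ (4 * a + δ) * (n * ℓ) := by
  have hR0 : 0 < R := by linarith
  have hx : 0 ≤ r * P := by positivity
  have hP' : P ≤ 2 * n / R := by rw [le_div_iff₀ hR0]; linarith
  have hn' : r * P ≤ 2 * n * (1 + 1 / R) := by
    calc r * P ≤ 2 * n + 2 * n / R := by linarith
      _ = 2 * n * (1 + 1 / R) := by ring
  have hR2 : 1 / R ≤ 1 := by rw [div_le_one hR0]; exact hR1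
  have hn4 : r * P ≤ 4 * n := by nlinarith
  have haℓ : 0 ≤ a * ℓ := by positivity
  have e1 : 2 * (r * P) * (a * ℓ) ≤ 2 * (2 * n * (1 + 1 / R)) * (a * ℓ) :=
    mul_le_mul_of_nonneg_right (by linarith) haℓ
  have hRm : 0 ≤ R * m := by positivity
  have e2 : (r * P) * (4 * r + 2 * a + 1) ≤ 4 * n * (4 * (R * m) + 2 * a + 1) :=
    mul_le_mul hn4 (by linarith) (by linarith) (by linarith)
  have e3 : 2 * (1 + ℓ) * S ≤ 2 * (2 * n) * S :=
    mul_le_mul_of_nonneg_right (by linarith) hS0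
  have e4 : (r * P) * (2 * r + k * (A + 1)) ≤ (r * P) * (2 * r + a * (1 + ℓ)) :=
    mul_le_mul_of_nonneg_left (by linarith) hx
  have e5 : k * S ≤ (1 + ℓ) * S := mul_le_mul_of_nonneg_right hkl hS0
  have e6 : s' ≤ 4 * n * (1 + 1 / R) * (a * ℓ) +
      n * (4 * (4 * (R * m) + 2 * a + 1) + 4 * S + 2) := by
    calc s' ≤ 2 * ((r * P) * (2 * r + a * (1 + ℓ)) + (1 + ℓ) * S) + r * P + 2 * n := by
          linarith
      _ = 2 * (r * P) * (a * ℓ) + (r * P) * (4 * r + 2 * a + 1) + 2 * (1 + ℓ) * S + 2 * n := by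
          ring
      _ ≤ 2 * (2 * n * (1 + 1 / R)) * (a * ℓ) + 4 * n * (4 * (R * m) + 2 * a + 1) +
            2 * (2 * n) * S + 2 * n := by linarith
      _ = 4 * n * (1 + 1 / R) * (a * ℓ) +
            n * (4 * (4 * (R * m) + 2 * a + 1) + 4 * S + 2) := by ring
  have hn0 : 0 ≤ n := by linarith
  have e7 : n * (4 * (4 * (R * m) + 2 * a + 1) + 4 * S + 2) ≤ n * (δ / 2 * ℓ) :=
    mul_le_mul_of_nonneg_left hB hn0
  have e8 : (4 * a / R) * (n * ℓ) ≤ (δ / 2) * (n * ℓ) :=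
    mul_le_mul_of_nonneg_right hRa (by positivity)
  calc s' ≤ 4 * n * (1 + 1 / R) * (a * ℓ) +
      n * (4 * (4 * (R * m) + 2 * a + 1) + 4 * S + 2) := e6
    _ = 4 * a * (n * ℓ) + (4 * a / R) * (n * ℓ) +
      n * (4 * (4 * (R * m) + 2 * a + 1) + 4 * S + 2) := by ring
    _ ≤ 4 * a * (n * ℓ) + (δ / 2) * (n * ℓ) + n * (δ / 2 * ℓ) := by linarith
    _ = (4 * a + δ) * (n * ℓ) := by ring

/-- The transfer inequality. -/
theorem transfer {N m : ℕ} (hN : 1 ≤ N) (hm : 2 ≤ m) {δ : ℝ} (hδ : 0 < δ) :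
    ∃ Λ₀ : Set ℂ, Λ₀.Finite ∧ (∀ c ∈ Λ₀, IsAlgebraic ℚ c) ∧ ∃ K : ℝ,
    ∀ᶠ n : ℕ in atTop, ∃ s : ℕ,
      Computes (algBall 1 ∪ Λ₀) ((⌊K * Real.logb 2 n⌋₊ : ℕ) : ℕ∞) (dft n) s ∧
      (s : ℝ) ≤ (4 * rate N m + δ) * (n * Real.logb 2 n) := by
  obtain ⟨Λ₀, hf, halg, hblk⟩ := base_block N m
  refine ⟨Λ₀, hf, halg, ?_⟩
  set S : ℕ := LMany N m with hS
  set a : ℝ := rate N m with ha
  have ha0 : 0 ≤ a := rate_nonneg hm
  -- choice of `R`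
  obtain ⟨R, hR⟩ := exists_nat_ge (max 1 (8 * a / δ))
  have hR1 : (1 : ℝ) ≤ R := (le_max_left _ _).trans hR
  have hR1' : 1 ≤ R := by exact_mod_cast hR1
  have hR0 : (0 : ℝ) < R := by linarith
  have hRa : 8 * a / δ ≤ R := (le_max_right _ _).trans hR
  have hRa' : 4 * a / R ≤ δ / 2 := by
    rw [div_le_iff₀ hδ] at hRa
    rw [div_le_iff₀ hR0]
    linarith
  set B : ℝ := 4 * (4 * (R * m) + 2 * a + 1) + 4 * S + 2 with hB
  set K : ℝ := 2 * (R * m + 1) + 4 * (S + 1) + 3 with hK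
  have hm0 : (0 : ℝ) < m := by exact_mod_cast (by omega : 0 < m)
  have hK0 : 0 ≤ K := by positivity
  refine ⟨K, ?_⟩
  have ev1 : ∀ᶠ n : ℕ in atTop, 2 * B / δ ≤ Real.logb 2 (n : ℝ) :=
    logb_nat_tendsto.eventually_ge_atTop _
  filter_upwards [ev1, eventually_ge_atTop 2, eventually_ge_atTop R] with n hn1 hn2 hnR
  obtain ⟨k, r, hr0, hrR, h2n, hRk, hle⟩ := choose_kr (n := n) hR1' hm (by omega)
  obtain ⟨c, hc, hcb⟩ := tower (Λ := algBall 1 ∪ Λ₀) (by omega) hm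
    (rootsU_subset_algBall.trans subset_union_left)
    (Blk.mono_coeff subset_union_right hblk) hr0 k 1
  have hbl := bluestein (n := n) (by omega) h2n subset_union_left (single' hc)
  have hlog1 : 1 ≤ Real.logb 2 (n : ℝ) := logb_pos_of_two_le hn2
  set ℓ : ℝ := Real.logb 2 (n : ℝ) with hℓ
  have hn0 : (0 : ℝ) < n := by exact_mod_cast (by omega : 0 < n)
  have hkm : (k : ℝ) * Real.logb 2 m ≤ 1 + ℓ := by
    refine k_le hm (by omega) ?_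
    calc m ^ k ≤ R * m ^ k := Nat.le_mul_of_pos_left _ (by omega)
      _ ≤ 2 * n := hRk
  have hkl : (k : ℝ) ≤ 1 + ℓ := by
    have := logb_pos_of_two_le hm
    have hk0 : (0 : ℝ) ≤ k := Nat.cast_nonneg _
    nlinarith
  have hrr : (r : ℝ) ≤ R * m := by exact_mod_cast hrR
  -- depth
  have hdepth : (((2 * (r + 1 + k * (S + 1)) + 3 : ℕ) : ℕ∞)) ≤
      ((⌊K * ℓ⌋₊ : ℕ) : ℕ∞) := by
    have : 2 * (r + 1 + k * (S + 1)) + 3 ≤ ⌊K * ℓ⌋₊ := by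
      apply Nat.le_floor
      push_cast
      have hS0 : (0 : ℝ) ≤ S := Nat.cast_nonneg _
      calc 2 * ((r : ℝ) + 1 + k * (S + 1)) + 3
          ≤ 2 * (R * m + 1 + (1 + ℓ) * (S + 1)) + 3 := by gcongr
        _ ≤ K * ℓ := by
            rw [hK]
            have : (0 : ℝ) ≤ R * m := by positivity
            nlinarith
    exact_mod_cast this
  obtain ⟨s', hs', hcomp⟩ := hbl.computes hdepth
  refine ⟨s', hcomp, ?_⟩
  -- size
  have hs'r : (s' : ℝ) ≤ 2 * c + r * (m : ℝ) ^ k + 2 * n := by exact_mod_cast hs'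
  have hRk' : (R : ℝ) * (m : ℝ) ^ k ≤ 2 * n := by exact_mod_cast hRk
  have hle' : (r : ℝ) * (m : ℝ) ^ k ≤ 2 * n + (m : ℝ) ^ k := by exact_mod_cast hle
  have hA : (S : ℝ) / (N * m) + 1 = a * Real.logb 2 m := rate_mul hN hm
  have h1 : (k : ℝ) * ((S : ℝ) / (N * m) + 1) ≤ a * (1 + ℓ) := by
    rw [hA]
    calc (k : ℝ) * (a * Real.logb 2 m) = a * (k * Real.logb 2 m) := by ring
      _ ≤ a * (1 + ℓ) := mul_le_mul_of_nonneg_left hkm ha0
  have hn1r : (1 : ℝ) ≤ n := by exact_mod_cast (by omega : 1 ≤ n)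
  have hℓn : 1 + ℓ ≤ 2 * n := by
    have := logb_le_self (n := n) (by omega)
    linarith
  have hBl : B ≤ δ / 2 * ℓ := by
    rw [div_le_iff₀ hδ] at hn1
    linarith
  rw [Nat.cast_one, one_mul] at hcb
  exact numeric_core hR1 hm0 hn1r (Nat.cast_nonneg _) hrr (by positivity) hle' hRk' h1 hkl hcb
    hs'r ha0 (Nat.cast_nonneg _) hlog1 hℓn hBl hRa'

/-- Along the numbers `r m^a`, with `r` bounded and only roots of unity and finitely many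
other coefficients. -/
theorem transfer_tower {N m : ℕ} (hN : 1 ≤ N) (hm : 2 ≤ m) (R : ℕ) {δ : ℝ} (hδ : 0 < δ) :
    ∃ Λ₀ : Set ℂ, Λ₀.Finite ∧ (∀ c ∈ Λ₀, IsAlgebraic ℚ c) ∧ ∃ K : ℝ, ∃ a₀ : ℕ,
    ∀ a r : ℕ, a₀ ≤ a → 0 < r → r ≤ R → ∃ s : ℕ,
      Computes (rootsU ∪ Λ₀) ((⌊K * a⌋₊ : ℕ) : ℕ∞) (dft (r * m ^ a)) s ∧
      (s : ℝ) ≤ (rate N m + δ) * ((r * m ^ a : ℕ) * (a * Real.logb 2 m)) := by
  obtain ⟨Λ₀, hf, halg, hblk⟩ := base_block N m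
  set S : ℕ := LMany N m with hS
  set ρ : ℝ := rate N m with hρ
  have hlm := logb_pos_of_two_le hm
  have hm0 : (0 : ℝ) < m := by exact_mod_cast (by omega : 0 < m)
  obtain ⟨a₀, ha₀⟩ := exists_nat_ge ((2 * R + S) / δ)
  refine ⟨Λ₀, hf, halg, R + 1 + (S + 1), max 1 a₀, ?_⟩
  intro a r ha hr hrR
  have ha1 : 1 ≤ a := (le_max_left _ _).trans ha
  have ha2 : a₀ ≤ a := (le_max_right _ _).trans ha
  obtain ⟨c, hc, hcb⟩ := tower (Λ := rootsU ∪ Λ₀) (by omega) hm subset_union_left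
    (Blk.mono_coeff subset_union_right hblk) hr a 1
  have hrr : (r : ℝ) ≤ R := by exact_mod_cast hrR
  have ha1r : (1 : ℝ) ≤ a := by exact_mod_cast ha1
  have hS0 : (0 : ℝ) ≤ S := Nat.cast_nonneg _
  have hR0 : (0 : ℝ) ≤ R := Nat.cast_nonneg _
  have hdepth : (((r + 1 + a * (S + 1) : ℕ) : ℕ∞)) ≤
      ((⌊((R : ℝ) + 1 + (S + 1)) * a⌋₊ : ℕ) : ℕ∞) := by
    have : r + 1 + a * (S + 1) ≤ ⌊((R : ℝ) + 1 + (S + 1)) * a⌋₊ := by
      apply Nat.le_floor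
      push_cast
      nlinarith
    exact_mod_cast this
  obtain ⟨s', hs', hcomp⟩ := (single' hc).computes hdepth
  refine ⟨s', hcomp, ?_⟩
  have hs'r : (s' : ℝ) ≤ c := by exact_mod_cast hs'
  have hA : (S : ℝ) / (N * m) + 1 = ρ * Real.logb 2 m := rate_mul hN hm
  rw [hA, Nat.cast_one, one_mul] at hcb
  push_cast
  have hP : (1 : ℝ) ≤ r * (m : ℝ) ^ a := by
    have h1 : (1 : ℝ) ≤ (m : ℝ) ^ a := one_le_pow₀ (by exact_mod_cast (by omega : 1 ≤ m))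
    have h2 : (1 : ℝ) ≤ r := by exact_mod_cast hr
    nlinarith
  have haδ : 2 * (R : ℝ) + S ≤ δ * a := by
    have : (2 * (R : ℝ) + S) / δ ≤ a := ha₀.trans (by exact_mod_cast ha2)
    rw [div_le_iff₀ hδ] at this
    linarith
  have ham : (a : ℝ) ≤ r * (m : ℝ) ^ a := by
    have h1 : a < m ^ a := Nat.lt_pow_self (by omega)
    have h2 : (a : ℝ) ≤ (m : ℝ) ^ a := by exact_mod_cast h1.le
    have h3 : (1 : ℝ) ≤ r := by exact_mod_cast hr
    have h4 : (0 : ℝ) ≤ (m : ℝ) ^ a := by positivity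
    nlinarith
  set P : ℝ := r * (m : ℝ) ^ a with hPdef
  have hP0 : 0 ≤ P := by linarith
  have e1 : (a : ℝ) * S ≤ P * S := mul_le_mul_of_nonneg_right ham hS0
  have e2 : 2 * (R : ℝ) + S ≤ δ * (a * Real.logb 2 m) := by
    calc 2 * (R : ℝ) + S ≤ δ * a := haδ
      _ ≤ δ * (a * Real.logb 2 m) := by
        have : (a : ℝ) ≤ a * Real.logb 2 m := by nlinarith
        exact mul_le_mul_of_nonneg_left this hδ.le
  have e3 : P * (2 * r) ≤ P * (2 * R) := mul_le_mul_of_nonneg_left (by linarith) hP0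
  calc (s' : ℝ) ≤ c := hs'r
    _ ≤ P * (2 * r + a * (ρ * Real.logb 2 m)) + a * S := hcb
    _ ≤ P * (ρ * (a * Real.logb 2 m)) + P * (2 * R + S) := by linarith
    _ ≤ P * (ρ * (a * Real.logb 2 m)) + P * (δ * (a * Real.logb 2 m)) := by
        have := mul_le_mul_of_nonneg_left e2 hP0
        linarith
    _ = (ρ + δ) * (P * (a * Real.logb 2 m)) := by ring

/-- Along powers of `m`. -/
theorem transfer_powers {N m : ℕ} (hN : 1 ≤ N) (hm : 2 ≤ m) {δ : ℝ} (hδ : 0 < δ) :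
    ∃ Λ₀ : Set ℂ, Λ₀.Finite ∧ (∀ c ∈ Λ₀, IsAlgebraic ℚ c) ∧ ∃ K : ℝ,
    ∀ᶠ k : ℕ in atTop, ∃ s : ℕ,
      Computes (rootsU ∪ Λ₀) ((⌊K * Real.logb 2 (m ^ k : ℕ)⌋₊ : ℕ) : ℕ∞) (dft (m ^ k)) s ∧
      (s : ℝ) ≤ (rate N m + δ) * ((m ^ k : ℕ) * Real.logb 2 (m ^ k : ℕ)) := by
  obtain ⟨Λ₀, hf, halg, K, a₀, h⟩ := transfer_tower (N := N) hN hm 1 hδ
  refine ⟨Λ₀, hf, halg, max K 0, ?_⟩
  filter_upwards [eventually_ge_atTop a₀] with k hk
  obtain ⟨s, hs, hb⟩ := h k 1 hk one_pos le_rfl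
  have hlogk : Real.logb 2 ((m ^ k : ℕ) : ℝ) = k * Real.logb 2 m := by
    push_cast
    rw [Real.logb_pow]
  have hlm := logb_pos_of_two_le hm
  rw [one_mul] at hs hb
  refine ⟨s, hs.mono_coeff Subset.rfl ?_, ?_⟩
  · rw [hlogk]
    have : ⌊K * (k : ℝ)⌋₊ ≤ ⌊max K 0 * (k * Real.logb 2 m)⌋₊ := by
      refine Nat.floor_le_floor ?_
      have h1 : (k : ℝ) ≤ k * Real.logb 2 m := by
        have : (0 : ℝ) ≤ k := Nat.cast_nonneg _
        nlinarith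
      calc K * (k : ℝ) ≤ max K 0 * k :=
            mul_le_mul_of_nonneg_right (le_max_left _ _) (Nat.cast_nonneg _)
        _ ≤ max K 0 * (k * Real.logb 2 m) :=
            mul_le_mul_of_nonneg_left h1 (le_max_right _ _)
    exact_mod_cast this
  · rw [hlogk]
    exact hb

/-- Along powers of two. -/
theorem transfer_two {N k₀ : ℕ} (hN : 1 ≤ N) (hk₀ : 1 ≤ k₀) {δ : ℝ} (hδ : 0 < δ) :
    ∃ Λ₀ : Set ℂ, Λ₀.Finite ∧ (∀ c ∈ Λ₀, IsAlgebraic ℚ c) ∧ ∃ K : ℝ,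
    ∀ᶠ k : ℕ in atTop, ∃ s : ℕ,
      Computes (rootsU ∪ Λ₀) ((⌊K * k⌋₊ : ℕ) : ℕ∞) (dft (2 ^ k)) s ∧
      (s : ℝ) ≤ (rate N (2 ^ k₀) + δ) * (2 ^ k * k) := by
  have hm : 2 ≤ 2 ^ k₀ := by
    calc 2 = 2 ^ 1 := (pow_one 2).symm
      _ ≤ 2 ^ k₀ := Nat.pow_le_pow_right (by omega) hk₀
  obtain ⟨Λ₀, hf, halg, K, a₀, h⟩ := transfer_tower (N := N) hN hm (2 ^ k₀) hδ
  refine ⟨Λ₀, hf, halg, max K 0, ?_⟩
  filter_upwards [eventually_ge_atTop (k₀ * a₀)] with k hk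
  have hk0 : 0 < k₀ := hk₀
  have ha : a₀ ≤ k / k₀ := (Nat.le_div_iff_mul_le hk0).2 (by rw [mul_comm]; exact hk)
  have hmod : k % k₀ < k₀ := Nat.mod_lt _ hk0
  obtain ⟨s, hs, hb⟩ := h (k / k₀) (2 ^ (k % k₀)) ha (by positivity)
    (Nat.pow_le_pow_right (by omega) hmod.le)
  have e1 : 2 ^ (k % k₀) * (2 ^ k₀) ^ (k / k₀) = 2 ^ k := by
    rw [← pow_mul, ← pow_add, Nat.mod_add_div]
  rw [e1] at hs hb
  have hdiv : k / k₀ ≤ k := Nat.div_le_self _ _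
  have hdivr : ((k / k₀ : ℕ) : ℝ) ≤ k := by exact_mod_cast hdiv
  refine ⟨s, hs.mono_coeff Subset.rfl ?_, hb.trans ?_⟩
  · have : ⌊K * ((k / k₀ : ℕ) : ℝ)⌋₊ ≤ ⌊max K 0 * (k : ℝ)⌋₊ := by
      refine Nat.floor_le_floor ?_
      calc K * ((k / k₀ : ℕ) : ℝ) ≤ max K 0 * ((k / k₀ : ℕ) : ℝ) :=
            mul_le_mul_of_nonneg_right (le_max_left _ _) (Nat.cast_nonneg _)
        _ ≤ max K 0 * (k : ℝ) :=
            mul_le_mul_of_nonneg_left hdivr (le_max_right _ _)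
    exact_mod_cast this
  · have hl : Real.logb 2 ((2 ^ k₀ : ℕ) : ℝ) = k₀ := by
      push_cast
      rw [Real.logb_pow, Real.logb_self_eq_one (by norm_num), mul_one]
    rw [hl]
    push_cast
    have h1 : ((k / k₀ : ℕ) : ℝ) * k₀ ≤ k := by exact_mod_cast Nat.div_mul_le_self k k₀
    have h2 : 0 ≤ rate N (2 ^ k₀) + δ := by
      have := rate_nonneg (N := N) hm
      linarith
    refine mul_le_mul_of_nonneg_left ?_ h2
    refine mul_le_mul_of_nonneg_left h1 (by positivity)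

end Vale.Agent.P344
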