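import Vale.Agent.P344.H952.CT

/-!
# Bluestein's reduction
-/

namespace Vale.Agent.P344

open Set

variable {Λ Λ' : Set ℂ} {X Y : Type}

/-- Orthogonality of the characters. -/
theorem char_sum {N : ℕ} (hN : N ≠ 0) (t : ℕ) :
    ∑ l ∈ Finset.range N, zeta N ^ (l * t) = if N ∣ t then (N : ℂ) else 0 := by
  have hz := zeta_prim hN
  split_ifs with h
  · obtain ⟨r, rfl⟩ := h
    have : ∀ l ∈ Finset.range N, zeta N ^ (l * (N * r)) = 1 := by
      intro l _
      rw [show l * (N * r) = N * (l * r) by ring, pow_mul, hz.pow_eq_one, one_pow]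
    rw [Finset.sum_congr rfl this]
    simp
  · have h1 : zeta N ^ t ≠ 1 := fun h' => h ((hz.pow_eq_one_iff_dvd t).1 h')
    have h2 : ∑ l ∈ Finset.range N, (zeta N ^ t) ^ l = 0 := by
      have := geom_sum_mul (zeta N ^ t) N
      rw [← pow_mul, mul_comm t N, pow_mul, hz.pow_eq_one, one_pow, sub_self] at this
      rcases mul_eq_zero.1 this with h3 | h3
      · exact h3
      · exact absurd (sub_eq_zero.1 h3) h1
    rw [← h2]
    refine Finset.sum_congr rfl fun l _ => ?_
    rw [← pow_mul, mul_comm]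

/-- The chirp `e^{-πi m²/n}`, extended by symmetry modulo `N` and by `0`. -/
noncomputable def chirp (n N m : ℕ) : ℂ :=
  if m < n then (zeta (2 * n) ^ (m ^ 2))⁻¹ else
    if N - m < n then (zeta (2 * n) ^ ((N - m) ^ 2))⁻¹ else 0

theorem chirp_norm (n N m : ℕ) : ‖chirp n N m‖ ≤ 1 := by
  unfold chirp
  split_ifs
  · rw [norm_inv, zeta_pow_norm, inv_one]
  · rw [norm_inv, zeta_pow_norm, inv_one]
  · simp

/-- The multipliers of Bluestein's algorithm. -/
noncomputable def mult (n N l : ℕ) : ℂ :=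
  (N : ℂ)⁻¹ * ∑ m ∈ Finset.range N, chirp n N m * zeta N ^ (l * m)

theorem mult_norm {n N : ℕ} (hN : N ≠ 0) (l : ℕ) : ‖mult n N l‖ ≤ 1 := by
  unfold mult
  rw [norm_mul, norm_inv, Complex.norm_natCast]
  have h : ‖∑ m ∈ Finset.range N, chirp n N m * zeta N ^ (l * m)‖ ≤ N := by
    refine (norm_sum_le _ _).trans ?_
    calc ∑ m ∈ Finset.range N, ‖chirp n N m * zeta N ^ (l * m)‖
        ≤ ∑ m ∈ Finset.range N, (1 : ℝ) := by
          refine Finset.sum_le_sum fun m _ => ?_
          rw [norm_mul, zeta_pow_norm, mul_one]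
          exact chirp_norm _ _ _
      _ = N := by simp
  have hN' : (0 : ℝ) < N := by exact_mod_cast Nat.pos_of_ne_zero hN
  calc (N : ℝ)⁻¹ * ‖∑ m ∈ Finset.range N, chirp n N m * zeta N ^ (l * m)‖
      ≤ (N : ℝ)⁻¹ * N := by gcongr
    _ = 1 := inv_mul_cancel₀ hN'.ne'

theorem isAlgebraic_of_rootsU {c : ℂ} (hc : c ∈ rootsU) : IsAlgebraic ℚ c := by
  obtain ⟨t, ht, h⟩ := hc
  refine IsAlgebraic.of_pow ht ?_
  rw [h]
  exact isAlgebraic_one

theorem rootsU_subset_algBall : rootsU ⊆ algBall 1 := by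
  intro c hc
  refine ⟨?_, isAlgebraic_of_rootsU hc⟩
  obtain ⟨t, ht, h⟩ := hc
  exact (Complex.norm_eq_one_of_pow_eq_one h ht.ne').le

theorem chirp_alg (n N m : ℕ) : IsAlgebraic ℚ (chirp n N m) := by
  unfold chirp
  split_ifs
  · exact (isAlgebraic_of_rootsU (zeta_pow_mem _ _)).inv
  · exact (isAlgebraic_of_rootsU (zeta_pow_mem _ _)).inv
  · exact isAlgebraic_zero

theorem mult_alg (n N l : ℕ) : IsAlgebraic ℚ (mult n N l) := by
  rw [← mem_algebraicClosure_iff]
  unfold mult
  refine mul_mem (inv_mem ?_) (sum_mem fun m _ => mul_mem ?_ ?_)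
  · exact natCast_mem _ _
  · exact mem_algebraicClosure_iff.2 (chirp_alg _ _ _)
  · exact mem_algebraicClosure_iff.2 (isAlgebraic_of_rootsU (zeta_pow_mem _ _))

/-- The convolution kernel. -/
theorem kernel {n N : ℕ} (_hn : n ≠ 0) (hN : 2 * n ≤ N) {j k : ℕ} (hj : j < n) (hk : k < n) :
    ∑ l ∈ Finset.range N, mult n N l * (zeta N ^ (l * ((N - j) + k))) =
      (zeta (2 * n) ^ ((max j k - min j k) ^ 2))⁻¹ := by
  have hN0 : N ≠ 0 := by omega
  have hNc : (N : ℂ) ≠ 0 := Nat.cast_ne_zero.mpr hN0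
  have step : ∑ l ∈ Finset.range N, mult n N l * (zeta N ^ (l * ((N - j) + k))) =
      (N : ℂ)⁻¹ * ∑ m ∈ Finset.range N, chirp n N m *
        ∑ l ∈ Finset.range N, zeta N ^ (l * (m + (N - j) + k)) := by
    simp only [mult, Finset.mul_sum, Finset.sum_mul]
    rw [Finset.sum_comm]
    refine Finset.sum_congr rfl fun m _ => Finset.sum_congr rfl fun l _ => ?_
    rw [show l * (m + (N - j) + k) = l * m + l * ((N - j) + k) by ring, pow_add]
    ring
  rw [step]
  simp only [char_sum hN0]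
  have hdvd : ∀ m ∈ Finset.range N, m ≠ (if k ≤ j then j - k else N + j - k) →
      chirp n N m * (if N ∣ m + (N - j) + k then (N : ℂ) else 0) = 0 := by
    intro m hm hne
    rw [Finset.mem_range] at hm
    rw [if_neg, mul_zero]
    rintro ⟨r, hr⟩
    have hr2 : r < 3 := by
      by_contra hcon
      have : N * 3 ≤ N * r := Nat.mul_le_mul_left _ (by omega)
      omega
    interval_cases r
    · omega
    · split_ifs at hne <;> omega
    · split_ifs at hne <;> omega
  have hmem : (if k ≤ j then j - k else N + j - k) ∈ Finset.range N := by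
    rw [Finset.mem_range]; split_ifs <;> omega
  rw [Finset.sum_eq_single_of_mem _ hmem hdvd]
  split_ifs with hkj hd hd
  · have h1 : j - k < n := by omega
    rw [max_eq_left hkj, min_eq_right hkj]
    unfold chirp
    rw [if_pos h1]
    field_simp
  · exfalso
    apply hd
    exact ⟨1, by omega⟩
  · have h0 : ¬ (N + j - k < n) := by omega
    have h1 : N - (N + j - k) < n := by omega
    have h2 : N - (N + j - k) = k - j := by omega
    rw [max_eq_right (by omega), min_eq_left (by omega)]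
    unfold chirp
    rw [if_neg h0, if_pos h1, h2]
    field_simp
  · exfalso
    apply hd
    exact ⟨2, by omega⟩

theorem chirp_identity {n : ℕ} (hn : n ≠ 0) (j k : ℕ) :
    zeta (2 * n) ^ (j ^ 2) * ((zeta (2 * n) ^ ((max j k - min j k) ^ 2))⁻¹ *
      zeta (2 * n) ^ (k ^ 2)) = zeta n ^ (j * k) := by
  have h2n : zeta (2 * n) ^ 2 = zeta n := zeta_pow_left hn two_ne_zero
  have hne : zeta (2 * n) ^ ((max j k - min j k) ^ 2) ≠ 0 := by
    intro h
    have := zeta_pow_norm (2 * n) ((max j k - min j k) ^ 2)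
    rw [h, norm_zero] at this
    exact zero_ne_one this
  rw [← h2n, ← pow_mul]
  field_simp
  rw [← pow_add, ← pow_add]
  congr 1
  rcases le_total j k with h | h
  · rw [max_eq_right h, min_eq_left h]
    obtain ⟨t, rfl⟩ := Nat.exists_eq_add_of_le h
    rw [Nat.add_sub_cancel_left]
    ring
  · rw [max_eq_left h, min_eq_right h]
    obtain ⟨t, rfl⟩ := Nat.exists_eq_add_of_le h
    rw [Nat.add_sub_cancel_left]
    ring

/-- The algebraic identity behind Bluestein's algorithm. -/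
theorem bluestein_identity {n N : ℕ} (hn : n ≠ 0) (hN : 2 * n ≤ N) (j : Fin n)
    (x : Fin n → ℂ) :
    dft n j x = zeta (2 * n) ^ (j.val ^ 2) *
      dft N ⟨(N - j.val) % N, Nat.mod_lt _ (by omega)⟩ fun l =>
        mult n N l.val * dft N l fun k =>
          if h : k.val < n then zeta (2 * n) ^ (k.val ^ 2) * x ⟨k.val, h⟩ else 0 := by
  have hN0 : N ≠ 0 := by omega
  have hmod : ∀ l : ℕ, zeta N ^ ((N - j.val) % N * l) = zeta N ^ ((N - j.val) * l) := by
    intro l
    rw [mul_comm, pow_mul, mul_comm, pow_mul]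
    conv_rhs => rw [← Nat.div_add_mod (N - j.val) N, pow_add, pow_mul (zeta N ^ l) N,
      ← pow_mul (zeta N) l N, mul_comm l N, pow_mul (zeta N) N l, (zeta_prim hN0).pow_eq_one,
      one_pow, one_pow, one_mul]
  simp only [dft_def, hmod]
  -- restrict the inner sum to `k < n`
  have inner : ∀ l : Fin N, (∑ k : Fin N, zeta N ^ (l.val * k.val) *
      (if h : k.val < n then zeta (2 * n) ^ (k.val ^ 2) * x ⟨k.val, h⟩ else 0)) =
      ∑ k : Fin n, zeta N ^ (l.val * k.val) * (zeta (2 * n) ^ (k.val ^ 2) * x k) := by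
    intro l
    symm
    refine Finset.sum_bij_ne_zero (fun (k : Fin n) _ _ => (⟨k.val, by omega⟩ : Fin N))
      (fun k _ _ => Finset.mem_univ _) (fun a _ _ b _ _ hab => ?_) (fun b _ hb => ?_)
      (fun a _ _ => ?_)
    · exact Fin.ext (Fin.mk.inj_iff.1 hab)
    · by_cases h : b.val < n
      · refine ⟨⟨b.val, h⟩, Finset.mem_univ _, ?_, rfl⟩
        simpa [h] using hb
      · simp [h] at hb
    · simp
  simp only [inner, Finset.mul_sum]
  rw [Finset.sum_comm]
  refine Finset.sum_congr rfl fun k _ => ?_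
  have hker := kernel hn hN j.2 k.2
  rw [← chirp_identity hn j.val k.val, ← hker, Finset.sum_mul, Finset.mul_sum, Finset.sum_mul,
    ← Fin.sum_univ_eq_sum_range (fun l => zeta (2 * n) ^ (j.val ^ 2) *
      (mult n N l * zeta N ^ (l * (N - j.val + k.val)) * zeta (2 * n) ^ (k.val ^ 2)) * x k) N]
  refine Finset.sum_congr rfl fun l _ => ?_
  rw [show l.val * (N - j.val + k.val) = (N - j.val) * l.val + l.val * k.val by ring, pow_add]
  ring

/-- Bluestein's reduction of `F_n` to two transforms `F_N`, for every `N ≥ 2n`. -/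
theorem bluestein {n N s d : ℕ} (hn : n ≠ 0) (hN : 2 * n ≤ N)
    (hΛ : algBall 1 ⊆ Λ) (h : Blk Λ (dft N) s d) :
    Blk Λ (dft n) (2 * s + N + 2 * n) (2 * d + 3) := by
  have hN0 : N ≠ 0 := by omega
  set X := Fin n → ℂ with hX
  set S0 := inputs (Fin n) with hS0
  -- first layer
  have c1 := scale_layer (Λ := Λ) (S := S0) (d₀ := 0) (fun (k : Fin n) (x : X) => x k)
    (fun k => zeta (2 * n) ^ (k.val ^ 2)) (fun k => hΛ (rootsU_subset_algBall (zeta_pow_mem _ _)))
    (by
      rintro ⟨p1, p2⟩ ⟨hp1, k, hp2⟩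
      simp only at hp1 hp2
      subst hp1 hp2
      exact ⟨0, le_rfl, mem_inputs _⟩)
  rw [Fintype.card_fin] at c1
  set T1 := tg (0 + 1) (fun (k : Fin n) => zeta (2 * n) ^ (k.val ^ 2) • fun x : X => x k) with hT1
  -- first transform
  let g1 : Fin N → X → ℂ := fun k x =>
    if h : k.val < n then zeta (2 * n) ^ (k.val ^ 2) * x ⟨k.val, h⟩ else 0
  have c2 := h.use (S := S0 ∪ T1) (d₀ := 1) g1
    (by
      rintro p rfl
      exact ⟨0, Nat.zero_le _, Or.inl (zero_mem_inputs _)⟩)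
    (by
      rintro ⟨p1, p2⟩ ⟨hp1, k, hp2⟩
      simp only at hp1 hp2
      subst hp1 hp2
      by_cases hk : k.val < n
      · refine ⟨1, le_rfl, Or.inr ⟨rfl, ⟨k.val, hk⟩, ?_⟩⟩
        funext x
        simp [g1, hk]
      · refine ⟨0, Nat.zero_le _, Or.inl ?_⟩
        have : g1 k = 0 := by funext x; simp [g1, hk]
        simp only [this]
        exact zero_mem_inputs _)
  have c12 := c1.trans c2
  set T2 := tg (d + 1) (fun (j : Fin N) (x : X) => dft N j fun k => g1 k x) with hT2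
  -- multipliers
  have c3 := scale_layer (Λ := Λ) (S := S0 ∪ (T1 ∪ T2)) (d₀ := d + 1)
    (fun (l : Fin N) (x : X) => dft N l fun k => g1 k x)
    (fun l => mult n N l.val) (fun l => hΛ ⟨mult_norm hN0 _, mult_alg _ _ _⟩)
    (Avail.of_subset (subset_union_right.trans subset_union_right))
  rw [Fintype.card_fin] at c3
  have c123 := c12.trans c3
  set T3 := tg (d + 1 + 1) (fun (l : Fin N) => mult n N l.val •
    fun x : X => dft N l fun k => g1 k x) with hT3
  -- second transform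
  let g2 : Fin N → X → ℂ := fun l x => mult n N l.val * dft N l fun k => g1 k x
  have c4 := h.use (S := S0 ∪ (T1 ∪ T2 ∪ T3)) (d₀ := d + 2) g2
    (by
      rintro p rfl
      exact ⟨0, Nat.zero_le _, Or.inl (zero_mem_inputs _)⟩)
    (by
      rintro ⟨p1, p2⟩ ⟨hp1, k, hp2⟩
      simp only at hp1 hp2
      subst hp1 hp2
      exact ⟨d + 2, le_rfl, Or.inr (Or.inr ⟨rfl, k, rfl⟩)⟩)
  have c1234 := c123.trans c4
  set T4 := tg (d + (d + 2)) (fun (j : Fin N) (x : X) => dft N j fun k => g2 k x) with hT4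
  -- last layer
  have c5 := scale_layer (Λ := Λ) (S := S0 ∪ (T1 ∪ T2 ∪ T3 ∪ T4)) (d₀ := d + (d + 2))
    (fun (j : Fin n) (x : X) =>
      dft N ⟨(N - j.val) % N, Nat.mod_lt _ (by omega)⟩ fun k => g2 k x)
    (fun j => zeta (2 * n) ^ (j.val ^ 2)) (fun k => hΛ (rootsU_subset_algBall (zeta_pow_mem _ _)))
    (by
      rintro ⟨p1, p2⟩ ⟨hp1, k, hp2⟩
      simp only at hp1 hp2
      subst hp1 hp2
      exact ⟨_, le_rfl, Or.inr (Or.inr ⟨rfl, _, rfl⟩)⟩)
  rw [Fintype.card_fin] at c5
  have c := c1234.trans' c5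
  refine (c.mono_right (W' := tg (2 * d + 3) (dft n)) ?_).mono_gates (by omega)
  rintro ⟨p1, p2⟩ ⟨hp1, j, hp2⟩
  simp only at hp1 hp2
  subst hp1 hp2
  refine ⟨d + (d + 2) + 1, by simp only; omega, rfl, j, ?_⟩
  funext x
  simp only [Pi.smul_apply, smul_eq_mul, g2, g1]
  exact bluestein_identity hn hN j x

end Vale.Agent.P344
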