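import Vale.Agent.P344.H952.CConv
import Vale.Agent.P344.H952.Main

/-!
# Towers with bounded condition numbers
-/

set_option linter.unusedSectionVars false

namespace Vale.Agent.P344

open Filter

variable {Λ : Set ℂ} {c a : ℝ} {s d : ℕ}

theorem DM_form (n : ℕ) (j : Fin n) : dft n j = form (DM n j) := rfl

theorem DM_alg (n : ℕ) (j k : Fin n) : IsAlgebraic ℚ (DM n j k) :=
  isAlgebraic_of_rootsU (zeta_pow_mem _ _)

theorem op_DM' (n : ℕ) : Op (Real.sqrt n) (DM n).transpose := by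
  rw [DM_transpose]
  exact op_DM n

/-- Every circuit for `F_n` has some condition number. -/
theorem cc_of_computes {n s : ℕ} {D : ℕ∞} (hn : 0 < n) (h : Computes Λ D (dft n) s) :
    ∃ c : ℝ, 0 ≤ c ∧ Cc Λ c (Real.sqrt n) (DM n) s s :=
  h.circuit (DM_form n) (Real.sqrt_pos.2 (by exact_mod_cast hn)) (op_DM n) (op_DM' n)

/-- A tower. -/
theorem Cc.tower {m S D : ℕ} (hm : 2 ≤ m) (hΛ : rootsU ⊆ Λ) (hc : 0 ≤ c)
    (H : Cc Λ c (Real.sqrt m) (DM m) S D) {r : ℕ} (hr : 0 < r)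
    (Hr : Cc Λ c (Real.sqrt r) (DM r) (2 * r * r) (2 * r * r)) (k : ℕ) :
    ∃ cst : ℕ, Cc Λ c (Real.sqrt (r * m ^ k : ℕ)) (DM (r * m ^ k)) cst
        (2 * r * r + k * (D + 1)) ∧
      (cst : ℝ) ≤ (r * m ^ k) * (2 * r + k * ((S : ℝ) / m + 1)) := by
  induction k with
  | zero =>
    refine ⟨2 * r * r, ?_, ?_⟩
    · rw [pow_zero, mul_one, Nat.zero_mul, Nat.add_zero]
      exact Hr
    · push_cast
      apply le_of_eq
      ring
  | succ k ih =>
    obtain ⟨cst, hcc, hcb⟩ := ih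
    have hm0 : 0 < m := by omega
    have hq : r * m ^ k ≠ 0 := by positivity
    have h3 := Cc.cooley_tukey (p := m) (q := r * m ^ k) (by omega) hq hΛ hc hcc H
    have e1 : r * m ^ (k + 1) = r * m ^ k * m := by rw [pow_succ]; ring
    refine ⟨m * cst + r * m ^ k * m + r * m ^ k * S, ?_, ?_⟩
    · rw [e1]
      refine h3.mono Set.Subset.rfl le_rfl le_rfl hc (Real.sqrt_nonneg _) le_rfl ?_
      apply le_of_eq
      ring
    · push_cast at hcb ⊢
      have hmr : (0 : ℝ) < m := by exact_mod_cast hm0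
      have e2 : (m : ℝ) ^ (k + 1) = (m : ℝ) ^ k * m := by rw [pow_succ]
      rw [e2]
      have h4 : (m : ℝ) * cst ≤ m * ((r * (m : ℝ) ^ k) * (2 * r + k * ((S : ℝ) / m + 1))) :=
        mul_le_mul_of_nonneg_left hcb hmr.le
      have h5 : (S : ℝ) = (S : ℝ) / m * m := by field_simp
      calc (m : ℝ) * cst + r * (m : ℝ) ^ k * m + r * (m : ℝ) ^ k * S
          ≤ m * ((r * (m : ℝ) ^ k) * (2 * r + k * ((S : ℝ) / m + 1))) + r * (m : ℝ) ^ k * m +
              r * (m : ℝ) ^ k * ((S : ℝ) / m * m) := by rw [← h5]; linarith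
        _ = (r * ((m : ℝ) ^ k * m)) * (2 * r + (k + 1) * ((S : ℝ) / m + 1)) := by ring

/-- Small transforms of all orders up to `R`, with one condition number. -/
theorem small_transforms (hΛ : rootsU ⊆ Λ) (R : ℕ) :
    ∃ c : ℝ, 0 ≤ c ∧ ∀ r : ℕ, 0 < r → r ≤ R →
      Cc Λ c (Real.sqrt r) (DM r) (2 * r * r) (2 * r * r) := by
  induction R with
  | zero => exact ⟨0, le_rfl, fun r hr hr' => by omega⟩
  | succ R ih =>
    obtain ⟨c, hc, h⟩ := ih
    obtain ⟨s', hs', hcomp⟩ := (naive hΛ (R + 1)).computes (D := ⊤) le_top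
    obtain ⟨c', hc', h'⟩ := cc_of_computes (Nat.succ_pos _) hcomp
    refine ⟨max c c', hc.trans (le_max_left _ _), fun r hr hrR => ?_⟩
    rcases Nat.lt_or_ge r (R + 1) with hlt | hge
    · exact (h r hr (by omega)).mono Set.Subset.rfl (le_max_left _ _) le_rfl
        (hc.trans (le_max_left _ _)) (Real.sqrt_nonneg _) le_rfl le_rfl
    · have : r = R + 1 := by omega
      subst this
      exact h'.mono Set.Subset.rfl (le_max_right _ _) le_rfl
        (hc.trans (le_max_left _ _)) (Real.sqrt_nonneg _) hs' hs'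

/-- `(L(m) + m) / (m log m)`. -/
noncomputable def rate1 (m : ℕ) : ℝ := ((L m : ℝ) + m) / (m * Real.logb 2 m)

theorem rate1_nonneg {m : ℕ} (hm : 2 ≤ m) : 0 ≤ rate1 m := by
  have := logb_pos_of_two_le hm
  unfold rate1
  positivity

theorem rate1_mul {m : ℕ} (hm : 2 ≤ m) :
    (L m : ℝ) / m + 1 = rate1 m * Real.logb 2 m := by
  have h1 := logb_pos_of_two_le hm
  have h2 : (0 : ℝ) < m := by exact_mod_cast (by omega : 0 < m)
  unfold rate1
  field_simp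

/-- An optimal circuit for `F_m` with algebraic coefficients, and its condition number. -/
theorem base_circuit {m : ℕ} (hm : 2 ≤ m) : ∃ Λ₀ : Set ℂ, Λ₀.Finite ∧
    (∀ z ∈ Λ₀, IsAlgebraic ℚ z) ∧ ∃ c : ℝ, 0 ≤ c ∧ Cc Λ₀ c (Real.sqrt m) (DM m) (L m) (L m) := by
  obtain ⟨Λ₁, hf₁, halg, hc⟩ := Computes.algebraic (DM_alg m) (DM_form m) (L_spec m)
  obtain ⟨c, hc0, hcc⟩ := cc_of_computes (by omega) hc
  exact ⟨Λ₁, hf₁, halg, c, hc0, hcc⟩

theorem choose_kr' {R m X : ℕ} (hR : 1 ≤ R) (hm : 2 ≤ m) (hX : R ≤ X) :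
    ∃ k r : ℕ, 0 < r ∧ r ≤ R * m ∧ X ≤ r * m ^ k ∧ R * m ^ k ≤ X ∧
      r * m ^ k ≤ X + m ^ k := by
  have h1 : 1 ≤ X / R := (Nat.one_le_div_iff hR).2 hX
  set k := Nat.log m (X / R) with hk
  have h2 : m ^ k ≤ X / R := Nat.pow_log_le_self m (by omega)
  have h3 : X / R < m ^ (k + 1) := Nat.lt_pow_succ_log_self (by omega) _
  have hmk : 0 < m ^ k := by positivity
  refine ⟨k, X / m ^ k + 1, Nat.succ_pos _, ?_, ?_, ?_, ?_⟩
  · have h4 : X < m ^ (k + 1) * R := (Nat.div_lt_iff_lt_mul hR).1 h3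
    have h5 : X / m ^ k < R * m := by
      rw [Nat.div_lt_iff_lt_mul hmk]
      calc X < m ^ (k + 1) * R := h4
        _ = R * m * m ^ k := by rw [pow_succ]; ring
    omega
  · have := Nat.lt_div_mul_add (a := X) hmk
    rw [Nat.add_mul, one_mul]
    omega
  · calc R * m ^ k ≤ R * (X / R) := Nat.mul_le_mul_left _ h2
      _ ≤ X := Nat.mul_div_le _ _
  · rw [Nat.add_mul, one_mul]
    have := Nat.div_mul_le_self X (m ^ k)
    omega

/-- Depth estimate. -/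
theorem depth_est {Rm r k S ℓ cR : ℝ} (hr0 : 0 ≤ r) (hr : r ≤ Rm) (hRm : 0 ≤ Rm) (hk : k ≤ 1 + ℓ)
    (hS : 0 ≤ S) (hℓ : 1 ≤ ℓ) (hcR : 0 ≤ cR) :
    2 * (2 * r * r + k * (S + 1)) + 3 ≤ (4 * Rm ^ 2 + 4 * (S + 1) + 3 + cR) * ℓ := by
  have hrr2 : r * r ≤ Rm ^ 2 := by
    rw [pow_two]
    exact mul_le_mul hr hr hr0 hRm
  have h1 : k * (S + 1) ≤ (1 + ℓ) * (S + 1) := mul_le_mul_of_nonneg_right hk (by linarith)
  have h2 : (1 + ℓ) * (S + 1) ≤ (2 * ℓ) * (S + 1) :=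
    mul_le_mul_of_nonneg_right (by linarith) (by linarith)
  have h3 : Rm ^ 2 * 1 ≤ Rm ^ 2 * ℓ := mul_le_mul_of_nonneg_left hℓ (by positivity)
  have h4 : 0 ≤ cR * ℓ := mul_nonneg hcR (by linarith)
  nlinarith

/-- Size estimate. -/
theorem size_est {R m n e r k P cst a ℓ S δ s' : ℝ} (hR1 : 1 ≤ R) (_hR0 : 0 < R) (hm0 : 0 < m)
    (hn1 : 1 ≤ n) (he : 0 ≤ e) (heR : e ≤ n / R) (hr : 0 ≤ r) (hrR : r ≤ R * m) (hP : 0 ≤ P)
    (hle : r * P ≤ 2 * n + e + P) (hRk : R * P ≤ 2 * n + e)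
    (hkA : k * (S / m + 1) ≤ a * (1 + ℓ)) (hk0 : 0 ≤ k) (hkl : k ≤ 1 + ℓ)
    (hcb : cst ≤ (r * P) * (2 * r + k * (S / m + 1)))
    (hs' : s' ≤ 2 * cst + r * P + 2 * n) (ha0 : 0 ≤ a) (hS0 : 0 ≤ S) (hℓ : 1 ≤ ℓ)
    (hℓn : ℓ ≤ n) (hδ : 0 < δ) (hB : 4 * (4 * (4 * (R * m) + 2 * a + 1) + 4 * S + 2) / δ ≤ ℓ)
    (hRa : 4 * a / R ≤ (δ / 2) / 2) (hRb : 4 * a + δ ≤ R * δ) :
    s' ≤ (4 * a + δ) * (n * ℓ) := by
  have hX : 2 * n + e = 2 * (n + e / 2) := by ring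
  rw [hX] at hle hRk
  have hcb' : cst ≤ (r * P) * (2 * r + k * (S / m + 1)) + k * S := by
    have : 0 ≤ k * S := by positivity
    linarith
  have hs'' : s' ≤ 2 * cst + r * P + 2 * (n + e / 2) := by linarith
  have hBl : 4 * (4 * (R * m) + 2 * a + 1) + 4 * S + 2 ≤ (δ / 2) / 2 * ℓ := by
    rw [div_le_iff₀ hδ] at hB
    linarith
  have hcore := numeric_core (δ := δ / 2) hR1 hm0 (show 1 ≤ n + e / 2 by linarith)
    hr hrR hP hle hRk hkA hkl hcb' hs'' ha0 hS0 hℓ (by linarith) hBl hRa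
  refine hcore.trans ?_
  have h2 : n + e / 2 ≤ n * (1 + 1 / (2 * R)) := by
    have : e / 2 ≤ n / R / 2 := by linarith
    calc n + e / 2 ≤ n + n / R / 2 := by linarith
      _ = n * (1 + 1 / (2 * R)) := by field_simp
  have h3 : (4 * a + δ / 2) * (1 + 1 / (2 * R)) ≤ 4 * a + δ := by
    have h4 : (4 * a + δ / 2) * (1 / (2 * R)) ≤ δ / 2 := by
      rw [mul_one_div, div_le_iff₀ (by positivity)]
      nlinarith
    linarith
  calc (4 * a + δ / 2) * ((n + e / 2) * ℓ)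
      ≤ (4 * a + δ / 2) * ((n * (1 + 1 / (2 * R))) * ℓ) := by gcongr
    _ = (4 * a + δ / 2) * (1 + 1 / (2 * R)) * (n * ℓ) := by ring
    _ ≤ (4 * a + δ) * (n * ℓ) := mul_le_mul_of_nonneg_right h3 (by positivity)

/-- The transfer inequality with condition numbers. -/
theorem ctransfer {m : ℕ} (hm : 2 ≤ m) {δ : ℝ} (hδ : 0 < δ) :
    ∃ Λ₀ : Set ℂ, Λ₀.Finite ∧ (∀ z ∈ Λ₀, IsAlgebraic ℚ z) ∧ ∃ K : ℝ,
    ∀ᶠ n : ℕ in atTop, ∃ s : ℕ,
      Cc (algBall 1 ∪ Λ₀) K (Real.sqrt n) (DM n) s ⌊K * Real.logb 2 n⌋₊ ∧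
      (s : ℝ) ≤ (4 * rate1 m + δ) * (n * Real.logb 2 n) := by
  obtain ⟨Λ₀, hf, halg, c₀, hc₀, hbase⟩ := base_circuit hm
  refine ⟨Λ₀, hf, halg, ?_⟩
  set S : ℕ := L m with hS
  set a : ℝ := rate1 m with ha
  have ha0 : 0 ≤ a := rate1_nonneg hm
  -- choice of `R`
  obtain ⟨R, hR⟩ := exists_nat_ge (max 2 (max (16 * a / δ) ((4 * a + δ) / δ)))
  have hR2 : (2 : ℝ) ≤ R := (le_max_left _ _).trans hR
  have hR2' : 2 ≤ R := by exact_mod_cast hR2
  have hR0 : (0 : ℝ) < R := by linarith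
  have hRa : 16 * a / δ ≤ R := ((le_max_left _ _).trans (le_max_right _ _)).trans hR
  have hRb : (4 * a + δ) / δ ≤ R := ((le_max_right _ _).trans (le_max_right _ _)).trans hR
  have hRa' : 4 * a / R ≤ (δ / 2) / 2 := by
    rw [div_le_iff₀ hδ] at hRa
    rw [div_le_iff₀ hR0]
    linarith
  rw [div_le_iff₀ hδ] at hRb
  obtain ⟨c₁, hc₁, hsmall⟩ := small_transforms (Λ := algBall 1 ∪ Λ₀)
    (rootsU_subset_algBall.trans Set.subset_union_left) (R * m)
  set c : ℝ := max c₀ c₁ with hcdef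
  have hc : 0 ≤ c := hc₀.trans (le_max_left _ _)
  set B : ℝ := 4 * (4 * (R * m) + 2 * a + 1) + 4 * S + 2 with hB
  set K : ℝ := 4 * (R * m) ^ 2 + 4 * (S + 1) + 3 + c * (10 * R) with hK
  have hm0 : (0 : ℝ) < m := by exact_mod_cast (by omega : 0 < m)
  refine ⟨K, ?_⟩
  have ev1 : ∀ᶠ n : ℕ in atTop, 4 * B / δ ≤ Real.logb 2 (n : ℝ) :=
    logb_nat_tendsto.eventually_ge_atTop _
  filter_upwards [ev1, eventually_ge_atTop 2, eventually_ge_atTop (25 * R ^ 2)]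
    with n hn1 hn2 hnR
  have hnR' : R ≤ n := by
    calc R ≤ R * R := Nat.le_mul_self R
      _ ≤ 25 * R ^ 2 := by nlinarith
      _ ≤ n := hnR
  have hn0 : (0 : ℝ) < n := by exact_mod_cast (by omega : 0 < n)
  -- the parameter `e`
  set e : ℕ := n / R with he
  have he1 : 1 ≤ e := (Nat.one_le_div_iff (by omega)).2 hnR'
  have hen : e ≤ n := Nat.div_le_self _ _
  have heR : (e : ℝ) ≤ n / R := Nat.cast_div_le
  have he2 : (n : ℝ) ≤ 2 * R * e := by
    have h1 : n < n / R * R + R := Nat.lt_div_mul_add (by omega)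
    have h2 : n ≤ 2 * R * e := by
      rw [← he] at h1
      nlinarith
    exact_mod_cast h2
  have her : (0 : ℝ) < e := by exact_mod_cast he1
  obtain ⟨k, r, hr0, hrR, h2n, hRk, hle⟩ := choose_kr' (R := R) (m := m) (X := 2 * n + e)
    (by omega) hm (by omega)
  obtain ⟨cst, hcst, hcb⟩ := Cc.tower (Λ := algBall 1 ∪ Λ₀) (c := c) hm
    (rootsU_subset_algBall.trans Set.subset_union_left) hc
    (hbase.mono Set.subset_union_right (le_max_left _ _) le_rfl hc (Real.sqrt_nonneg _)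
      le_rfl le_rfl) hr0
    ((hsmall r hr0 hrR).mono Set.Subset.rfl (le_max_right _ _) le_rfl hc (Real.sqrt_nonneg _)
      le_rfl le_rfl) k
  have hN0 : (0 : ℝ) < ((r * m ^ k : ℕ) : ℝ) := by
    have : 0 < r * m ^ k := by positivity
    exact_mod_cast this
  have hNn : 2 * (n : ℝ) ≤ ((r * m ^ k : ℕ) : ℝ) := by
    have : 2 * n ≤ r * m ^ k := by omega
    exact_mod_cast this
  have hsn : 5 * (R : ℝ) ≤ Real.sqrt n := by
    apply Real.le_sqrt_of_sq_le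
    have : (25 * (R : ℝ) ^ 2) ≤ n := by exact_mod_cast hnR
    linarith
  have hsq : Real.sqrt n * Real.sqrt n = n := Real.mul_self_sqrt hn0.le
  have hb : 5 * (n * Real.sqrt n) / (((r * m ^ k : ℕ) : ℝ) * e) ≤ 1 := by
    rw [div_le_one (by positivity)]
    have h1 : 2 * (n : ℝ) * e ≤ ((r * m ^ k : ℕ) : ℝ) * e :=
      mul_le_mul_of_nonneg_right hNn her.le
    refine le_trans ?_ h1
    have h2 : 5 * (n * Real.sqrt n) ≤ 5 * ((2 * R * e) * Real.sqrt n) := by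
      have := Real.sqrt_nonneg (n : ℝ)
      have := mul_le_mul_of_nonneg_right he2 this
      linarith
    have h3 : 5 * ((2 * R * e) * Real.sqrt n) = 2 * e * ((5 * R) * Real.sqrt n) := by ring
    have h4 : (5 * (R : ℝ)) * Real.sqrt n ≤ Real.sqrt n * Real.sqrt n :=
      mul_le_mul_of_nonneg_right hsn (Real.sqrt_nonneg _)
    rw [hsq] at h4
    have h5 := mul_le_mul_of_nonneg_left h4 (show (0 : ℝ) ≤ 2 * e by positivity)
    linarith
  have hbl := Cc.bluestein (n := n) (e := e) (by omega) he1 hen h2n hc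
    (Set.subset_union_left : algBall 1 ⊆ algBall 1 ∪ Λ₀) hb hcst
  have hlog1 : 1 ≤ Real.logb 2 (n : ℝ) := logb_pos_of_two_le hn2
  set ℓ : ℝ := Real.logb 2 (n : ℝ) with hℓ
  have hmk2 : m ^ k ≤ 2 * n := by
    have h1 : 2 * m ^ k ≤ R * m ^ k := Nat.mul_le_mul_right _ hR2'
    omega
  have hkm : (k : ℝ) * Real.logb 2 m ≤ 1 + ℓ := k_le hm (by omega) hmk2
  have hkl : (k : ℝ) ≤ 1 + ℓ := by
    have := logb_pos_of_two_le hm
    have hk0 : (0 : ℝ) ≤ k := Nat.cast_nonneg _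
    nlinarith
  have hrr : (r : ℝ) ≤ R * m := by exact_mod_cast hrR
  -- depth
  have hS0 : (0 : ℝ) ≤ S := Nat.cast_nonneg _
  have hRm : (0 : ℝ) ≤ R * m := by positivity
  have hcR : 0 ≤ c * (10 * R) := by positivity
  have hdepth : 2 * (2 * r * r + k * (S + 1)) + 3 ≤ ⌊K * ℓ⌋₊ := by
    apply Nat.le_floor
    push_cast
    exact depth_est (Nat.cast_nonneg r) hrr hRm hkl hS0 hlog1 hcR
  refine ⟨2 * cst + r * m ^ k + 2 * n, ?_, ?_⟩
  · refine hbl.mono Set.Subset.rfl ?_ le_rfl ?_ (Real.sqrt_nonneg _) le_rfl hdepth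
    · have h1 : 5 * (n : ℝ) / e ≤ 10 * R := by
        rw [div_le_iff₀ her]
        linarith
      have h2 := mul_le_mul_of_nonneg_left h1 hc
      have : 0 ≤ 4 * ((R : ℝ) * m) ^ 2 + 4 * (S + 1) + 3 := by positivity
      rw [hK]
      linarith
    · rw [hK]
      positivity
  -- size
  · have hA : (S : ℝ) / m + 1 = a * Real.logb 2 m := rate1_mul hm
    have h1 : (k : ℝ) * ((S : ℝ) / m + 1) ≤ a * (1 + ℓ) := by
      rw [hA]
      calc (k : ℝ) * (a * Real.logb 2 m) = a * (k * Real.logb 2 m) := by ring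
        _ ≤ a * (1 + ℓ) := mul_le_mul_of_nonneg_left hkm ha0
    refine size_est (R := R) (m := m) (e := e) (r := r) (k := k) (P := (m : ℝ) ^ k) (cst := cst)
      (S := S) (by linarith) hR0 hm0 (by exact_mod_cast (by omega : 1 ≤ n)) her.le heR
      (Nat.cast_nonneg r) hrr (by positivity) (by exact_mod_cast hle) (by exact_mod_cast hRk) h1
      (Nat.cast_nonneg k) hkl hcb (by push_cast; exact le_rfl) ha0 (Nat.cast_nonneg S) hlog1
      (logb_le_self (n := n) (by omega)) hδ hn1 hRa' hRb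

end Vale.Agent.P344
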