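import Vale.Agent.P344.H952.CDFT

/-!
# Bluestein's reduction with bounded multipliers
-/

set_option linter.unusedSectionVars false

namespace Vale.Agent.P344

open Finset

variable {Λ : Set ℂ} {c a : ℝ} {s d : ℕ}

/-- The chirp `e^{-πi (j-k)²/n}`. -/
noncomputable def TT (n j k : ℕ) : ℂ := (zeta (2 * n) ^ ((max j k - min j k) ^ 2))⁻¹

/-- The Fejér sum (not normalised) of the chirp. -/
noncomputable def DD (n N l M : ℕ) : ℂ :=
  ∑ j ∈ range M, ∑ k ∈ range M, TT n j k * zeta N ^ (l * (j + (N - k)))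

/-- Multipliers of Bluestein's algorithm, from the trapezoid extension of the chirp. -/
noncomputable def mu (n e N l : ℕ) : ℂ :=
  ((N : ℂ) * e)⁻¹ * (DD n N l (n + e) - DD n N l n)

theorem TT_eq {n : ℕ} (hn : n ≠ 0) (j k : ℕ) :
    TT n j k = (zeta (2 * n) ^ (j ^ 2))⁻¹ * (zeta n ^ (j * k) * (zeta (2 * n) ^ (k ^ 2))⁻¹) := by
  have hne : ∀ m : ℕ, zeta (2 * n) ^ m ≠ 0 := by
    intro m h
    have := zeta_pow_norm (2 * n) m
    rw [h, norm_zero] at this
    exact zero_ne_one this
  rw [← chirp_identity hn j k]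
  unfold TT
  field_simp [hne (j ^ 2), hne (k ^ 2), hne ((max j k - min j k) ^ 2)]

/-- One block of a bilinear form. -/
theorem block_bound {n : ℕ} (u w : ℕ → ℂ) (hu : ∀ j, ‖u j‖ ≤ 1) (hw : ∀ j, ‖w j‖ ≤ 1) :
    ‖∑ j ∈ range n, ∑ k ∈ range n, u j * (zeta n ^ (j * k) * w k)‖ ≤ n * Real.sqrt n := by
  set y : Fin n → ℂ := (DM n).mulVec (fun k => w k) with hy
  have h1 : ∑ j ∈ range n, ∑ k ∈ range n, u j * (zeta n ^ (j * k) * w k) =
      ∑ j : Fin n, u j * y j := by
    rw [← Fin.sum_univ_eq_sum_range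
      (fun j => ∑ k ∈ range n, u j * (zeta n ^ (j * k) * w k)) n]
    refine Finset.sum_congr rfl fun j _ => ?_
    rw [← Finset.mul_sum, ← Fin.sum_univ_eq_sum_range (fun k => zeta n ^ ((j : ℕ) * k) * w k) n]
    rfl
  rw [h1]
  have h2 : ‖∑ j : Fin n, u j * y j‖ ≤ ∑ j : Fin n, ‖y j‖ := by
    refine (norm_sum_le _ _).trans (Finset.sum_le_sum fun j _ => ?_)
    rw [norm_mul]
    calc ‖u j‖ * ‖y j‖ ≤ 1 * ‖y j‖ := mul_le_mul_of_nonneg_right (hu j) (norm_nonneg _)
      _ = ‖y j‖ := one_mul _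
  refine h2.trans ?_
  have h3 : (∑ j : Fin n, ‖y j‖) ^ 2 ≤ n * ∑ j : Fin n, ‖y j‖ ^ 2 := by
    have := sq_sum_le_card_mul_sum_sq (s := (Finset.univ : Finset (Fin n))) (f := fun j => ‖y j‖)
    simpa using this
  have h4 : ∑ j : Fin n, ‖y j‖ ^ 2 = n * ∑ k : Fin n, ‖w k‖ ^ 2 := parseval n _
  have h5 : ∑ k : Fin n, ‖w k‖ ^ 2 ≤ n := by
    calc ∑ k : Fin n, ‖w k‖ ^ 2 ≤ ∑ k : Fin n, (1 : ℝ) :=
          Finset.sum_le_sum fun k _ => pow_le_one₀ (norm_nonneg _) (hw k)
      _ = n := by simp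
  have hn0 : (0 : ℝ) ≤ n := Nat.cast_nonneg _
  have h6 : (∑ j : Fin n, ‖y j‖) ^ 2 ≤ (n * Real.sqrt n) ^ 2 := by
    rw [mul_pow, Real.sq_sqrt hn0]
    rw [h4] at h3
    calc (∑ j : Fin n, ‖y j‖) ^ 2 ≤ n * (n * ∑ k : Fin n, ‖w k‖ ^ 2) := h3
      _ ≤ n * (n * n) := by gcongr
      _ = (n : ℝ) ^ 2 * n := by ring
  exact abs_le_of_sq_le_sq' h6 (by positivity) |>.2

theorem zeta_pow_add_self (n m : ℕ) (hn : n ≠ 0) (t : ℕ) :
    zeta n ^ (m + n * t) = zeta n ^ m := by
  rw [pow_add, pow_mul, (zeta_prim hn).pow_eq_one, one_pow, mul_one]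

/-- A bilinear form of order `2n`. -/
theorem two_bound {n : ℕ} (hn : n ≠ 0) (u w : ℕ → ℂ) (hu : ∀ j, ‖u j‖ ≤ 1)
    (hw : ∀ j, ‖w j‖ ≤ 1) :
    ‖∑ j ∈ range (n + n), ∑ k ∈ range (n + n), u j * (zeta n ^ (j * k) * w k)‖ ≤
      4 * (n * Real.sqrt n) := by
  have e : ∑ j ∈ range (n + n), ∑ k ∈ range (n + n), u j * (zeta n ^ (j * k) * w k) =
      (∑ j ∈ range n, ∑ k ∈ range n, u j * (zeta n ^ (j * k) * w k) +
       ∑ j ∈ range n, ∑ k ∈ range n, u j * (zeta n ^ (j * k) * w (n + k))) +
      (∑ j ∈ range n, ∑ k ∈ range n, u (n + j) * (zeta n ^ (j * k) * w k) +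
       ∑ j ∈ range n, ∑ k ∈ range n, u (n + j) * (zeta n ^ (j * k) * w (n + k))) := by
    rw [Finset.sum_range_add]
    congr 1
    · rw [← Finset.sum_add_distrib]
      refine Finset.sum_congr rfl fun j _ => ?_
      rw [Finset.sum_range_add]
      congr 1
      refine Finset.sum_congr rfl fun k _ => ?_
      rw [show j * (n + k) = j * k + n * j by ring, zeta_pow_add_self _ _ hn]
    · rw [← Finset.sum_add_distrib]
      refine Finset.sum_congr rfl fun j _ => ?_
      rw [Finset.sum_range_add]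
      congr 1
      · refine Finset.sum_congr rfl fun k _ => ?_
        rw [show (n + j) * k = j * k + n * k by ring, zeta_pow_add_self _ _ hn]
      · refine Finset.sum_congr rfl fun k _ => ?_
        rw [show (n + j) * (n + k) = j * k + n * (n + j + k) by ring, zeta_pow_add_self _ _ hn]
  rw [e]
  have b1 := block_bound (n := n) u w hu hw
  have b2 := block_bound (n := n) u (fun k => w (n + k)) hu (fun k => hw _)
  have b3 := block_bound (n := n) (fun j => u (n + j)) w (fun j => hu _) hw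
  have b4 := block_bound (n := n) (fun j => u (n + j)) (fun k => w (n + k)) (fun j => hu _)
    (fun k => hw _)
  refine (norm_add_le _ _).trans ?_
  refine (add_le_add (norm_add_le _ _) (norm_add_le _ _)).trans ?_
  linarith

theorem DD_eq {n N : ℕ} (hn : n ≠ 0) (l M : ℕ) :
    DD n N l M = ∑ j ∈ range M, ∑ k ∈ range M,
      ((zeta (2 * n) ^ (j ^ 2))⁻¹ * zeta N ^ (l * j)) *
        (zeta n ^ (j * k) * ((zeta (2 * n) ^ (k ^ 2))⁻¹ * zeta N ^ (l * (N - k)))) := by
  unfold DD
  refine Finset.sum_congr rfl fun j _ => Finset.sum_congr rfl fun k _ => ?_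
  rw [TT_eq hn, mul_add l, pow_add]
  ring

theorem DD_norm_n {n N : ℕ} (hn : n ≠ 0) (l : ℕ) : ‖DD n N l n‖ ≤ n * Real.sqrt n := by
  rw [DD_eq hn]
  refine block_bound (fun j => (zeta (2 * n) ^ (j ^ 2))⁻¹ * zeta N ^ (l * j))
    (fun k => (zeta (2 * n) ^ (k ^ 2))⁻¹ * zeta N ^ (l * (N - k))) ?_ ?_
  · intro j
    rw [norm_mul, norm_inv, zeta_pow_norm, zeta_pow_norm, inv_one, mul_one]
  · intro j
    rw [norm_mul, norm_inv, zeta_pow_norm, zeta_pow_norm, inv_one, mul_one]

theorem DD_norm {n N M : ℕ} (hn : n ≠ 0) (hM : M ≤ n + n) (l : ℕ) :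
    ‖DD n N l M‖ ≤ 4 * (n * Real.sqrt n) := by
  rw [DD_eq hn]
  have h := two_bound hn
    (fun j => if j < M then (zeta (2 * n) ^ (j ^ 2))⁻¹ * zeta N ^ (l * j) else 0)
    (fun k => if k < M then (zeta (2 * n) ^ (k ^ 2))⁻¹ * zeta N ^ (l * (N - k)) else 0) ?_ ?_
  · refine le_trans (le_of_eq ?_) h
    congr 1
    rw [← Finset.sum_subset (Finset.range_mono hM)]
    · refine Finset.sum_congr rfl fun j hj => ?_
      rw [← Finset.sum_subset (Finset.range_mono hM)]
      · refine Finset.sum_congr rfl fun k hk => ?_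
        rw [if_pos (Finset.mem_range.1 hj), if_pos (Finset.mem_range.1 hk)]
      · intro k _ hk
        rw [Finset.mem_range] at hk
        rw [if_neg hk, mul_zero, mul_zero]
    · intro j _ hj
      rw [Finset.mem_range] at hj
      refine Finset.sum_eq_zero fun k _ => ?_
      rw [if_neg hj, zero_mul]
  · intro j
    split_ifs
    · rw [norm_mul, norm_inv, zeta_pow_norm, zeta_pow_norm, inv_one, mul_one]
    · simp
  · intro j
    split_ifs
    · rw [norm_mul, norm_inv, zeta_pow_norm, zeta_pow_norm, inv_one, mul_one]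
    · simp

theorem mu_norm {n e N : ℕ} (hn : n ≠ 0) (he : 0 < e) (hen : e ≤ n) (hN : 0 < N) (l : ℕ) :
    ‖mu n e N l‖ ≤ 5 * (n * Real.sqrt n) / (N * e) := by
  unfold mu
  have hNr : (0 : ℝ) < N := by exact_mod_cast hN
  have her : (0 : ℝ) < e := by exact_mod_cast he
  rw [norm_mul, norm_inv, norm_mul, Complex.norm_natCast, Complex.norm_natCast,
    div_eq_inv_mul]
  refine mul_le_mul_of_nonneg_left ?_ (by positivity)
  refine (norm_sub_le _ _).trans ?_
  have h1 := DD_norm (N := N) hn (show n + e ≤ n + n by omega) l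
  have h2 := DD_norm_n (N := N) hn l
  linarith

theorem TT_alg (n j k : ℕ) : IsAlgebraic ℚ (TT n j k) :=
  (isAlgebraic_of_rootsU (zeta_pow_mem _ _)).inv

theorem DD_alg (n N l M : ℕ) : DD n N l M ∈ algebraicClosure ℚ ℂ := by
  unfold DD
  refine sum_mem fun j _ => sum_mem fun k _ => mul_mem ?_ ?_
  · exact mem_algebraicClosure_iff.2 (TT_alg _ _ _)
  · exact mem_algebraicClosure_iff.2 (isAlgebraic_of_rootsU (zeta_pow_mem _ _))

theorem mu_alg (n e N l : ℕ) : IsAlgebraic ℚ (mu n e N l) := by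
  rw [← mem_algebraicClosure_iff]
  unfold mu
  exact mul_mem (inv_mem (mul_mem (natCast_mem _ _) (natCast_mem _ _)))
    (sub_mem (DD_alg _ _ _ _) (DD_alg _ _ _ _))

/-- The diagonal sums. -/
noncomputable def GG (n j k M : ℕ) : ℂ :=
  ∑ j' ∈ range M, ∑ k' ∈ range M, if j' + k = k' + j then TT n j' k' else 0

theorem TT_shift {n j k j' k' : ℕ} (h : j' + k = k' + j) : TT n j' k' = TT n j k := by
  unfold TT
  congr 3
  rcases le_total j k with h1 | h1
  · rw [max_eq_right h1, min_eq_left h1, max_eq_right (by omega), min_eq_left (by omega)]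
    omega
  · rw [max_eq_left h1, min_eq_right h1, max_eq_left (by omega), min_eq_right (by omega)]
    omega

theorem GG_succ {n j k M : ℕ} (hj : j ≤ M) (hk : k ≤ M) :
    GG n j k (M + 1) = GG n j k M + TT n j k := by
  unfold GG
  rw [Finset.sum_range_succ]
  simp only [Finset.sum_range_succ (f := fun k' => if _ + k = k' + j then TT n _ k' else 0),
    Finset.sum_add_distrib]
  rw [add_assoc]
  congr 1
  rcases le_or_gt k j with h | h
  · -- the new pair is `(M, M + k - j)`
    have e1 : ∑ j' ∈ range M, (if j' + k = M + j then TT n j' M else 0) = 0 := by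
      refine Finset.sum_eq_zero fun j' hj' => if_neg ?_
      rw [Finset.mem_range] at hj'
      omega
    rw [e1, zero_add]
    rcases eq_or_lt_of_le h with rfl | h'
    · rw [Finset.sum_eq_zero, zero_add, if_pos rfl]
      · exact TT_shift rfl
      · intro k' hk'
        rw [Finset.mem_range] at hk'
        rw [if_neg (by omega)]
    · rw [if_neg (by omega), add_zero, Finset.sum_eq_single (M + k - j)]
      · rw [if_pos (by omega)]
        exact TT_shift (by omega)
      · intro k' _ hk'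
        rw [if_neg (by omega)]
      · intro hk'
        rw [Finset.mem_range] at hk'
        omega
  · have e1 : ∑ k' ∈ range M, (if M + k = k' + j then TT n M k' else 0) = 0 := by
      refine Finset.sum_eq_zero fun j' hj' => if_neg ?_
      rw [Finset.mem_range] at hj'
      omega
    rw [e1, zero_add, if_neg (by omega), add_zero, Finset.sum_eq_single (M + j - k)]
    · rw [if_pos (by omega)]
      exact TT_shift (by omega)
    · intro k' _ hk'
      rw [if_neg (by omega)]
    · intro hk'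
      rw [Finset.mem_range] at hk'
      omega

theorem GG_diff {n j k : ℕ} (hj : j < n) (hk : k < n) (e : ℕ) :
    GG n j k (n + e) - GG n j k n = e * TT n j k := by
  induction e with
  | zero => simp
  | succ e ih =>
    rw [← add_assoc, GG_succ (by omega) (by omega)]
    push_cast
    linear_combination ih

theorem DD_sum {n N M e : ℕ} (hN : 2 * n + e ≤ N) (hM : M ≤ n + e) {j k : ℕ} (hj : j < n)
    (hk : k < n) :
    ∑ l ∈ range N, DD n N l M * zeta N ^ (l * ((N - j) + k)) = N * GG n j k M := by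
  have hN0 : N ≠ 0 := by omega
  have step : ∑ l ∈ range N, DD n N l M * zeta N ^ (l * ((N - j) + k)) =
      ∑ j' ∈ range M, ∑ k' ∈ range M, TT n j' k' *
        ∑ l ∈ range N, zeta N ^ (l * (j' + (N - k') + (N - j) + k)) := by
    simp only [DD, Finset.mul_sum, Finset.sum_mul]
    rw [Finset.sum_comm]
    refine Finset.sum_congr rfl fun j' _ => ?_
    rw [Finset.sum_comm]
    refine Finset.sum_congr rfl fun k' _ => Finset.sum_congr rfl fun l _ => ?_
    rw [show l * (j' + (N - k') + (N - j) + k) = l * (j' + (N - k')) + l * ((N - j) + k) by ring,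
      pow_add]
    ring
  rw [step]
  simp only [char_sum hN0]
  unfold GG
  rw [Finset.mul_sum]
  refine Finset.sum_congr rfl fun j' hj' => ?_
  rw [Finset.mul_sum]
  refine Finset.sum_congr rfl fun k' hk' => ?_
  rw [Finset.mem_range] at hj' hk'
  have hiff : N ∣ j' + (N - k') + (N - j) + k ↔ j' + k = k' + j := by
    constructor
    · rintro ⟨r, hr⟩
      have hr3 : r = 2 := by
        have h1 : r < 3 := by
          by_contra hcon
          have : N * 3 ≤ N * r := Nat.mul_le_mul_left _ (by omega)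
          omega
        interval_cases r
        · omega
        · omega
        · rfl
      subst hr3
      omega
    · intro h
      exact ⟨2, by omega⟩
  by_cases h : j' + k = k' + j
  · rw [if_pos h, if_pos (hiff.2 h)]
    ring
  · rw [if_neg h, if_neg (fun h' => h (hiff.1 h')), mul_zero, mul_zero]

/-- The convolution kernel. -/
theorem mu_kernel {n N e : ℕ} (he : 0 < e) (hN : 2 * n + e ≤ N) {j k : ℕ} (hj : j < n)
    (hk : k < n) :
    ∑ l ∈ range N, mu n e N l * zeta N ^ (l * ((N - j) + k)) = TT n j k := by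
  have hN0 : (N : ℂ) ≠ 0 := Nat.cast_ne_zero.mpr (by omega)
  have he0 : (e : ℂ) ≠ 0 := Nat.cast_ne_zero.mpr (by omega)
  have h1 := DD_sum hN le_rfl hj hk
  have h2 := DD_sum hN (show n ≤ n + e by omega) hj hk
  have h3 : ∑ l ∈ range N, mu n e N l * zeta N ^ (l * ((N - j) + k)) =
      ((N : ℂ) * e)⁻¹ * (∑ l ∈ range N, DD n N l (n + e) * zeta N ^ (l * ((N - j) + k)) -
        ∑ l ∈ range N, DD n N l n * zeta N ^ (l * ((N - j) + k))) := by
    rw [← Finset.sum_sub_distrib, Finset.mul_sum]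
    refine Finset.sum_congr rfl fun l _ => ?_
    unfold mu
    ring
  rw [h3, h1, h2, ← mul_sub, GG_diff hj hk]
  field_simp

/-- The algebraic identity behind Bluestein's algorithm, for any multipliers. -/
theorem bluestein_identity' {n N : ℕ} (hn : n ≠ 0) (hN : n ≤ N) (μ : ℕ → ℂ)
    (hμ : ∀ j k, j < n → k < n →
      ∑ l ∈ range N, μ l * zeta N ^ (l * ((N - j) + k)) = TT n j k) (j : Fin n)
    (x : Fin n → ℂ) :
    dft n j x = zeta (2 * n) ^ (j.val ^ 2) *
      dft N ⟨(N - j.val) % N, Nat.mod_lt _ (by omega)⟩ fun l =>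
        μ l.val * dft N l fun k =>
          if h : k.val < n then zeta (2 * n) ^ (k.val ^ 2) * x ⟨k.val, h⟩ else 0 := by
  have hN0 : N ≠ 0 := by omega
  have hmod : ∀ l : ℕ, zeta N ^ ((N - j.val) % N * l) = zeta N ^ ((N - j.val) * l) := by
    intro l
    rw [mul_comm, pow_mul, mul_comm, pow_mul]
    conv_rhs => rw [← Nat.div_add_mod (N - j.val) N, pow_add, pow_mul (zeta N ^ l) N,
      ← pow_mul (zeta N) l N, mul_comm l N, pow_mul (zeta N) N l, (zeta_prim hN0).pow_eq_one,
      one_pow, one_pow, one_mul]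
  simp only [dft_def, hmod]
  -- restrict the inner sum to `k < n`
  have inner : ∀ l : Fin N, (∑ k : Fin N, zeta N ^ (l.val * k.val) *
      (if h : k.val < n then zeta (2 * n) ^ (k.val ^ 2) * x ⟨k.val, h⟩ else 0)) =
      ∑ k : Fin n, zeta N ^ (l.val * k.val) * (zeta (2 * n) ^ (k.val ^ 2) * x k) := by
    intro l
    symm
    refine Finset.sum_bij_ne_zero (fun (k : Fin n) _ _ => (⟨k.val, by omega⟩ : Fin N))
      (fun k _ _ => Finset.mem_univ _) (fun a _ _ b _ _ hab => ?_) (fun b _ hb => ?_)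
      (fun a _ _ => ?_)
    · exact Fin.ext (Fin.mk.inj_iff.1 hab)
    · by_cases h : b.val < n
      · refine ⟨⟨b.val, h⟩, Finset.mem_univ _, ?_, rfl⟩
        simpa [h] using hb
      · simp [h] at hb
    · simp
  simp only [inner, Finset.mul_sum]
  rw [Finset.sum_comm]
  refine Finset.sum_congr rfl fun k _ => ?_
  have hker := hμ j.val k.val j.2 k.2
  rw [← chirp_identity hn j.val k.val]
  unfold TT at hker
  rw [← hker, Finset.sum_mul, Finset.mul_sum, Finset.sum_mul,
    ← Fin.sum_univ_eq_sum_range (fun l => zeta (2 * n) ^ (j.val ^ 2) *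
      (μ l * zeta N ^ (l * (N - j.val + k.val)) * zeta (2 * n) ^ (k.val ^ 2)) * x k) N]
  refine Finset.sum_congr rfl fun l _ => ?_
  rw [show l.val * (N - j.val + k.val) = (N - j.val) * l.val + l.val * k.val by ring, pow_add]
  ring

/-- Bluestein's reduction with condition numbers. -/
theorem Cc.bluestein {n e N : ℕ} (hn : n ≠ 0) (he : 0 < e) (hen : e ≤ n) (hN : 2 * n + e ≤ N)
    (hc : 0 ≤ c) (hΛ : algBall 1 ⊆ Λ) (hb : 5 * (n * Real.sqrt n) / (N * e) ≤ 1)
    (H : Cc Λ c (Real.sqrt N) (DM N) s d) :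
    Cc Λ (c * (5 * n / e)) (Real.sqrt n) (DM n) (2 * s + N + 2 * n) (2 * d + 3) := by
  have hN0 : N ≠ 0 := by omega
  have hNr : (0 : ℝ) < N := by exact_mod_cast (by omega : 0 < N)
  have her : (0 : ℝ) < e := by exact_mod_cast he
  have hnr : (0 : ℝ) < n := by exact_mod_cast (by omega : 0 < n)
  set β : ℝ := 5 * (n * Real.sqrt n) / (N * e) with hβ
  have hβ0 : 0 ≤ β := by positivity
  let σ₁ : Fin N → Option (Fin n) := fun k => if h : k.val < n then some ⟨k.val, h⟩ else none
  let σ₂ : Fin n → Option (Fin N) := fun j => some ⟨(N - j.val) % N, Nat.mod_lt _ (by omega)⟩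
  have c1 : Cc Λ c 1 (Matrix.diagonal fun k : Fin n => zeta (2 * n) ^ (k.val ^ 2))
      (Fintype.card (Fin n)) 1 :=
    Cc.diag hc zero_le_one (fun i => (zeta_pow_norm _ _).le)
      (fun i => hΛ (rootsU_subset_algBall (zeta_pow_mem _ _)))
  have c2 : Cc Λ c 1 (wireM σ₁) 0 0 := by
    refine Cc.wire fun j j' i h h' => ?_
    simp only [σ₁] at h h'
    split_ifs at h with h1
    split_ifs at h' with h2
    simp only [Option.some.injEq] at h h'
    have := h.trans h'.symm
    simp only [Fin.mk.injEq] at this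
    exact Fin.ext this
  have c4 : Cc Λ c β (Matrix.diagonal fun l : Fin N => mu n e N l.val)
      (Fintype.card (Fin N)) 1 :=
    Cc.diag hc hβ0 (fun i => mu_norm hn he hen (by omega) _)
      (fun i => hΛ ⟨(mu_norm hn he hen (by omega) _).trans hb, mu_alg _ _ _ _⟩)
  have c6 : Cc Λ c 1 (wireM σ₂) 0 0 := by
    refine Cc.wire fun j j' i h h' => ?_
    simp only [σ₂, Option.some.injEq] at h h'
    have h3 := h.trans h'.symm
    simp only [Fin.mk.injEq] at h3
    have hj := j.2
    have hj' := j'.2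
    refine Fin.ext ?_
    rcases Nat.eq_zero_or_pos j.val with h0 | h0
    · rw [h0, Nat.sub_zero, Nat.mod_self] at h3
      rcases Nat.eq_zero_or_pos j'.val with h0' | h0'
      · rw [h0, h0']
      · rw [Nat.mod_eq_of_lt (by omega)] at h3
        omega
    · rcases Nat.eq_zero_or_pos j'.val with h0' | h0'
      · rw [h0', Nat.sub_zero, Nat.mod_self, Nat.mod_eq_of_lt (by omega)] at h3
        omega
      · rw [Nat.mod_eq_of_lt (by omega), Nat.mod_eq_of_lt (by omega)] at h3
        omega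
  have hsN := Real.sqrt_nonneg (N : ℝ)
  have r1 := Cc.comp zero_le_one zero_le_one c1 c2
  have r2 := Cc.comp (by positivity) hsN r1 H
  have r3 := Cc.comp (by positivity) hβ0 r2 c4
  have r4 := Cc.comp (by positivity) hsN r3 H
  have r5 := Cc.comp (by positivity) zero_le_one r4 c6
  have r6 := Cc.comp (by positivity) zero_le_one r5 c1
  have hmat : Matrix.diagonal (fun k : Fin n => zeta (2 * n) ^ (k.val ^ 2)) *
      (wireM σ₂ * (DM N * (Matrix.diagonal (fun l : Fin N => mu n e N l.val) *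
        (DM N * (wireM σ₁ * Matrix.diagonal (fun k : Fin n => zeta (2 * n) ^ (k.val ^ 2))))))) =
      DM n := by
    apply Matrix.mulVec_injective
    funext x j
    simp only [← Matrix.mulVec_mulVec, wireM_mulVec, σ₂, Option.elim, DM_mulVec,
      Matrix.mulVec_diagonal]
    rw [bluestein_identity' hn (by omega) (mu n e N)
      (fun j k hj hk => mu_kernel he hN hj hk) j x]
    congr 2
    funext l
    rw [Matrix.mulVec_diagonal, DM_mulVec]
    congr 2
    funext k
    rw [wireM_mulVec]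
    simp only [σ₁]
    by_cases hk : k.val < n
    · rw [dif_pos hk, dif_pos hk]
      simp only [Option.elim, Matrix.mulVec_diagonal]
    · rw [dif_neg hk, dif_neg hk]
      rfl
  have r7 := r6.congr hmat
  obtain ⟨_, _, C, f, h, hf, hh, hout, hcard, hdep, hcoef, hcond⟩ := r7
  refine ⟨op_DM n, by rw [DM_transpose]; exact op_DM n, C, f, h, hf, hh, hout,
    hcard.trans (le_of_eq ?_), fun g => (hdep g).trans (le_of_eq ?_), hcoef,
    fun g => (hcond g).trans (le_of_eq ?_)⟩
  · simp only [Fintype.card_fin]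
    ring
  · ring
  · have h1 : Real.sqrt N * Real.sqrt N = N := Real.mul_self_sqrt hNr.le
    calc c * (1 * (1 * (Real.sqrt N * (β * (Real.sqrt N * (1 * 1))))))
        = c * (β * (Real.sqrt N * Real.sqrt N)) := by ring
      _ = c * (5 * n / e) * Real.sqrt n := by
          rw [h1, hβ]
          field_simp

end Vale.Agent.P344
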