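import Vale.Agent.P344.H952.CDefs
import Vale.Agent.P344.H880.KDft

/-!
# Circuits for a matrix, and the class of well conditioned circuits for `F_n`
-/

namespace Vale.Agent.P344

/-- `C` is a circuit for the matrix `A`; its gates compute the linear forms `f`, and `h` are the
derivatives of the outputs with respect to the values of the gates. -/
structure Realizes {n : ℕ} (C : Circuit (Fin n) (Fin n)) (f h : C.G → Fin n → ℂ)
    (A : Matrix (Fin n) (Fin n) ℂ) : Prop where
  forms : C.IsForms f
  sens : C.IsSens h
  out : ∀ j k, C.cell f (C.out j) k = A j k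

/-- Some circuit for `F_n` with `s` gates has depth at most `D`, scalar coefficients in `Λ`, and
condition number `|h_g| (|p| + |q|) / √n` at most `K` at every addition or subtraction `g` of `p`
and `q`. -/
def Conditioned (Λ : Set ℂ) (D : ℕ) (K : ℝ) (n s : ℕ) : Prop :=
  ∃ (C : Circuit (Fin n) (Fin n)) (f h : C.G → Fin n → ℂ), Realizes C f h (dftMat n) ∧
    Fintype.card C.G = s ∧ (∀ g, C.depth g ≤ D) ∧ (∀ g z p, C.gate g = .smul z p → z ∈ Λ) ∧
    ∀ g, C.cond f h g ≤ K * Real.sqrt n

end Vale.Agent.P344
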