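import Vale.Agent.P344.H952.CBlue
import Vale.Agent.P344.H952.Algebraic

/-!
# Circuits and straight-line programs
-/

set_option linter.unusedSectionVars false

namespace Vale.Agent.P344

open Finset

variable {ι κ : Type} [Fintype ι] [DecidableEq ι] [Fintype κ] [DecidableEq κ] {Λ : Set ℂ}

/-- The depth of a cell. -/
def Circuit.dep (C : Circuit ι κ) : Option ι ⊕ C.G → ℕ := Sum.elim (fun _ => 0) C.depth

/-- A circuit without outputs whose cells contain all values of `V`. -/
def Holds (Λ : Set ℂ) (ι : Type) [Fintype ι] [DecidableEq ι] (s : ℕ)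
    (V : Set (ℕ × ((ι → ℂ) → ℂ))) : Prop :=
  ∃ (C : Circuit ι Empty) (f : C.G → ι → ℂ), C.IsForms f ∧ Fintype.card C.G ≤ s ∧
    (∀ g, C.depth g ≤ s) ∧ (∀ g z p, C.gate g = .smul z p → z ∈ Λ) ∧
    ∀ p ∈ V, ∃ k, p.2 = form (C.cell f k) ∧ C.dep k = p.1

theorem Holds.insert {s : ℕ} {V : Set (ℕ × ((ι → ℂ) → ℂ))} {C : Circuit ι Empty}
    {f : C.G → ι → ℂ} (hf : C.IsForms f) (hcard : Fintype.card C.G ≤ s)
    (hdep : ∀ g, C.depth g ≤ s) (hcoef : ∀ g z p, C.gate g = .smul z p → z ∈ Λ)
    (hV : ∀ p ∈ V, ∃ k, p.2 = form (C.cell f k) ∧ C.dep k = p.1)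
    (γ : Gate (Option ι ⊕ C.G)) (hγ : ∀ z p, γ = .smul z p → z ∈ Λ) (D : ℕ)
    (hD0 : 0 < D) (hD : ∀ k ∈ γ.args, C.dep k < D) (hDs : D ≤ s + 1) (u : (ι → ℂ) → ℂ)
    (hu : u = form (γ.eval (C.cell f))) :
    Holds Λ ι (s + 1) (insert (D, u) V) := by
  let φ : Option ι ⊕ C.G → Option ι ⊕ (C.G ⊕ Unit) := Sum.elim Sum.inl fun g => Sum.inr (Sum.inl g)
  let C' : Circuit ι Empty :=
    { G := C.G ⊕ Unit
      fin := inferInstance
      dec := inferInstance
      gate := Sum.elim (fun g => (C.gate g).map φ) fun _ => γ.map φ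
      depth := Sum.elim C.depth fun _ => D
      depth_pos := by
        rintro (g | g)
        · exact C.depth_pos g
        · exact hD0
      depth_lt := by
        rintro (g | g) g' hg'
        · simp only [Sum.elim_inl, Gate.args_map, List.mem_map] at hg'
          obtain ⟨p, hp, hpg⟩ := hg'
          rcases p with p | p
          · simp [φ] at hpg
          · simp only [φ, Sum.elim_inr, Sum.inr.injEq] at hpg
            subst hpg
            exact C.depth_lt g p hp
        · simp only [Sum.elim_inr, Gate.args_map, List.mem_map] at hg'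
          obtain ⟨p, hp, hpg⟩ := hg'
          rcases p with p | p
          · simp [φ] at hpg
          · simp only [φ, Sum.elim_inr, Sum.inr.injEq] at hpg
            subst hpg
            exact hD _ hp
      out := fun j => j.elim }
  let f' : C'.G → ι → ℂ := Sum.elim f fun _ => γ.eval (C.cell f)
  have cell : ∀ p, C'.cell f' (φ p) = C.cell f p := by
    rintro ((_ | p) | p) <;> rfl
  have dep : ∀ p, C'.dep (φ p) = C.dep p := by
    rintro (p | p) <;> rfl
  refine ⟨C', f', ?_, ?_, ?_, ?_, ?_⟩
  · rintro (g | g)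
    · change f g = ((C.gate g).map φ).eval (C'.cell f')
      rw [Gate.eval_map]
      simp only [cell]
      exact hf g
    · change γ.eval (C.cell f) = (γ.map φ).eval (C'.cell f')
      rw [Gate.eval_map]
      simp only [cell]
  · change Fintype.card (C.G ⊕ Unit) ≤ _
    rw [Fintype.card_sum, Fintype.card_unit]
    omega
  · rintro (g | g)
    · exact (hdep g).trans (Nat.le_succ _)
    · exact hDs
  · rintro (g | g) z p hg
    · obtain ⟨q, hq⟩ := Gate.map_eq_smul (g := C.gate g) (φ := φ) hg
      exact hcoef g z q hq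
    · obtain ⟨q, hq⟩ := Gate.map_eq_smul (g := γ) (φ := φ) hg
      exact hγ z q hq
  · rintro p (rfl | hp)
    · exact ⟨Sum.inr (Sum.inr ()), hu, rfl⟩
    · obtain ⟨k, hk1, hk2⟩ := hV p hp
      exact ⟨φ k, by rw [cell]; exact hk1, by rw [dep]; exact hk2⟩

theorem form_add (a b : ι → ℂ) : form a + form b = form (a + b) := by
  funext x
  simp [form, add_mul, Finset.sum_add_distrib]

theorem form_sub (a b : ι → ℂ) : form a - form b = form (a - b) := by
  funext x
  simp [form, sub_mul, Finset.sum_sub_distrib]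

theorem form_smul (c : ℂ) (a : ι → ℂ) : c • form a = form (c • a) := by
  funext x
  simp [form, Finset.mul_sum, mul_assoc]

/-- From straight-line programs to circuits. -/
theorem Steps.holds {s : ℕ} {V : Set (ℕ × ((ι → ℂ) → ℂ))}
    (h : Steps Λ (inputs ι) s V) : Holds Λ ι s V := by
  induction h with
  | zero =>
    let C : Circuit ι Empty :=
      { G := Empty
        fin := inferInstance
        dec := inferInstance
        gate := fun g => g.elim
        depth := fun g => g.elim
        depth_pos := fun g => g.elim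
        depth_lt := fun g => g.elim
        out := fun j => j.elim }
    refine ⟨C, fun g => g.elim, fun g => g.elim, ?_, fun g => g.elim, fun g => g.elim, ?_⟩
    · simp [C]
    · rintro ⟨d, u⟩ ⟨hd, hu⟩
      simp only at hd hu
      subst hd
      rcases hu with rfl | ⟨k, rfl⟩
      · refine ⟨Sum.inl none, ?_, rfl⟩
        funext x
        simp [form, Circuit.cell]
      · refine ⟨Sum.inl (some k), ?_, rfl⟩
        funext x
        simp [form, Circuit.cell, Pi.single_apply]
  | @add s V d e u v _ h1 h2 ih =>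
    obtain ⟨C, f, hf, hcard, hdep, hcoef, hV⟩ := ih
    obtain ⟨k1, hk1, hd1⟩ := hV _ h1
    obtain ⟨k2, hk2, hd2⟩ := hV _ h2
    simp only at hk1 hk2 hd1 hd2
    have hds : ∀ k, C.dep k ≤ s := by
      rintro (k | k)
      · exact Nat.zero_le _
      · exact hdep k
    have b1 := hds k1
    have b2 := hds k2
    refine Holds.insert hf hcard hdep hcoef hV (.add k1 k2) (by simp) _ (Nat.succ_pos _) ?_ ?_ _ ?_
    · intro k hk
      simp only [Gate.args, List.mem_cons, List.not_mem_nil, or_false] at hk
      rcases hk with rfl | rfl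
      · omega
      · omega
    · omega
    · rw [hk1, hk2, form_add]
      rfl
  | @sub s V d e u v _ h1 h2 ih =>
    obtain ⟨C, f, hf, hcard, hdep, hcoef, hV⟩ := ih
    obtain ⟨k1, hk1, hd1⟩ := hV _ h1
    obtain ⟨k2, hk2, hd2⟩ := hV _ h2
    simp only at hk1 hk2 hd1 hd2
    have hds : ∀ k, C.dep k ≤ s := by
      rintro (k | k)
      · exact Nat.zero_le _
      · exact hdep k
    have b1 := hds k1
    have b2 := hds k2
    refine Holds.insert hf hcard hdep hcoef hV (.sub k1 k2) (by simp) _ (Nat.succ_pos _) ?_ ?_ _ ?_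
    · intro k hk
      simp only [Gate.args, List.mem_cons, List.not_mem_nil, or_false] at hk
      rcases hk with rfl | rfl
      · omega
      · omega
    · omega
    · rw [hk1, hk2, form_sub]
      rfl
  | @smul s V d u c _ h1 hc ih =>
    obtain ⟨C, f, hf, hcard, hdep, hcoef, hV⟩ := ih
    obtain ⟨k1, hk1, hd1⟩ := hV _ h1
    simp only at hk1 hd1
    have hds : ∀ k, C.dep k ≤ s := by
      rintro (k | k)
      · exact Nat.zero_le _
      · exact hdep k
    have b1 := hds k1
    refine Holds.insert hf hcard hdep hcoef hV (.smul c k1) ?_ _ (Nat.succ_pos _) ?_ ?_ _ ?_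
    · intro z p hz
      simp only [Gate.smul.injEq] at hz
      rw [← hz.1]
      exact hc
    · intro k hk
      simp only [Gate.args, List.mem_cons, List.not_mem_nil, or_false] at hk
      subst hk
      omega
    · omega
    · rw [hk1, form_smul]
      rfl

/-- From a computation to a circuit with some condition number. -/
theorem Computes.circuit {A : Matrix κ ι ℂ} {F : κ → (ι → ℂ) → ℂ} (hF : ∀ j, F j = form (A j))
    {s : ℕ} {D : ℕ∞} (h : Computes Λ D F s) {a : ℝ} (ha : 0 < a) (hA : Op a A)
    (hA' : Op a A.transpose) : ∃ c : ℝ, 0 ≤ c ∧ Cc Λ c a A s s := by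
  obtain ⟨V, hV, hout⟩ := h
  obtain ⟨C, f, hf, hcard, hdep, hcoef, hVV⟩ := hV.holds
  have key : ∀ j, ∃ k, C.cell f k = A j := by
    intro j
    obtain ⟨d, _, hd⟩ := hout j
    obtain ⟨k, hk, _⟩ := hVV _ hd
    refine ⟨k, ?_⟩
    simp only at hk
    rw [hF j] at hk
    exact (form_injective hk).symm
  choose o ho using key
  let C' : Circuit ι κ :=
    { G := C.G
      fin := C.fin
      dec := C.dec
      gate := C.gate
      depth := C.depth
      depth_pos := C.depth_pos
      depth_lt := C.depth_lt
      out := o }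
  have hcell : C'.cell f = C.cell f := by
    funext k
    rcases k with (_ | k) | k <;> rfl
  have hf' : C'.IsForms f := by
    intro g
    rw [hcell]
    exact hf g
  obtain ⟨h, hh⟩ := C'.exists_sens
  have hcond0 : ∀ g, 0 ≤ C'.cond f h g := fun g =>
    mul_nonneg (nrm_nn _) (Gate.size_nonneg _ _)
  refine ⟨(∑ g, C'.cond f h g) / a, ?_, hA, hA', C', f, h, hf', hh, ?_, hcard, hdep, hcoef, ?_⟩
  · exact div_nonneg (Finset.sum_nonneg fun g _ => hcond0 g) ha.le
  · intro j i
    rw [hcell]
    exact congrFun (ho j) i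
  · intro g
    rw [div_mul_cancel₀ _ ha.ne']
    exact Finset.single_le_sum (f := fun g => C'.cond f h g) (fun g _ => hcond0 g)
      (Finset.mem_univ g)

/-- From circuits to straight-line programs. -/
theorem Circuit.can (C : Circuit ι κ) {f : C.G → ι → ℂ} (hf : C.IsForms f)
    (hΛ : ∀ g z p, C.gate g = .smul z p → z ∈ Λ) (t : ℕ) :
    Can Λ (inputs ι) (Finset.univ.filter fun g => C.depth g ≤ t).card
      {p | ∃ g, C.depth g ≤ t ∧ p = (C.depth g, form (f g))} := by
  induction t with
  | zero =>
    refine Can.of_avail ?_ _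
    rintro p ⟨g, hg, _⟩
    have := C.depth_pos g
    omega
  | succ t ih =>
    have step : ∀ g ∈ Finset.univ.filter (fun g => C.depth g = t + 1),
        Can Λ (inputs ι ∪ {p | ∃ g, C.depth g ≤ t ∧ p = (C.depth g, form (f g))}) 1
          ({(C.depth g, form (f g))} : Set (ℕ × ((ι → ℂ) → ℂ))) := by
      intro g hg
      rw [Finset.mem_filter] at hg
      have hg := hg.2
      have av : ∀ k ∈ (C.gate g).args, ∃ d ≤ t, (d, form (C.cell f k)) ∈
          (inputs ι ∪ {p | ∃ g, C.depth g ≤ t ∧ p = (C.depth g, form (f g))}) := by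
        intro k hk
        rcases k with (_ | k) | k
        · refine ⟨0, Nat.zero_le _, Or.inl ⟨rfl, Or.inl ?_⟩⟩
          funext x
          simp [form, Circuit.cell]
        · refine ⟨0, Nat.zero_le _, Or.inl ⟨rfl, Or.inr ⟨k, ?_⟩⟩⟩
          funext x
          simp [form, Circuit.cell, Pi.single_apply]
        · have := C.depth_lt g k hk
          exact ⟨C.depth k, by omega, Or.inr ⟨k, by omega, rfl⟩⟩
      have hfg := hf g
      cases hgate : C.gate g with
      | add p q =>
        rw [hgate] at av hfg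
        obtain ⟨d1, hd1, m1⟩ := av p (by simp [Gate.args])
        obtain ⟨d2, hd2, m2⟩ := av q (by simp [Gate.args])
        refine ⟨1, le_rfl, _, .add .zero m1 m2, ?_⟩
        rintro r rfl
        refine ⟨max d1 d2 + 1, ?_, Or.inl ?_⟩
        · simp only
          omega
        · simp only [hfg, form_add]
          rfl
      | sub p q =>
        rw [hgate] at av hfg
        obtain ⟨d1, hd1, m1⟩ := av p (by simp [Gate.args])
        obtain ⟨d2, hd2, m2⟩ := av q (by simp [Gate.args])
        refine ⟨1, le_rfl, _, .sub .zero m1 m2, ?_⟩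
        rintro r rfl
        refine ⟨max d1 d2 + 1, ?_, Or.inl ?_⟩
        · simp only
          omega
        · simp only [hfg, form_sub]
          rfl
      | smul z p =>
        rw [hgate] at av hfg
        obtain ⟨d1, hd1, m1⟩ := av p (by simp [Gate.args])
        refine ⟨1, le_rfl, _, .smul z .zero m1 (hΛ g z p hgate), ?_⟩
        rintro r rfl
        refine ⟨d1 + 1, ?_, Or.inl ?_⟩
        · simp only
          omega
        · simp only [hfg, form_smul]
          rfl
    have h1 := ih.trans (Can.iUnion (Finset.univ.filter fun g => C.depth g = t + 1) (fun _ => 1)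
      (fun g => ({(C.depth g, form (f g))} : Set (ℕ × ((ι → ℂ) → ℂ)))) step)
    have h2 : (Finset.univ.filter fun g => C.depth g ≤ t + 1).card =
        (Finset.univ.filter fun g => C.depth g ≤ t).card +
          ∑ _g ∈ Finset.univ.filter (fun g => C.depth g = t + 1), 1 := by
      rw [Finset.sum_const, smul_eq_mul, mul_one, ← Finset.card_union_of_disjoint]
      · congr 1
        ext g
        simp only [Finset.mem_filter, Finset.mem_union, Finset.mem_univ, true_and]
        omega
      · rw [Finset.disjoint_filter]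
        intro g _ h1 h2
        omega
    rw [h2]
    refine h1.mono_right (Avail.of_subset ?_)
    rintro p ⟨g, hg, rfl⟩
    rcases Nat.lt_or_ge (C.depth g) (t + 1) with h | h
    · exact Or.inl ⟨g, by omega, rfl⟩
    · right
      simp only [Set.mem_iUnion, exists_prop]
      exact ⟨g, by simp only [Finset.mem_filter, Finset.mem_univ, true_and]; omega, rfl⟩

theorem Circuit.blk (C : Circuit ι κ) {f : C.G → ι → ℂ} (hf : C.IsForms f)
    (hΛ : ∀ g z p, C.gate g = .smul z p → z ∈ Λ) {D : ℕ} (hD : ∀ g, C.depth g ≤ D) :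
    Blk Λ (fun j => form (C.cell f (C.out j))) (Fintype.card C.G) D := by
  have h := C.can hf hΛ D
  have h1 : (Finset.univ.filter fun g => C.depth g ≤ D).card = Fintype.card C.G := by
    rw [Finset.filter_true_of_mem fun g _ => hD g, Finset.card_univ]
  rw [h1] at h
  obtain ⟨s', hs', V, hV, hA⟩ := h
  refine ⟨s', hs', V, hV, ?_⟩
  rintro ⟨p1, p2⟩ ⟨hp1, j, hp2⟩
  simp only at hp1 hp2
  subst hp1 hp2
  rcases hk : C.out j with (_ | k) | k
  · refine ⟨0, Nat.zero_le _, hV.subset ⟨rfl, Or.inl ?_⟩⟩
    funext x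
    simp [form, Circuit.cell]
  · refine ⟨0, Nat.zero_le _, hV.subset ⟨rfl, Or.inr ⟨k, ?_⟩⟩⟩
    funext x
    simp [form, Circuit.cell, Pi.single_apply]
  · obtain ⟨d, hd, hm⟩ := hA _ ⟨k, hD k, rfl⟩
    exact ⟨d, hd.trans (hD k), hm⟩

end Vale.Agent.P344
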