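import Vale.Agent.P344.H952.CTools
import Vale.Agent.P344.H952.Bluestein

/-!
# Cooley–Tukey and Bluestein with condition numbers
-/

set_option linter.unusedSectionVars false

namespace Vale.Agent.P344

open Finset

variable {Λ : Set ℂ} {c a : ℝ} {s d : ℕ}

/-- The matrix of the discrete Fourier transform. -/
noncomputable def DM (n : ℕ) : Matrix (Fin n) (Fin n) ℂ :=
  fun j k => zeta n ^ ((j : ℕ) * (k : ℕ))

theorem DM_mulVec (n : ℕ) (x : Fin n → ℂ) (j : Fin n) : (DM n).mulVec x j = dft n j x := rfl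

theorem DM_transpose (n : ℕ) : (DM n).transpose = DM n := by
  ext j k
  simp only [DM, Matrix.transpose_apply, mul_comm]

theorem conj_zeta_pow {n : ℕ} (hn : n ≠ 0) (j : ℕ) {k : ℕ} (hk : k ≤ n) :
    (starRingEnd ℂ) (zeta n ^ (j * k)) = zeta n ^ (j * (n - k)) := by
  have h1 : zeta n ^ (j * k) * zeta n ^ (j * (n - k)) = 1 := by
    rw [← pow_add, ← mul_add, Nat.add_sub_cancel' hk, mul_comm, pow_mul,
      (zeta_prim hn).pow_eq_one, one_pow]
  have h2 : zeta n ^ (j * k) * (starRingEnd ℂ) (zeta n ^ (j * k)) = 1 := by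
    rw [Complex.mul_conj, Complex.normSq_eq_norm_sq, zeta_pow_norm]
    norm_num
  have h0 : zeta n ^ (j * k) ≠ 0 := by
    intro h
    have := zeta_pow_norm n (j * k)
    rw [h, norm_zero] at this
    exact zero_ne_one this
  exact mul_left_cancel₀ h0 (h2.trans h1.symm)

theorem parseval (n : ℕ) (v : Fin n → ℂ) :
    ∑ j, ‖(DM n).mulVec v j‖ ^ 2 = n * ∑ i, ‖v i‖ ^ 2 := by
  rcases Nat.eq_zero_or_pos n with rfl | hn
  · simp
  have hn0 : n ≠ 0 := hn.ne'
  have e : ∀ z : ℂ, ((‖z‖ ^ 2 : ℝ) : ℂ) = z * (starRingEnd ℂ) z := by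
    intro z
    rw [Complex.mul_conj, Complex.normSq_eq_norm_sq]
  have h : ((∑ j, ‖(DM n).mulVec v j‖ ^ 2 : ℝ) : ℂ) = ((n * ∑ i, ‖v i‖ ^ 2 : ℝ) : ℂ) := by
    rw [Complex.ofReal_sum]
    push_cast
    simp only [← Complex.ofReal_pow, e]
    simp only [Matrix.mulVec, dotProduct, DM, map_sum, map_mul, Finset.sum_mul_sum]
    have h1 : ∀ j k l : Fin n, zeta n ^ ((j : ℕ) * (k : ℕ)) * v k *
        ((starRingEnd ℂ) (zeta n ^ ((j : ℕ) * (l : ℕ))) * (starRingEnd ℂ) (v l)) =
        v k * (starRingEnd ℂ) (v l) * zeta n ^ ((j : ℕ) * ((k : ℕ) + (n - (l : ℕ)))) := by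
      intro j k l
      rw [conj_zeta_pow hn0 _ l.2.le, mul_add, pow_add]
      ring
    simp only [h1]
    rw [Finset.sum_comm, Finset.mul_sum]
    refine Finset.sum_congr rfl fun k _ => ?_
    rw [Finset.sum_comm]
    simp only [← Finset.mul_sum]
    have h2 : ∀ l : Fin n, ∑ j : Fin n, zeta n ^ ((j : ℕ) * ((k : ℕ) + (n - (l : ℕ)))) =
        if l = k then (n : ℂ) else 0 := by
      intro l
      have := char_sum hn0 ((k : ℕ) + (n - (l : ℕ)))
      rw [Fin.sum_univ_eq_sum_range (fun j => zeta n ^ (j * ((k : ℕ) + (n - (l : ℕ))))) n, this]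
      by_cases hlk : l = k
      · subst hlk
        rw [if_pos rfl, if_pos]
        exact ⟨1, by omega⟩
      · rw [if_neg hlk, if_neg]
        rintro ⟨r, hr⟩
        apply hlk
        have hl := l.2
        have hk := k.2
        have hr2 : r < 2 := by
          by_contra hcon
          have : n * 2 ≤ n * r := Nat.mul_le_mul_left _ (by omega)
          omega
        have : r = 1 := by
          interval_cases r
          · omega
          · rfl
        subst this
        exact Fin.ext (by omega)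
    simp only [h2, mul_ite, mul_zero, Finset.sum_ite_eq', Finset.mem_univ, if_true]
    ring
  exact_mod_cast h

theorem op_DM (n : ℕ) : Op (Real.sqrt n) (DM n) := by
  intro v
  refine nrm_le_of_sq_le (mul_nonneg (Real.sqrt_nonneg _) (nrm_nn _)) ?_
  rw [parseval, mul_pow, Real.sq_sqrt (Nat.cast_nonneg _), nrm_sq]

theorem Cc.congr {ι κ : Type} [Fintype ι] [DecidableEq ι] [Fintype κ] [DecidableEq κ]
    {A B : Matrix κ ι ℂ} (H : Cc Λ c a A s d) (h : A = B) : Cc Λ c a B s d := h ▸ H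

theorem wireM_mulVec {ι κ : Type} [Fintype ι] [DecidableEq ι] (σ : κ → Option ι) (v : ι → ℂ)
    (j : κ) : (wireM σ).mulVec v j = (σ j).elim 0 v := by
  simp only [Matrix.mulVec, dotProduct, wireM, ite_mul, one_mul, zero_mul]
  cases h : σ j with
  | none => simp
  | some i => simp

/-- Cooley–Tukey. -/
theorem Cc.cooley_tukey {p q s₁ s₂ d₁ d₂ : ℕ} (hp : p ≠ 0) (hq : q ≠ 0) (hΛ : rootsU ⊆ Λ)
    (hc : 0 ≤ c) (H₁ : Cc Λ c (Real.sqrt q) (DM q) s₁ d₁)
    (H₂ : Cc Λ c (Real.sqrt p) (DM p) s₂ d₂) :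
    Cc Λ c (Real.sqrt (q * p : ℕ)) (DM (q * p)) (p * s₁ + q * p + q * s₂) (d₁ + 1 + d₂) := by
  let σ₁ : Fin p × Fin q → Option (Fin (q * p)) := fun a => some (finProdFinEquiv (a.2, a.1))
  let tw : Fin p × Fin q → ℂ := fun a => zeta (q * p) ^ (a.2.val * a.1.val)
  let σ₂ : Fin q × Fin p → Option (Fin p × Fin q) := fun a => some (a.2, a.1)
  let σ₃ : Fin (q * p) → Option (Fin q × Fin p) := fun j =>
    some (⟨j.val % q, Nat.mod_lt _ (Nat.pos_of_ne_zero hq)⟩,
      ⟨j.val / q, Nat.div_lt_of_lt_mul j.2⟩)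
  have c1 : Cc Λ c 1 (wireM σ₁) 0 0 := by
    refine Cc.wire fun j j' i h h' => ?_
    simp only [σ₁, Option.some.injEq] at h h'
    have := finProdFinEquiv.injective (h.trans h'.symm)
    simp only [Prod.mk.injEq] at this
    exact Prod.ext this.2 this.1
  have c2 : Cc Λ c (Real.sqrt q) (famM (Fin p) (DM q)) (Fintype.card (Fin p) * s₁) d₁ :=
    H₁.fam (Real.sqrt_nonneg _)
  have c3 : Cc Λ c 1 (Matrix.diagonal tw) (Fintype.card (Fin p × Fin q)) 1 :=
    Cc.diag hc zero_le_one (fun i => (zeta_pow_norm _ _).le) (fun i => hΛ (zeta_pow_mem _ _))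
  have c4 : Cc Λ c 1 (wireM σ₂) 0 0 := by
    refine Cc.wire fun j j' i h h' => ?_
    simp only [σ₂, Option.some.injEq] at h h'
    have := h.trans h'.symm
    simp only [Prod.mk.injEq] at this
    exact Prod.ext this.2 this.1
  have c5 : Cc Λ c (Real.sqrt p) (famM (Fin q) (DM p)) (Fintype.card (Fin q) * s₂) d₂ :=
    H₂.fam (Real.sqrt_nonneg _)
  have c6 : Cc Λ c 1 (wireM σ₃) 0 0 := by
    refine Cc.wire fun j j' i h h' => ?_
    simp only [σ₃, Option.some.injEq] at h h'
    have := h.trans h'.symm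
    simp only [Prod.mk.injEq, Fin.mk.injEq] at this
    refine Fin.ext ?_
    rw [← Nat.div_add_mod j.val q, ← Nat.div_add_mod j'.val q, this.1, this.2]
  have hsq := Real.sqrt_nonneg (q : ℝ)
  have hsp := Real.sqrt_nonneg (p : ℝ)
  have r1 := Cc.comp zero_le_one hsq c1 c2
  have r2 := Cc.comp (by positivity) zero_le_one r1 c3
  have r3 := Cc.comp (by positivity) zero_le_one r2 c4
  have r4 := Cc.comp (by positivity) hsp r3 c5
  have r5 := Cc.comp (by positivity) zero_le_one r4 c6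
  have hmat : wireM σ₃ * (famM (Fin q) (DM p) * (wireM σ₂ * (Matrix.diagonal tw *
      (famM (Fin p) (DM q) * wireM σ₁)))) = DM (q * p) := by
    apply Matrix.mulVec_injective
    funext x j
    simp only [← Matrix.mulVec_mulVec, wireM_mulVec, σ₃, Option.elim, famM_mulVec, DM_mulVec,
      σ₂, Matrix.mulVec_diagonal, σ₁, tw]
    rw [dft_split hp hq]
  have r6 := r5.congr hmat
  refine r6.mono (Set.Subset.rfl) le_rfl (le_of_eq ?_) hc (by positivity) (le_of_eq ?_)
    (le_of_eq ?_)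
  · push_cast
    rw [Real.sqrt_mul (Nat.cast_nonneg _)]
    ring
  · simp only [Fintype.card_fin, Fintype.card_prod]
    ring
  · ring

/-- `F_1`. -/
theorem Cc.dft_one : Cc Λ c (Real.sqrt (1 : ℕ)) (DM 1) 0 0 := by
  have h : wireM (fun j : Fin 1 => some j) = DM 1 := by
    ext j k
    have hj : j = 0 := Subsingleton.elim _ _
    have hk : k = 0 := Subsingleton.elim _ _
    subst hj hk
    simp [wireM, DM]
  have := (Cc.wire (Λ := Λ) (c := c) (σ := fun j : Fin 1 => some j) (by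
    intro j j' i _ _
    exact Subsingleton.elim _ _)).congr h
  simpa using this

end Vale.Agent.P344
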