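import Vale.Agent.P344.H952.Defs

/-!
# Linear circuits with condition numbers

A linear circuit is given by its gates.  For every gate we consider the linear form it computes
and the sensitivity of the outputs to its value.
-/

namespace Vale.Agent.P344

open Finset

/-- A gate of a linear circuit that reads cells of type `α`: `p + q`, `p - q` or `c p`. -/
inductive Gate (α : Type) : Type
  | add (p q : α) : Gate α
  | sub (p q : α) : Gate α
  | smul (c : ℂ) (p : α) : Gate α

/-- The cells read by a gate. -/
def Gate.args {α : Type} : Gate α → List α
  | .add p q => [p, q]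
  | .sub p q => [p, q]
  | .smul _ p => [p]

/-- The value of a gate when the cells hold the vectors `x`. -/
def Gate.eval {α ι : Type} (x : α → ι → ℂ) : Gate α → ι → ℂ
  | .add p q => x p + x q
  | .sub p q => x p - x q
  | .smul c p => c • x p

/-- The coefficient with which a gate reads the cell `k`. -/
def Gate.coef {α : Type} [DecidableEq α] (k : α) : Gate α → ℂ
  | .add p q => (if p = k then 1 else 0) + (if q = k then 1 else 0)
  | .sub p q => (if p = k then 1 else 0) - (if q = k then 1 else 0)
  | .smul c p => if p = k then c else 0

/-- A linear circuit with inputs `x_i` (`i : ι`) and outputs indexed by `κ`.  Its cells are the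
constant `0` (`Sum.inl none`), the inputs (`Sum.inl (some i)`) and the gates (`Sum.inr g`); the
value of a cell may be read any number of times.  Reading a gate increases the depth, so there are
no cycles. -/
structure Circuit (ι κ : Type) : Type 1 where
  /-- the gates -/
  G : Type
  fin : Fintype G
  dec : DecidableEq G
  /-- what a gate computes -/
  gate : G → Gate (Option ι ⊕ G)
  /-- the depth of a gate -/
  depth : G → ℕ
  depth_pos : ∀ g, 0 < depth g
  depth_lt : ∀ g g', Sum.inr g' ∈ (gate g).args → depth g' < depth g
  /-- the cell where an output is found -/
  out : κ → Option ι ⊕ G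

attribute [instance] Circuit.fin Circuit.dec

variable {ι κ : Type} [Fintype ι] [DecidableEq ι] [Fintype κ]

/-- The linear forms in the cells, given the linear forms `f` in the gates. -/
def Circuit.cell (C : Circuit ι κ) (f : C.G → ι → ℂ) : Option ι ⊕ C.G → ι → ℂ
  | .inl none => 0
  | .inl (some i) => Pi.single i 1
  | .inr g => f g

/-- `f g` is, for every gate `g`, the linear form computed by `g`. -/
def Circuit.IsForms (C : Circuit ι κ) (f : C.G → ι → ℂ) : Prop :=
  ∀ g, f g = (C.gate g).eval (C.cell f)

/-- The derivative of the outputs with respect to the value of cell `k`, when `h g` is the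
derivative with respect to the value of gate `g`. -/
noncomputable def Circuit.sensAt (C : Circuit ι κ) (h : C.G → κ → ℂ) (k : Option ι ⊕ C.G)
    (j : κ) : ℂ :=
  (if C.out j = k then 1 else 0) + ∑ g, (C.gate g).coef k * h g j

/-- `h g` is, for every gate `g`, the vector of derivatives of the outputs with respect to the
value of `g`. -/
def Circuit.IsSens (C : Circuit ι κ) (h : C.G → κ → ℂ) : Prop :=
  ∀ g, h g = C.sensAt h (.inr g)

/-- Euclidean norm. -/
noncomputable def nrm {α : Type} [Fintype α] (v : α → ℂ) : ℝ := Real.sqrt (∑ i, ‖v i‖ ^ 2)

/-- For an addition or subtraction of `p` and `q`: the sum of the norms of `p` and `q`. -/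
noncomputable def Gate.size {α : Type} (x : α → ι → ℂ) : Gate α → ℝ
  | .add p q => nrm (x p) + nrm (x q)
  | .sub p q => nrm (x p) + nrm (x q)
  | .smul _ _ => 0

/-- The condition number (not normalised) of gate `g`: the norm of the sensitivity of the outputs
to the value of `g`, times the sum of the norms of the two forms added; `0` for scalar
multiplications. -/
noncomputable def Circuit.cond (C : Circuit ι κ) (f : C.G → ι → ℂ) (h : C.G → κ → ℂ)
    (g : C.G) : ℝ :=
  nrm (h g) * (C.gate g).size (C.cell f)

end Vale.Agent.P344
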