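import Vale.Agent.P344.H952.CFrame

/-!
# Forms and sensitivities exist and are unique
-/

set_option linter.unusedSectionVars false

namespace Vale.Agent.P344

open Finset

variable {ι κ : Type} [Fintype ι] [DecidableEq ι] [Fintype κ]

theorem Gate.eval_congr {α : Type} {x y : α → ι → ℂ} {g : Gate α}
    (h : ∀ k ∈ g.args, x k = y k) : g.eval x = g.eval y := by
  cases g with
  | add p q =>
    simp only [Gate.eval]
    rw [h p (by simp [Gate.args]), h q (by simp [Gate.args])]
  | sub p q =>
    simp only [Gate.eval]
    rw [h p (by simp [Gate.args]), h q (by simp [Gate.args])]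
  | smul c p =>
    simp only [Gate.eval]
    rw [h p (by simp [Gate.args])]

theorem Gate.coef_eq_zero {α : Type} [DecidableEq α] {k : α} {g : Gate α} (hc : k ∉ g.args) :
    g.coef k = 0 := by
  cases g with
  | add p q =>
    simp only [Gate.args, List.mem_cons, List.not_mem_nil, or_false, not_or] at hc
    simp [Gate.coef, Ne.symm hc.1, Ne.symm hc.2]
  | sub p q =>
    simp only [Gate.args, List.mem_cons, List.not_mem_nil, or_false, not_or] at hc
    simp [Gate.coef, Ne.symm hc.1, Ne.symm hc.2]
  | smul c p =>
    simp only [Gate.args, List.mem_cons, List.not_mem_nil, or_false] at hc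
    simp [Gate.coef, Ne.symm hc]

theorem Circuit.cell_congr (C : Circuit ι κ) {f f' : C.G → ι → ℂ} (g : C.G)
    (h : ∀ g', C.depth g' < C.depth g → f g' = f' g') :
    (C.gate g).eval (C.cell f) = (C.gate g).eval (C.cell f') := by
  refine Gate.eval_congr fun k hk => ?_
  rcases k with (_ | k) | k
  · rfl
  · rfl
  · exact h k (C.depth_lt g k hk)

theorem Circuit.existsUnique_forms (C : Circuit ι κ) : ∃! f, C.IsForms f := by
  let F : ℕ → C.G → ι → ℂ := fun t => Nat.rec (fun _ _ => 0)
    (fun _ f g => (C.gate g).eval (C.cell f)) t
  have hF : ∀ t g, F (t + 1) g = (C.gate g).eval (C.cell (F t)) := fun t g => rfl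
  set D : ℕ := ∑ g, C.depth g with hD
  have hDg : ∀ g, C.depth g ≤ D := fun g =>
    Finset.single_le_sum (f := C.depth) (fun _ _ => Nat.zero_le _) (Finset.mem_univ g)
  have key : ∀ t, ∀ g, C.depth g ≤ t → F (t + 1) g = F t g := by
    intro t
    induction t with
    | zero =>
      intro g hg
      have := C.depth_pos g
      omega
    | succ t ih =>
      intro g hg
      rw [hF (t + 1), hF t]
      exact C.cell_congr g fun g' hg' => ih g' (by omega)
  refine ⟨F D, fun g => ?_, fun f' hf' => ?_⟩
  · rw [← hF]
    exact (key D g (hDg g)).symm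
  · have hf : C.IsForms (F D) := fun g => by
      rw [← hF]
      exact (key D g (hDg g)).symm
    have : ∀ t, ∀ g, C.depth g ≤ t → f' g = F D g := by
      intro t
      induction t with
      | zero =>
        intro g hg
        have := C.depth_pos g
        omega
      | succ t ih =>
        intro g hg
        rw [hf' g, hf g]
        exact C.cell_congr g fun g' hg' => ih g' (by omega)
    funext g
    exact this D g (hDg g)

theorem Circuit.existsUnique_sens (C : Circuit ι κ) : ∃! h, C.IsSens h := by
  obtain ⟨h, hh⟩ := C.exists_sens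
  refine ⟨h, hh, fun h' hh' => ?_⟩
  set D : ℕ := ∑ g, C.depth g with hD
  have key : ∀ t, ∀ g, D < C.depth g + t → h' g = h g := by
    intro t
    induction t with
    | zero =>
      intro g hg
      have : C.depth g ≤ D :=
        Finset.single_le_sum (f := C.depth) (fun _ _ => Nat.zero_le _) (Finset.mem_univ g)
      omega
    | succ t ih =>
      intro g hg
      rw [hh' g, hh g]
      funext j
      simp only [Circuit.sensAt]
      congr 1
      refine Finset.sum_congr rfl fun g' _ => ?_
      by_cases hc : (Sum.inr g : Option ι ⊕ C.G) ∈ (C.gate g').args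
      · rw [ih g' (by have := C.depth_lt g' g hc; omega)]
      · rw [Gate.coef_eq_zero hc, zero_mul, zero_mul]
  funext g
  exact key (D + 1) g (by omega)

end Vale.Agent.P344
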