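import Vale.Agent.P344.H952.CMain
import Vale.Agent.P344.H952.CClass
import Vale.Agent.P344.H952.CUniq

/-!
# Conditioning and Q1
-/

set_option linter.unusedSectionVars false

namespace Vale.Agent.P344

open Filter

variable {Λ : Set ℂ}

theorem Cc.conditioned {n s d : ℕ} {K : ℝ} (H : Cc Λ K (Real.sqrt n) (DM n) s d) :
    ∃ s' ≤ s, Conditioned Λ d K n s' := by
  obtain ⟨_, _, C, f, h, hf, hh, hout, hcard, hdep, hcoef, hcond⟩ := H
  exact ⟨_, hcard, C, f, h, ⟨hf, hh, hout⟩, rfl, hdep, hcoef, hcond⟩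

theorem Conditioned.mono {Λ' : Set ℂ} {D D' : ℕ} {K K' : ℝ} {n s : ℕ}
    (H : Conditioned Λ D K n s) (hΛ : Λ ⊆ Λ') (hD : D ≤ D') (hK : K ≤ K') :
    Conditioned Λ' D' K' n s := by
  obtain ⟨C, f, h, hr, hcard, hdep, hcoef, hcond⟩ := H
  exact ⟨C, f, h, hr, hcard, fun g => (hdep g).trans hD, fun g z p hg => hΛ (hcoef g z p hg),
    fun g => (hcond g).trans (mul_le_mul_of_nonneg_right hK (Real.sqrt_nonneg _))⟩

theorem Conditioned.L_le {D : ℕ} {K : ℝ} {n s : ℕ} (H : Conditioned Λ D K n s) : L n ≤ s := by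
  obtain ⟨C, f, h, hr, hcard, hdep, _, _⟩ := H
  have hb := C.blk (Λ := Set.univ) hr.forms (fun _ _ _ _ => Set.mem_univ _) hdep
  obtain ⟨s', hs', hc⟩ := hb.computes (D := ⊤) le_top
  rw [← hcard]
  refine le_trans (Vale.Agent.P344.L_le (Λ := Set.univ) (D := ⊤) ?_) hs'
  have e : (fun j => form (C.cell f (C.out j))) = dft n := by
    funext j
    have : C.cell f (C.out j) = DM n j := funext fun k => hr.out j k
    rw [this]
    exact (DM_form n j).symm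
  rw [← e]
  exact hc

theorem isLeast_L {n : ℕ} (hn : 1 ≤ n) :
    IsLeast {s | ∃ D K, Conditioned Set.univ D K n s} (L n) := by
  constructor
  · obtain ⟨c, _, hcc⟩ := cc_of_computes (by omega) (L_spec n)
    obtain ⟨s', hs', h⟩ := hcc.conditioned
    have : L n = s' := le_antisymm h.L_le hs'
    rw [this]
    exact ⟨_, _, h⟩
  · rintro s ⟨D, K, h⟩
    exact h.L_le

/-- Upper bound with bounded condition numbers. -/
theorem cupper' {δ : ℝ} (hδ : 0 < δ) :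
    ∃ Λ₀ : Set ℂ, Λ₀.Finite ∧ (∀ z ∈ Λ₀, IsAlgebraic ℚ z) ∧ ∃ K : ℝ,
    ∀ᶠ n : ℕ in atTop, ∃ s : ℕ,
      Conditioned (algBall 1 ∪ Λ₀) ⌊K * Real.logb 2 n⌋₊ K n s ∧
      (s : ℝ) ≤ (4 * gam + δ) * (n * Real.logb 2 n) := by
  obtain ⟨Λ₀, hf, halg, K, h⟩ := cupper hδ
  refine ⟨Λ₀, hf, halg, K, ?_⟩
  filter_upwards [h] with n hn
  obtain ⟨s, hs, hb⟩ := hn
  obtain ⟨s', hs', h'⟩ := hs.conditioned
  exact ⟨s', h', le_trans (by exact_mod_cast hs') hb⟩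

/-- Upper bound for powers of two. -/
theorem cupper_two' {δ : ℝ} (hδ : 0 < δ) :
    ∃ Λ₀ : Set ℂ, Λ₀.Finite ∧ (∀ z ∈ Λ₀, IsAlgebraic ℚ z) ∧ ∃ K : ℝ,
    ∀ᶠ k : ℕ in atTop, ∃ s : ℕ,
      Conditioned (rootsU ∪ Λ₀) ⌊K * k⌋₊ K (2 ^ k) s ∧
      (s : ℝ) ≤ (4 * gam + δ) * (2 ^ k * k) := by
  obtain ⟨Λ₀, hf, halg, K, h⟩ := cupper_two hδ
  refine ⟨Λ₀, hf, halg, K, ?_⟩
  filter_upwards [h] with n hn
  obtain ⟨s, hs, hb⟩ := hn
  obtain ⟨s', hs', h'⟩ := hs.conditioned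
  exact ⟨s', h', le_trans (by exact_mod_cast hs') hb⟩

/-- One bound for modulus, depth and condition numbers. -/
theorem cupper_ball {δ : ℝ} (hδ : 0 < δ) :
    ∃ K : ℝ, ∀ᶠ n : ℕ in atTop, ∃ s : ℕ,
      Conditioned (algBall K) ⌊K * Real.logb 2 n⌋₊ K n s ∧
      (s : ℝ) ≤ (4 * gam + δ) * (n * Real.logb 2 n) := by
  obtain ⟨Λ₀, hf, halg, K, h⟩ := cupper' hδ
  obtain ⟨C₁, hC₁⟩ := hf.isBounded.exists_norm_le
  refine ⟨max (max 1 C₁) K, ?_⟩
  filter_upwards [h, eventually_ge_atTop 2] with n hn hn2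
  obtain ⟨s, hs, hb⟩ := hn
  have h1 := logb_pos_of_two_le hn2
  refine ⟨s, hs.mono ?_ (Nat.floor_le_floor
    (mul_le_mul_of_nonneg_right (le_max_right _ _) (by linarith))) (le_max_right _ _), hb⟩
  rintro c (hc | hc)
  · exact ⟨hc.1.trans ((le_max_left _ _).trans (le_max_left _ _)), hc.2⟩
  · exact ⟨(hC₁ c hc).trans ((le_max_right _ _).trans (le_max_left _ _)), halg c hc⟩

theorem gam_pos_of_cfrequently {c : ℝ} (hc : 0 < c)
    (h : ∀ K : ℝ, ∃ᶠ n : ℕ in atTop, ∀ s : ℕ,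
      Conditioned (algBall K) ⌊K * Real.logb 2 n⌋₊ K n s → c * (n * Real.logb 2 n) ≤ s) :
    0 < gam := by
  by_contra hcon
  have h0 : gam = 0 := le_antisymm (not_lt.1 hcon) gam_nonneg
  obtain ⟨K, hK⟩ := cupper_ball (show 0 < c / 2 by linarith)
  obtain ⟨n, hn, ⟨s, hs, hb⟩, hn2⟩ :=
    ((h K).and_eventually (hK.and (eventually_ge_atTop 2))).exists
  have h1 := hn s hs
  rw [h0] at hb
  have h2 := logb_pos_of_two_le hn2
  have hn0 : (0 : ℝ) < n := by exact_mod_cast (by omega : 0 < n)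
  have h3 : 0 < (n : ℝ) * Real.logb 2 n := by positivity
  nlinarith

/-- The equivalences. -/
theorem ctfae : List.TFAE [
    ∃ c : ℝ, 0 < c ∧ ∀ᶠ n : ℕ in atTop, c * (n * Real.logb 2 n) ≤ L n,
    ∃ c : ℝ, 0 < c ∧ ∀ K : ℝ, ∀ᶠ n : ℕ in atTop, ∀ s : ℕ,
      Conditioned (algBall K) ⌊K * Real.logb 2 n⌋₊ K n s → c * (n * Real.logb 2 n) ≤ s,
    ∃ c : ℝ, 0 < c ∧ ∀ K : ℝ, ∃ᶠ n : ℕ in atTop, ∀ s : ℕ,
      Conditioned (algBall K) ⌊K * Real.logb 2 n⌋₊ K n s → c * (n * Real.logb 2 n) ≤ s,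
    ∃ K : ℕ → ℝ, Tendsto K atTop atTop ∧ ∃ c : ℝ, 0 < c ∧ ∃ᶠ n : ℕ in atTop, ∀ s : ℕ,
      Conditioned (algBall (K n)) ⌊K n * Real.logb 2 n⌋₊ (K n) n s →
        c * (n * Real.logb 2 n) ≤ s,
    ∃ c : ℝ, 0 < c ∧ ∀ (Λ₀ : Set ℂ) (K : ℝ), Λ₀.Finite → (∀ z ∈ Λ₀, IsAlgebraic ℚ z) →
      ∃ᶠ k : ℕ in atTop, ∀ s : ℕ,
        Conditioned (rootsU ∪ Λ₀) ⌊K * k⌋₊ K (2 ^ k) s → c * (2 ^ k * k) ≤ s] := by
  tfae_have 1 → 2 := fun ⟨c, hc, h⟩ => ⟨c, hc, fun K =>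
    h.mono fun n hn s hs => hn.trans (by exact_mod_cast hs.L_le)⟩
  tfae_have 2 → 3 := fun ⟨c, hc, h⟩ => ⟨c, hc, fun K => (h K).frequently⟩
  tfae_have 3 → 1 := fun ⟨c, hc, h⟩ =>
    absorb (gam_pos_of_cfrequently hc h) fun n hn => lower_one hn
  tfae_have 1 → 4 := fun ⟨c, hc, h⟩ => ⟨fun n => n, tendsto_natCast_atTop_atTop, c, hc,
    (h.mono fun n hn s hs => hn.trans (by exact_mod_cast hs.L_le)).frequently⟩
  tfae_have 4 → 3 := by
    rintro ⟨K, hK, c, hc, h⟩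
    refine ⟨c, hc, fun K' => ?_⟩
    refine (h.and_eventually ((hK.eventually_ge_atTop K').and (eventually_ge_atTop 2))).mono ?_
    rintro n ⟨hn, hKn, hn2⟩ s hs
    have h2 := logb_pos_of_two_le hn2
    exact hn s (hs.mono (fun z hz => ⟨hz.1.trans hKn, hz.2⟩)
      (Nat.floor_le_floor (mul_le_mul_of_nonneg_right hKn (by linarith))) hKn)
  tfae_have 1 → 5 := by
    rintro ⟨c, hc, h⟩
    refine ⟨c, hc, fun Λ₀ K _ _ => Eventually.frequently ?_⟩
    have ht : Tendsto (fun k : ℕ => 2 ^ k) atTop atTop :=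
      tendsto_pow_atTop_atTop_of_one_lt (by omega)
    filter_upwards [ht.eventually h] with k hk s hs
    have hl : Real.logb 2 ((2 ^ k : ℕ) : ℝ) = k := by
      push_cast
      rw [Real.logb_pow, Real.logb_self_eq_one (by norm_num), mul_one]
    rw [hl] at hk
    push_cast at hk
    exact hk.trans (by exact_mod_cast hs.L_le)
  tfae_have 5 → 1 := by
    rintro ⟨c, hc, h⟩
    have hpos : 0 < gam := by
      by_contra hcon
      have h0 : gam = 0 := le_antisymm (not_lt.1 hcon) gam_nonneg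
      obtain ⟨Λ₀, hf, halg, K, hC⟩ := cupper_two' (show 0 < c / 2 by linarith)
      obtain ⟨k, hk, ⟨s, hs, hb⟩, hk1⟩ :=
        ((h Λ₀ K hf halg).and_eventually (hC.and (eventually_ge_atTop 1))).exists
      have h1 := hk s hs
      rw [h0] at hb
      have hk0 : (0 : ℝ) < k := by exact_mod_cast (by omega : 0 < k)
      have h3 : 0 < (2 : ℝ) ^ k * k := by positivity
      nlinarith
    exact absorb hpos fun n hn => lower_one hn
  tfae_finish

/-- The conditioning theorem with a bound on the losses. -/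
theorem conditioning_bound {n : ℕ} {A : Matrix (Fin n) (Fin n) ℂ}
    (hA : A * A.conjTranspose = (n : ℂ) • 1) (hflat : ∀ j k, ‖A j k‖ = 1)
    {C : Circuit (Fin n) (Fin n)} {f h : C.G → Fin n → ℂ} (hr : Realizes C f h A)
    (B : Finset C.G) :
    ((n : ℝ) - B.card) * Real.logb 2 n ≤
      10 * ∑ g ∈ Finset.univ \ B, C.loss f h g / Real.sqrt n :=
  kmain C hr.forms hr.sens hA hflat (fun j => funext fun k => hr.out j k) B

theorem conditioning_count {n : ℕ} (hn : 1 ≤ n) {A : Matrix (Fin n) (Fin n) ℂ}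
    (hA : A * A.conjTranspose = (n : ℂ) • 1) (hflat : ∀ j k, ‖A j k‖ = 1)
    {C : Circuit (Fin n) (Fin n)} {f h : C.G → Fin n → ℂ} (hr : Realizes C f h A)
    (B : Finset C.G) (K : ℝ) (hK : ∀ g, g ∉ B → C.loss f h g ≤ K * Real.sqrt n) :
    ((n : ℝ) - B.card) * Real.logb 2 n ≤ 10 * K * (Fintype.card C.G - B.card : ℝ) := by
  refine (conditioning_bound hA hflat hr B).trans ?_
  rw [mul_assoc]
  refine mul_le_mul_of_nonneg_left ?_ (by norm_num)
  have hs : 0 < Real.sqrt n := Real.sqrt_pos.2 (by exact_mod_cast hn)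
  calc ∑ g ∈ Finset.univ \ B, C.loss f h g / Real.sqrt n
      ≤ ∑ g ∈ Finset.univ \ B, K := by
        refine Finset.sum_le_sum fun g hg => ?_
        rw [Finset.mem_sdiff] at hg
        rw [div_le_iff₀ hs]
        exact hK g hg.2
    _ = K * (Fintype.card C.G - B.card : ℝ) := by
        rw [Finset.sum_const, nsmul_eq_mul, Finset.card_sdiff, Finset.inter_univ,
          Finset.card_univ, Nat.cast_sub (Finset.card_le_univ B)]
        ring

theorem Conditioned.lower {D : ℕ} {K : ℝ} {n s : ℕ} (hn : 1 ≤ n)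
    (H : Conditioned Λ D K n s) : n * Real.logb 2 n ≤ 10 * K * s := by
  obtain ⟨C, f, h, hr, hcard, _, _, hcond⟩ := H
  have h1 := conditioning_count hn (dftMat_mul n) (norm_dftMat n) hr ∅ K
    (fun g _ => (loss_le_cond C hr.forms g).trans (hcond g))
  rw [hcard] at h1
  simpa using h1

end Vale.Agent.P344
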