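import Vale.Agent.P344.H952.CDefs

/-!
# Calculus of circuits with condition numbers
-/

set_option linter.unusedSectionVars false

namespace Vale.Agent.P344

open Finset

section Gate

variable {α β : Type}

/-- The linear functional of a gate. -/
def Gate.lin (y : α → ℂ) : Gate α → ℂ
  | .add p q => y p + y q
  | .sub p q => y p - y q
  | .smul c p => c * y p

/-- Renaming of cells. -/
def Gate.map (φ : α → β) : Gate α → Gate β
  | .add p q => .add (φ p) (φ q)
  | .sub p q => .sub (φ p) (φ q)
  | .smul c p => .smul c (φ p)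

theorem Gate.lin_map (φ : α → β) (y : β → ℂ) (g : Gate α) :
    (g.map φ).lin y = g.lin fun c => y (φ c) := by
  cases g <;> rfl

theorem Gate.eval_apply {ι : Type} (x : α → ι → ℂ) (g : Gate α) (i : ι) :
    g.eval x i = g.lin fun c => x c i := by
  cases g <;> rfl

theorem Gate.eval_map {ι : Type} (φ : α → β) (x : β → ι → ℂ) (g : Gate α) :
    (g.map φ).eval x = g.eval fun c => x (φ c) := by
  cases g <;> rfl

theorem Gate.size_map {ι : Type} [Fintype ι] (φ : α → β) (x : β → ι → ℂ) (g : Gate α) :
    (g.map φ).size x = g.size fun c => x (φ c) := by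
  cases g <;> rfl

theorem Gate.args_map (φ : α → β) (g : Gate α) : (g.map φ).args = g.args.map φ := by
  cases g <;> rfl

theorem Gate.map_eq_smul {φ : α → β} {g : Gate α} {c : ℂ} {p : β} (h : g.map φ = .smul c p) :
    ∃ q, g = .smul c q := by
  cases g with
  | add p q => simp [Gate.map] at h
  | sub p q => simp [Gate.map] at h
  | smul c' q =>
    simp only [Gate.map, Gate.smul.injEq] at h
    exact ⟨q, by rw [h.1]⟩

theorem Gate.coef_eq_lin [DecidableEq α] (k : α) (g : Gate α) :
    g.coef k = g.lin fun c => if c = k then 1 else 0 := by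
  cases g <;> simp [Gate.coef, Gate.lin]

theorem Gate.lin_add (y z : α → ℂ) (g : Gate α) :
    g.lin (fun c => y c + z c) = g.lin y + g.lin z := by
  cases g <;> simp only [Gate.lin] <;> ring

theorem Gate.lin_mul (a : ℂ) (y : α → ℂ) (g : Gate α) :
    g.lin (fun c => a * y c) = a * g.lin y := by
  cases g <;> simp only [Gate.lin] <;> ring

theorem Gate.lin_zero (g : Gate α) : g.lin (fun _ => 0) = 0 := by
  cases g <;> simp [Gate.lin]

theorem Gate.lin_sum {J : Type*} (s : Finset J) (y : J → α → ℂ) (g : Gate α) :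
    g.lin (fun c => ∑ j ∈ s, y j c) = ∑ j ∈ s, g.lin (y j) := by
  classical
  induction s using Finset.induction_on with
  | empty => simp only [Finset.sum_empty]; exact g.lin_zero
  | insert a s ha ih =>
    simp only [Finset.sum_insert ha]
    rw [Gate.lin_add, ih]

theorem Gate.lin_eq_sum [Fintype α] [DecidableEq α] (y : α → ℂ) (g : Gate α) :
    g.lin y = ∑ k, y k * g.coef k := by
  have h : y = fun c => ∑ k, y k * (if c = k then 1 else 0) := by
    funext c
    simp
  conv_lhs => rw [h]
  rw [Gate.lin_sum]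
  refine Finset.sum_congr rfl fun k _ => ?_
  rw [Gate.lin_mul, Gate.coef_eq_lin]

end Gate

section Norm

variable {α β : Type} [Fintype α] [Fintype β]

theorem nrm_nn (v : α → ℂ) : 0 ≤ nrm v := Real.sqrt_nonneg _

theorem nrm_sq (v : α → ℂ) : nrm v ^ 2 = ∑ i, ‖v i‖ ^ 2 :=
  Real.sq_sqrt (Finset.sum_nonneg fun _ _ => by positivity)

theorem nrm_le_of_sq_le {v : α → ℂ} {a : ℝ} (ha : 0 ≤ a) (h : ∑ i, ‖v i‖ ^ 2 ≤ a ^ 2) :
    nrm v ≤ a := by
  unfold nrm
  rw [Real.sqrt_le_left ha]
  exact h

theorem nrm_zero : nrm (0 : α → ℂ) = 0 := by simp [nrm]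

/-- Bound for the operator norm. -/
def Op (a : ℝ) (A : Matrix β α ℂ) : Prop := ∀ v : α → ℂ, nrm (A.mulVec v) ≤ a * nrm v

theorem Op.comp {γ : Type} [Fintype γ] {a b : ℝ} {A : Matrix β α ℂ} {B : Matrix γ β ℂ}
    (hb : 0 ≤ b) (hA : Op a A) (hB : Op b B) : Op (b * a) (B * A) := by
  intro v
  rw [← Matrix.mulVec_mulVec]
  calc nrm (B.mulVec (A.mulVec v)) ≤ b * nrm (A.mulVec v) := hB _
    _ ≤ b * (a * nrm v) := mul_le_mul_of_nonneg_left (hA v) hb
    _ = b * a * nrm v := by ring

end Norm

section Basic

variable {ι κ : Type} [Fintype ι] [DecidableEq ι] [Fintype κ]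

/-- The duality between forms and sensitivities. -/
theorem Circuit.duality (C : Circuit ι κ) {f : C.G → ι → ℂ} {h : C.G → κ → ℂ}
    (hf : C.IsForms f) (hh : C.IsSens h) (i : ι) (j : κ) :
    C.sensAt h (.inl (some i)) j = C.cell f (C.out j) i := by
  have key : ∑ k, C.cell f k i * C.sensAt h k j =
      C.cell f (C.out j) i + ∑ g, f g i * h g j := by
    simp only [Circuit.sensAt, mul_add, Finset.sum_add_distrib, Finset.mul_sum]
    congr 1
    · simp
    · rw [Finset.sum_comm]
      refine Finset.sum_congr rfl fun g _ => ?_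
      have h1 : f g i = ∑ k, C.cell f k i * (C.gate g).coef k := by
        conv_lhs => rw [hf g, Gate.eval_apply, Gate.lin_eq_sum]
      rw [h1, Finset.sum_mul]
      refine Finset.sum_congr rfl fun k _ => ?_
      ring
  rw [Fintype.sum_sum_type, Fintype.sum_option] at key
  have e1 : ∀ i' : ι, C.cell f (.inl (some i')) i * C.sensAt h (.inl (some i')) j =
      if i' = i then C.sensAt h (.inl (some i')) j else 0 := by
    intro i'
    simp only [Circuit.cell, Pi.single_apply]
    by_cases hi : i' = i
    · subst hi; simp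
    · rw [if_neg (fun h => hi h.symm), if_neg hi, zero_mul]
  have e2 : C.cell f (.inl none) i = 0 := rfl
  have e3 : ∀ g : C.G, C.cell f (.inr g) i * C.sensAt h (.inr g) j = f g i * h g j := by
    intro g
    rw [← hh g]
    rfl
  simp only [e1, e2, e3, zero_mul, zero_add, Finset.sum_ite_eq', Finset.mem_univ, if_true] at key
  exact add_right_cancel key

/-- Sensitivities exist. -/
theorem Circuit.exists_sens (C : Circuit ι κ) : ∃ h, C.IsSens h := by
  classical
  let H : ℕ → C.G → κ → ℂ := fun t => Nat.rec (fun _ _ => 0)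
    (fun _ h g => C.sensAt h (.inr g)) t
  have hH : ∀ t, H (t + 1) = fun g => C.sensAt (H t) (.inr g) := fun t => rfl
  set D : ℕ := ∑ g, C.depth g with hD
  have hDg : ∀ g, C.depth g ≤ D := fun g =>
    Finset.single_le_sum (f := C.depth) (fun _ _ => Nat.zero_le _) (Finset.mem_univ g)
  have key : ∀ t, ∀ g, D < C.depth g + t → H (t + 1) g = H t g := by
    intro t
    induction t with
    | zero =>
      intro g hg
      have := hDg g
      omega
    | succ t ih =>
      intro g hg
      funext j
      have e1 : H (t + 1 + 1) g j = (if C.out j = .inr g then 1 else 0) +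
          ∑ g', (C.gate g').coef (.inr g) * H (t + 1) g' j := rfl
      have e2 : H (t + 1) g j = (if C.out j = .inr g then 1 else 0) +
          ∑ g', (C.gate g').coef (.inr g) * H t g' j := rfl
      rw [e1, e2]
      congr 1
      refine Finset.sum_congr rfl fun g' _ => ?_
      by_cases hc : (Sum.inr g : Option ι ⊕ C.G) ∈ (C.gate g').args
      · have h1 := C.depth_lt g' g hc
        rw [ih g' (by omega)]
      · have h3 : (C.gate g').coef (.inr g) = 0 := by
          revert hc
          cases C.gate g' with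
          | add p q =>
            intro hc
            simp only [Gate.args, List.mem_cons, List.not_mem_nil, or_false, not_or] at hc
            simp [Gate.coef, Ne.symm hc.1, Ne.symm hc.2]
          | sub p q =>
            intro hc
            simp only [Gate.args, List.mem_cons, List.not_mem_nil, or_false, not_or] at hc
            simp [Gate.coef, Ne.symm hc.1, Ne.symm hc.2]
          | smul c p =>
            intro hc
            simp only [Gate.args, List.mem_cons, List.not_mem_nil, or_false] at hc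
            simp [Gate.coef, Ne.symm hc]
        rw [h3, zero_mul, zero_mul]
  refine ⟨H (D + 1), fun g => ?_⟩
  have h1 := key (D + 1) g (by omega)
  rw [hH (D + 1)] at h1
  exact h1.symm

end Basic

section Cc

variable {ι κ μ : Type} [Fintype ι] [DecidableEq ι] [Fintype κ] [DecidableEq κ] [Fintype μ]
  [DecidableEq μ]

/-- Some circuit computes `A` with at most `s` gates, depth at most `d`, scalars in `Λ`; its
condition numbers are at most `c a`, where `a` bounds the norm of `A`. -/
def Cc (Λ : Set ℂ) (c a : ℝ) (A : Matrix κ ι ℂ) (s d : ℕ) : Prop :=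
  Op a A ∧ Op a A.transpose ∧
  ∃ (C : Circuit ι κ) (f : C.G → ι → ℂ) (h : C.G → κ → ℂ), C.IsForms f ∧ C.IsSens h ∧
    (∀ j i, C.cell f (C.out j) i = A j i) ∧ Fintype.card C.G ≤ s ∧ (∀ g, C.depth g ≤ d) ∧
    (∀ g z p, C.gate g = .smul z p → z ∈ Λ) ∧ ∀ g, C.cond f h g ≤ c * a

theorem Cc.mono {Λ Λ' : Set ℂ} {c c' a a' : ℝ} {A : Matrix κ ι ℂ} {s s' d d' : ℕ}
    (H : Cc Λ c a A s d) (hΛ : Λ ⊆ Λ') (hc : c ≤ c') (ha : a ≤ a') (hc0 : 0 ≤ c') (ha0 : 0 ≤ a)
    (hs : s ≤ s') (hd : d ≤ d') : Cc Λ' c' a' A s' d' := by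
  obtain ⟨h1, h2, C, f, h, hf, hh, hA, hcard, hdep, hcoef, hcond⟩ := H
  refine ⟨fun v => (h1 v).trans (mul_le_mul_of_nonneg_right ha (nrm_nn _)),
    fun v => (h2 v).trans (mul_le_mul_of_nonneg_right ha (nrm_nn _)),
    C, f, h, hf, hh, hA, hcard.trans hs, fun g => (hdep g).trans hd,
    fun g z p hg => hΛ (hcoef g z p hg), fun g => (hcond g).trans ?_⟩
  exact mul_le_mul hc ha ha0 hc0

theorem Gate.size_le {α : Type} {g : Gate α} {x : α → ι → ℂ} {y : α → κ → ℂ} {a : ℝ}
    (h : ∀ p, nrm (y p) ≤ a * nrm (x p)) : g.size y ≤ a * g.size x := by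
  cases g with
  | add p q => simp only [Gate.size]; linarith [h p, h q]
  | sub p q => simp only [Gate.size]; linarith [h p, h q]
  | smul c p => simp [Gate.size]

theorem Gate.size_nonneg {α : Type} (g : Gate α) (x : α → ι → ℂ) : 0 ≤ g.size x := by
  cases g with
  | add p q => exact add_nonneg (nrm_nn _) (nrm_nn _)
  | sub p q => exact add_nonneg (nrm_nn _) (nrm_nn _)
  | smul c p => exact le_rfl

/-- Composition. -/
theorem Cc.comp {Λ : Set ℂ} {c a b : ℝ} {A : Matrix κ ι ℂ} {B : Matrix μ κ ℂ}
    {s₁ s₂ d₁ d₂ : ℕ} (ha : 0 ≤ a) (hb : 0 ≤ b)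
    (H₁ : Cc Λ c a A s₁ d₁) (H₂ : Cc Λ c b B s₂ d₂) :
    Cc Λ c (b * a) (B * A) (s₁ + s₂) (d₁ + d₂) := by
  obtain ⟨hA, hA', C₁, f₁, h₁, hf₁, hh₁, hout₁, hcard₁, hdep₁, hcoef₁, hcond₁⟩ := H₁
  obtain ⟨hB, hB', C₂, f₂, h₂, hf₂, hh₂, hout₂, hcard₂, hdep₂, hcoef₂, hcond₂⟩ := H₂
  have hdual₂ := C₂.duality hf₂ hh₂
  refine ⟨hA.comp hb hB, ?_, ?_⟩
  · rw [Matrix.transpose_mul, mul_comm b a]
    exact hB'.comp ha hA'
  let φ₁ : Option ι ⊕ C₁.G → Option ι ⊕ (C₁.G ⊕ C₂.G) :=
    Sum.elim Sum.inl fun g => Sum.inr (Sum.inl g)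
  let φ₂ : Option κ ⊕ C₂.G → Option ι ⊕ (C₁.G ⊕ C₂.G) :=
    Sum.elim (fun o => o.elim (Sum.inl none) fun j => φ₁ (C₁.out j)) fun g => Sum.inr (Sum.inr g)
  let gt : C₁.G ⊕ C₂.G → Gate (Option ι ⊕ (C₁.G ⊕ C₂.G)) :=
    Sum.elim (fun g => (C₁.gate g).map φ₁) fun g => (C₂.gate g).map φ₂
  let dp : C₁.G ⊕ C₂.G → ℕ := Sum.elim C₁.depth fun g => d₁ + C₂.depth g
  let C : Circuit ι μ :=
    { G := C₁.G ⊕ C₂.G
      fin := inferInstance
      dec := inferInstance
      gate := gt
      depth := dp
      depth_pos := by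
        rintro (g | g)
        · exact C₁.depth_pos g
        · exact Nat.add_pos_right _ (C₂.depth_pos g)
      depth_lt := by
        rintro (g | g) g' hg'
        · simp only [gt, Sum.elim_inl, Gate.args_map, List.mem_map] at hg'
          obtain ⟨p, hp, hpg⟩ := hg'
          rcases p with p | p
          · simp [φ₁] at hpg
          · simp only [φ₁, Sum.elim_inr, Sum.inr.injEq] at hpg
            subst hpg
            exact C₁.depth_lt g p hp
        · simp only [gt, Sum.elim_inr, Gate.args_map, List.mem_map] at hg'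
          obtain ⟨p, hp, hpg⟩ := hg'
          have hpos := C₂.depth_pos g
          rcases p with (_ | p) | p
          · simp [φ₂] at hpg
          · simp only [φ₂, Sum.elim_inl, Option.elim] at hpg
            rcases hq : C₁.out p with q | q
            · rw [hq] at hpg
              simp [φ₁] at hpg
            · rw [hq] at hpg
              simp only [φ₁, Sum.elim_inr, Sum.inr.injEq] at hpg
              subst hpg
              have := hdep₁ q
              simp only [dp, Sum.elim_inl, Sum.elim_inr]
              omega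
          · simp only [φ₂, Sum.elim_inr, Sum.inr.injEq] at hpg
            subst hpg
            have := C₂.depth_lt g p hp
            simp only [dp, Sum.elim_inr]
            omega
      out := fun l => φ₂ (C₂.out l) }
  let f : C.G → ι → ℂ := Sum.elim f₁ fun g i => ∑ j, f₂ g j * A j i
  let h : C.G → μ → ℂ := Sum.elim (fun g l => ∑ j, B l j * h₁ g j) h₂
  have cell₁ : ∀ p, C.cell f (φ₁ p) = C₁.cell f₁ p := by
    rintro ((_ | p) | p) <;> rfl
  have cell₂ : ∀ p, C.cell f (φ₂ p) = fun i => ∑ j, C₂.cell f₂ p j * A j i := by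
    rintro ((_ | p) | p)
    · funext i
      simp [φ₂, Circuit.cell]
    · have e : φ₂ (.inl (some p)) = φ₁ (C₁.out p) := rfl
      rw [e, cell₁]
      funext i
      rw [hout₁]
      simp [Circuit.cell, Pi.single_apply]
    · rfl
  refine ⟨C, f, h, ?_, ?_, ?_, ?_, ?_, ?_, ?_⟩
  · -- forms
    rintro (g | g)
    · change f₁ g = ((C₁.gate g).map φ₁).eval (C.cell f)
      rw [Gate.eval_map, hf₁ g]
      simp only [cell₁]
    · change (fun i => ∑ j, f₂ g j * A j i) = ((C₂.gate g).map φ₂).eval (C.cell f)
      rw [Gate.eval_map]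
      funext i
      rw [Gate.eval_apply]
      simp only [cell₂]
      rw [Gate.lin_sum]
      refine Finset.sum_congr rfl fun j _ => ?_
      have : (fun c => C₂.cell f₂ c j * A j i) = fun c => A j i * C₂.cell f₂ c j := by
        funext c; ring
      rw [this, Gate.lin_mul, hf₂ g, Gate.eval_apply]
      ring
  · -- sensitivities
    rintro (g | g)
    · funext l
      change ∑ j, B l j * h₁ g j = (if φ₂ (C₂.out l) = Sum.inr (Sum.inl g) then (1 : ℂ) else 0) +
        ∑ g' : C₁.G ⊕ C₂.G, (gt g').coef (Sum.inr (Sum.inl g)) * h g' l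
      have hφ₂ : ∀ p, (if φ₂ p = Sum.inr (Sum.inl g) then (1 : ℂ) else 0) =
          ∑ j, (if C₁.out j = Sum.inr g then (1 : ℂ) else 0) *
            (if p = Sum.inl (some j) then 1 else 0) := by
        rintro ((_ | p) | p)
        · simp [φ₂]
        · have e : φ₂ (.inl (some p)) = φ₁ (C₁.out p) := rfl
          rw [e]
          have e2 : (φ₁ (C₁.out p) = Sum.inr (Sum.inl g)) ↔ C₁.out p = Sum.inr g := by
            rcases C₁.out p with q | q <;> simp [φ₁]
          simp [e2]
        · simp [φ₂]
      rw [Fintype.sum_sum_type]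
      have s1 : ∀ g' : C₁.G, (gt (Sum.inl g')).coef (Sum.inr (Sum.inl g)) =
          (C₁.gate g').coef (Sum.inr g) := by
        intro g'
        change ((C₁.gate g').map φ₁).coef _ = _
        rw [Gate.coef_eq_lin, Gate.lin_map, Gate.coef_eq_lin]
        congr 1
        funext p
        rcases p with p | p <;> simp [φ₁]
      have s2 : ∀ g' : C₂.G, (gt (Sum.inr g')).coef (Sum.inr (Sum.inl g)) =
          ∑ j, (if C₁.out j = Sum.inr g then (1 : ℂ) else 0) *
            (C₂.gate g').coef (Sum.inl (some j)) := by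
        intro g'
        change ((C₂.gate g').map φ₂).coef _ = _
        rw [Gate.coef_eq_lin, Gate.lin_map]
        simp only [hφ₂]
        rw [Gate.lin_sum]
        refine Finset.sum_congr rfl fun j _ => ?_
        rw [Gate.lin_mul, Gate.coef_eq_lin]
      simp only [s1, s2, hφ₂]
      have s3 : ∀ j, B l j = (if C₂.out l = Sum.inl (some j) then (1 : ℂ) else 0) +
          ∑ g', (C₂.gate g').coef (Sum.inl (some j)) * h₂ g' l := by
        intro j
        rw [← hout₂, ← hdual₂]
        rfl
      have s4 : ∀ j, h₁ g j = (if C₁.out j = Sum.inr g then (1 : ℂ) else 0) +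
          ∑ g', (C₁.gate g').coef (Sum.inr g) * h₁ g' j := by
        intro j
        exact congrFun (hh₁ g) j
      calc ∑ j, B l j * h₁ g j
          = ∑ j, (B l j * (if C₁.out j = Sum.inr g then (1 : ℂ) else 0) +
              B l j * ∑ g', (C₁.gate g').coef (Sum.inr g) * h₁ g' j) := by
            refine Finset.sum_congr rfl fun j _ => ?_
            rw [s4 j, mul_add]
        _ = ∑ j, B l j * (if C₁.out j = Sum.inr g then (1 : ℂ) else 0) +
              ∑ g', (C₁.gate g').coef (Sum.inr g) * ∑ j, B l j * h₁ g' j := by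
            rw [Finset.sum_add_distrib]
            congr 1
            simp only [Finset.mul_sum]
            rw [Finset.sum_comm]
            refine Finset.sum_congr rfl fun g' _ => Finset.sum_congr rfl fun j _ => ?_
            ring
        _ = ∑ j, (if C₁.out j = Sum.inr g then (1 : ℂ) else 0) *
                (if C₂.out l = Sum.inl (some j) then (1 : ℂ) else 0) +
              (∑ g', (C₁.gate g').coef (Sum.inr g) * ∑ j, B l j * h₁ g' j +
              ∑ g', (∑ j, (if C₁.out j = Sum.inr g then (1 : ℂ) else 0) *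
                (C₂.gate g').coef (Sum.inl (some j))) * h₂ g' l) := by
            have : ∑ j, B l j * (if C₁.out j = Sum.inr g then (1 : ℂ) else 0) =
                ∑ j, (if C₁.out j = Sum.inr g then (1 : ℂ) else 0) *
                (if C₂.out l = Sum.inl (some j) then (1 : ℂ) else 0) +
                ∑ g', (∑ j, (if C₁.out j = Sum.inr g then (1 : ℂ) else 0) *
                (C₂.gate g').coef (Sum.inl (some j))) * h₂ g' l := by
              simp only [Finset.sum_mul]
              rw [Finset.sum_comm (s := (Finset.univ : Finset C₂.G)), ← Finset.sum_add_distrib]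
              refine Finset.sum_congr rfl fun j _ => ?_
              rw [s3 j, add_mul, Finset.sum_mul]
              congr 1
              · ring
              · refine Finset.sum_congr rfl fun g' _ => ?_
                ring
            rw [this]
            ring
        _ = _ := rfl
    · funext l
      change h₂ g l = (if φ₂ (C₂.out l) = Sum.inr (Sum.inr g) then (1 : ℂ) else 0) +
        ∑ g' : C₁.G ⊕ C₂.G, (gt g').coef (Sum.inr (Sum.inr g)) * h g' l
      have hφ₂ : ∀ p, (φ₂ p = Sum.inr (Sum.inr g)) ↔ p = Sum.inr g := by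
        rintro ((_ | p) | p)
        · simp [φ₂]
        · have e : φ₂ (.inl (some p)) = φ₁ (C₁.out p) := rfl
          rw [e]
          rcases C₁.out p with q | q <;> simp [φ₁]
        · simp [φ₂]
      rw [Fintype.sum_sum_type]
      have s1 : ∀ g' : C₁.G, (gt (Sum.inl g')).coef (Sum.inr (Sum.inr g)) = 0 := by
        intro g'
        change ((C₁.gate g').map φ₁).coef _ = _
        rw [Gate.coef_eq_lin, Gate.lin_map]
        have : (fun c => if φ₁ c = Sum.inr (Sum.inr g) then (1 : ℂ) else 0) = fun _ => 0 := by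
          funext p
          rcases p with p | p <;> simp [φ₁]
        rw [this, Gate.lin_zero]
      have s2 : ∀ g' : C₂.G, (gt (Sum.inr g')).coef (Sum.inr (Sum.inr g)) =
          (C₂.gate g').coef (Sum.inr g) := by
        intro g'
        change ((C₂.gate g').map φ₂).coef _ = _
        rw [Gate.coef_eq_lin, Gate.lin_map, Gate.coef_eq_lin]
        simp only [hφ₂]
      simp only [s1, s2, hφ₂, zero_mul, Finset.sum_const_zero, zero_add]
      exact congrFun (hh₂ g) l
  · intro l i
    change C.cell f (φ₂ (C₂.out l)) i = _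
    rw [cell₂, Matrix.mul_apply]
    refine Finset.sum_congr rfl fun j _ => ?_
    rw [hout₂]
  · change Fintype.card (C₁.G ⊕ C₂.G) ≤ _
    rw [Fintype.card_sum]
    exact Nat.add_le_add hcard₁ hcard₂
  · rintro (g | g)
    · exact (hdep₁ g).trans (Nat.le_add_right _ _)
    · exact Nat.add_le_add_left (hdep₂ g) _
  · rintro (g | g) z p hg
    · obtain ⟨q, hq⟩ := Gate.map_eq_smul (g := C₁.gate g) (φ := φ₁) hg
      exact hcoef₁ g z q hq
    · obtain ⟨q, hq⟩ := Gate.map_eq_smul (g := C₂.gate g) (φ := φ₂) hg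
      exact hcoef₂ g z q hq
  · rintro (g | g)
    · change nrm (fun l => ∑ j, B l j * h₁ g j) * ((C₁.gate g).map φ₁).size (C.cell f) ≤ _
      rw [Gate.size_map]
      simp only [cell₁]
      have h1 : nrm (fun l => ∑ j, B l j * h₁ g j) ≤ b * nrm (h₁ g) := hB (h₁ g)
      calc nrm (fun l => ∑ j, B l j * h₁ g j) * (C₁.gate g).size (C₁.cell f₁)
          ≤ b * nrm (h₁ g) * (C₁.gate g).size (C₁.cell f₁) :=
            mul_le_mul_of_nonneg_right h1 (Gate.size_nonneg _ _)
        _ = b * C₁.cond f₁ h₁ g := by unfold Circuit.cond; ring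
        _ ≤ b * (c * a) := mul_le_mul_of_nonneg_left (hcond₁ g) hb
        _ = c * (b * a) := by ring
    · change nrm (h₂ g) * ((C₂.gate g).map φ₂).size (C.cell f) ≤ _
      rw [Gate.size_map]
      have h1 : (C₂.gate g).size (fun p => C.cell f (φ₂ p)) ≤
          a * (C₂.gate g).size (C₂.cell f₂) := by
        refine Gate.size_le fun p => ?_
        rw [cell₂]
        have h2 := hA' (C₂.cell f₂ p)
        refine le_trans (le_of_eq ?_) h2
        congr 1
        funext i
        simp only [Matrix.mulVec, dotProduct, Matrix.transpose_apply]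
        refine Finset.sum_congr rfl fun j _ => ?_
        ring
      calc nrm (h₂ g) * (C₂.gate g).size (fun p => C.cell f (φ₂ p))
          ≤ nrm (h₂ g) * (a * (C₂.gate g).size (C₂.cell f₂)) :=
            mul_le_mul_of_nonneg_left h1 (nrm_nn _)
        _ = a * C₂.cond f₂ h₂ g := by unfold Circuit.cond; ring
        _ ≤ a * (c * b) := mul_le_mul_of_nonneg_left (hcond₂ g) ha
        _ = c * (b * a) := by ring

end Cc

end Vale.Agent.P344
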