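import Vale.Agent.P344.H952.CAsymp
import Vale.Agent.P344.H880.KDft

/-!
# Conditioning: final form of the reduction
-/

set_option linter.unusedSectionVars false

namespace Vale.Agent.P344

open Filter

variable {Λ : Set ℂ} {c a : ℝ} {s d : ℕ}

/-- Along the numbers `r m^a`, `r` bounded. -/
theorem ctransfer_tower {m : ℕ} (hm : 2 ≤ m) (R : ℕ) {δ : ℝ} (hδ : 0 < δ) :
    ∃ Λ₀ : Set ℂ, Λ₀.Finite ∧ (∀ c ∈ Λ₀, IsAlgebraic ℚ c) ∧ ∃ K : ℝ, 0 ≤ K ∧ ∃ a₀ : ℕ,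
    ∀ a r : ℕ, a₀ ≤ a → 0 < r → r ≤ R → ∃ s : ℕ,
      Cc (rootsU ∪ Λ₀) K (Real.sqrt (r * m ^ a : ℕ)) (DM (r * m ^ a)) s ⌊K * a⌋₊ ∧
      (s : ℝ) ≤ (rate1 m + δ) * ((r * m ^ a : ℕ) * (a * Real.logb 2 m)) := by
  obtain ⟨Λ₀, hf, halg, c₀, hc₀, hbase⟩ := base_circuit hm
  obtain ⟨c₁, hc₁, hsmall⟩ := small_transforms (Λ := rootsU ∪ Λ₀) Set.subset_union_left R
  set c : ℝ := max c₀ c₁ with hcdef
  have hc : 0 ≤ c := hc₀.trans (le_max_left _ _)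
  set S : ℕ := L m with hS
  set ρ : ℝ := rate1 m with hρ
  have hlm := logb_pos_of_two_le hm
  have hm0 : (0 : ℝ) < m := by exact_mod_cast (by omega : 0 < m)
  obtain ⟨a₀, ha₀⟩ := exists_nat_ge ((2 * R) / δ)
  have hS0 : (0 : ℝ) ≤ S := Nat.cast_nonneg _
  have hR0 : (0 : ℝ) ≤ R := Nat.cast_nonneg _
  have hK0 : 0 ≤ 2 * (R : ℝ) * R + (S + 1) + c := by positivity
  refine ⟨Λ₀, hf, halg, 2 * R * R + (S + 1) + c, hK0, max 1 a₀, ?_⟩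
  intro a r ha hr hrR
  have ha1 : 1 ≤ a := (le_max_left _ _).trans ha
  have ha2 : a₀ ≤ a := (le_max_right _ _).trans ha
  obtain ⟨cst, hcst, hcb⟩ := Cc.tower (Λ := rootsU ∪ Λ₀) (c := c) hm Set.subset_union_left hc
    (hbase.mono Set.subset_union_right (le_max_left _ _) le_rfl hc (Real.sqrt_nonneg _)
      le_rfl le_rfl) hr
    ((hsmall r hr hrR).mono Set.Subset.rfl (le_max_right _ _) le_rfl hc (Real.sqrt_nonneg _)
      le_rfl le_rfl) a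
  have hrr : (r : ℝ) ≤ R := by exact_mod_cast hrR
  have ha1r : (1 : ℝ) ≤ a := by exact_mod_cast ha1
  have hr0 : (0 : ℝ) ≤ r := Nat.cast_nonneg _
  have hdepth : 2 * r * r + a * (S + 1) ≤ ⌊(2 * (R : ℝ) * R + (S + 1) + c) * a⌋₊ := by
    apply Nat.le_floor
    push_cast
    have h1 : (r : ℝ) * r ≤ R * R := mul_le_mul hrr hrr hr0 hR0
    have h2 : (R : ℝ) * R * 1 ≤ R * R * a := mul_le_mul_of_nonneg_left ha1r (by positivity)
    have h3 : 0 ≤ c * a := by positivity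
    nlinarith
  refine ⟨cst, hcst.mono Set.Subset.rfl ?_ le_rfl hK0 (Real.sqrt_nonneg _) le_rfl hdepth, ?_⟩
  · have : 0 ≤ 2 * (R : ℝ) * R + (S + 1) := by positivity
    linarith
  have hA : (S : ℝ) / m + 1 = ρ * Real.logb 2 m := rate1_mul hm
  rw [hA] at hcb
  push_cast
  have haδ : 2 * (R : ℝ) ≤ δ * a := by
    have : (2 * (R : ℝ)) / δ ≤ a := ha₀.trans (by exact_mod_cast ha2)
    rw [div_le_iff₀ hδ] at this
    linarith
  set P : ℝ := r * (m : ℝ) ^ a with hPdef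
  have hP0 : 0 ≤ P := by positivity
  have e2 : 2 * (R : ℝ) ≤ δ * (a * Real.logb 2 m) := by
    calc 2 * (R : ℝ) ≤ δ * a := haδ
      _ ≤ δ * (a * Real.logb 2 m) := by
        have : (a : ℝ) ≤ a * Real.logb 2 m := by nlinarith
        exact mul_le_mul_of_nonneg_left this hδ.le
  calc (cst : ℝ) ≤ P * (2 * r + a * (ρ * Real.logb 2 m)) := hcb
    _ ≤ P * (δ * (a * Real.logb 2 m) + a * (ρ * Real.logb 2 m)) :=
        mul_le_mul_of_nonneg_left (by linarith) hP0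
    _ = (ρ + δ) * (P * (a * Real.logb 2 m)) := by ring

/-- Along powers of two. -/
theorem ctransfer_two {k₀ : ℕ} (hk₀ : 1 ≤ k₀) {δ : ℝ} (hδ : 0 < δ) :
    ∃ Λ₀ : Set ℂ, Λ₀.Finite ∧ (∀ c ∈ Λ₀, IsAlgebraic ℚ c) ∧ ∃ K : ℝ,
    ∀ᶠ k : ℕ in atTop, ∃ s : ℕ,
      Cc (rootsU ∪ Λ₀) K (Real.sqrt (2 ^ k : ℕ)) (DM (2 ^ k)) s ⌊K * k⌋₊ ∧
      (s : ℝ) ≤ (rate1 (2 ^ k₀) + δ) * (2 ^ k * k) := by
  have hm : 2 ≤ 2 ^ k₀ := by
    calc 2 = 2 ^ 1 := (pow_one 2).symm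
      _ ≤ 2 ^ k₀ := Nat.pow_le_pow_right (by omega) hk₀
  obtain ⟨Λ₀, hf, halg, K, hK, a₀, h⟩ := ctransfer_tower hm (2 ^ k₀) hδ
  refine ⟨Λ₀, hf, halg, K, ?_⟩
  filter_upwards [eventually_ge_atTop (k₀ * a₀)] with k hk
  have hk0 : 0 < k₀ := hk₀
  have ha : a₀ ≤ k / k₀ := (Nat.le_div_iff_mul_le hk0).2 (by rw [mul_comm]; exact hk)
  have hmod : k % k₀ < k₀ := Nat.mod_lt _ hk0
  obtain ⟨s, hs, hb⟩ := h (k / k₀) (2 ^ (k % k₀)) ha (by positivity)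
    (Nat.pow_le_pow_right (by omega) hmod.le)
  have e1 : 2 ^ (k % k₀) * (2 ^ k₀) ^ (k / k₀) = 2 ^ k := by
    rw [← pow_mul, ← pow_add, Nat.mod_add_div]
  rw [e1] at hs hb
  have hdiv : k / k₀ ≤ k := Nat.div_le_self _ _
  have hdivr : ((k / k₀ : ℕ) : ℝ) ≤ k := by exact_mod_cast hdiv
  refine ⟨s, hs.mono Set.Subset.rfl le_rfl le_rfl hK (Real.sqrt_nonneg _) le_rfl ?_,
    hb.trans ?_⟩
  · exact Nat.floor_le_floor (mul_le_mul_of_nonneg_left hdivr hK)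
  · have hl : Real.logb 2 ((2 ^ k₀ : ℕ) : ℝ) = k₀ := by
      push_cast
      rw [Real.logb_pow, Real.logb_self_eq_one (by norm_num), mul_one]
    rw [hl]
    push_cast
    have h1 : ((k / k₀ : ℕ) : ℝ) * k₀ ≤ k := by exact_mod_cast Nat.div_mul_le_self k k₀
    have h2 : 0 ≤ rate1 (2 ^ k₀) + δ := by
      have := rate1_nonneg hm
      linarith
    refine mul_le_mul_of_nonneg_left ?_ h2
    refine mul_le_mul_of_nonneg_left h1 (by positivity)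

/-- Some order with an almost optimal rate. -/
theorem exists_rate1_lt {ε : ℝ} (hε : 0 < ε) : ∃ m : ℕ, 2 ≤ m ∧ rate1 m < gam + ε := by
  obtain ⟨_, _, _, _, h⟩ := upper_frequently (show 0 < ε / 4 by linarith)
  obtain ⟨m, ⟨s, hs, hb⟩, hm2, hlog⟩ :=
    (h.and_eventually ((eventually_ge_atTop 2).and (eventually_logb_ge (4 / ε)))).exists
  refine ⟨m, hm2, ?_⟩
  have h1 := logb_pos_of_two_le hm2
  have hm0 : (0 : ℝ) < m := by exact_mod_cast (by omega : 0 < m)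
  have h2 : (L m : ℝ) ≤ s := by exact_mod_cast L_le hs
  rw [div_le_iff₀ hε] at hlog
  have h3 : 0 < (m : ℝ) * Real.logb 2 m := by positivity
  unfold rate1
  rw [div_lt_iff₀ h3]
  have h4 : (m : ℝ) * 4 ≤ m * (Real.logb 2 m * ε) := mul_le_mul_of_nonneg_left hlog hm0.le
  have h5 : 0 < ε * (m * Real.logb 2 m) := by positivity
  nlinarith

/-- Upper bound with bounded condition numbers. -/
theorem cupper {δ : ℝ} (hδ : 0 < δ) :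
    ∃ Λ₀ : Set ℂ, Λ₀.Finite ∧ (∀ z ∈ Λ₀, IsAlgebraic ℚ z) ∧ ∃ K : ℝ,
    ∀ᶠ n : ℕ in atTop, ∃ s : ℕ,
      Cc (algBall 1 ∪ Λ₀) K (Real.sqrt n) (DM n) s ⌊K * Real.logb 2 n⌋₊ ∧
      (s : ℝ) ≤ (4 * gam + δ) * (n * Real.logb 2 n) := by
  obtain ⟨m, hm, hr⟩ := exists_rate1_lt (show 0 < δ / 8 by linarith)
  obtain ⟨Λ₀, hf, halg, K, h⟩ := ctransfer hm (show 0 < δ / 2 by linarith)
  refine ⟨Λ₀, hf, halg, K, ?_⟩
  filter_upwards [h, eventually_ge_atTop 2] with n hn hn2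
  obtain ⟨s, hs, hb⟩ := hn
  refine ⟨s, hs, hb.trans ?_⟩
  have h1 := logb_pos_of_two_le hn2
  have hn0 : (0 : ℝ) < n := by exact_mod_cast (by omega : 0 < n)
  refine mul_le_mul_of_nonneg_right (by linarith) (by positivity)

/-- Upper bound for powers of two. -/
theorem cupper_two {δ : ℝ} (hδ : 0 < δ) :
    ∃ Λ₀ : Set ℂ, Λ₀.Finite ∧ (∀ c ∈ Λ₀, IsAlgebraic ℚ c) ∧ ∃ K : ℝ,
    ∀ᶠ k : ℕ in atTop, ∃ s : ℕ,
      Cc (rootsU ∪ Λ₀) K (Real.sqrt (2 ^ k : ℕ)) (DM (2 ^ k)) s ⌊K * k⌋₊ ∧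
      (s : ℝ) ≤ (4 * gam + δ) * (2 ^ k * k) := by
  obtain ⟨Λ₁, _, _, K₁, h₁⟩ := upper (show 0 < δ / 4 by linarith)
  have ht : Tendsto (fun k : ℕ => 2 ^ k) atTop atTop :=
    tendsto_pow_atTop_atTop_of_one_lt (by omega)
  obtain ⟨B, hB⟩ := exists_nat_ge (4 / δ)
  obtain ⟨k₀, ⟨s, hs, hb⟩, hk1, hkB⟩ :=
    ((ht.eventually h₁).and ((eventually_ge_atTop 1).and (eventually_ge_atTop B))).exists
  have hk₀ : (1 : ℝ) ≤ k₀ := by exact_mod_cast hk1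
  have hk₀' : 4 / δ ≤ k₀ := hB.trans (by exact_mod_cast hkB)
  rw [div_le_iff₀ hδ] at hk₀'
  have hl : Real.logb 2 ((2 ^ k₀ : ℕ) : ℝ) = k₀ := by
    push_cast
    rw [Real.logb_pow, Real.logb_self_eq_one (by norm_num), mul_one]
  have hrate : rate1 (2 ^ k₀) ≤ 4 * gam + δ / 2 := by
    unfold rate1
    rw [hl, div_le_iff₀ (by positivity)]
    have h2 : (L (2 ^ k₀) : ℝ) ≤ s := by exact_mod_cast L_le hs
    rw [hl] at hb
    have hP : (0 : ℝ) < ((2 ^ k₀ : ℕ) : ℝ) := by positivity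
    set P : ℝ := ((2 ^ k₀ : ℕ) : ℝ) with hPdef
    have h3 : P ≤ δ / 4 * (P * k₀) := by nlinarith
    calc (L (2 ^ k₀) : ℝ) + P ≤ (4 * gam + δ / 4) * (P * k₀) + δ / 4 * (P * k₀) := by
          linarith
      _ = (4 * gam + δ / 2) * (P * k₀) := by ring
  obtain ⟨Λ₀, hf, halg, K, h⟩ := ctransfer_two hk1 (show 0 < δ / 2 by linarith)
  refine ⟨Λ₀, hf, halg, K, ?_⟩
  filter_upwards [h] with k hk
  obtain ⟨s', hs', hb'⟩ := hk
  refine ⟨s', hs', hb'.trans ?_⟩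
  refine mul_le_mul_of_nonneg_right (by linarith) (by positivity)

end Vale.Agent.P344
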