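import Vale.Agent.P344.H952.Frame

/-!
# Cooley–Tukey, batches of transforms, naive transforms
-/

namespace Vale.Agent.P344

open Set

variable {Λ Λ' : Set ℂ} {X Y : Type}

/-- `e^{2πi/n}`. -/
noncomputable def zeta (n : ℕ) : ℂ := Complex.exp (2 * Real.pi * Complex.I / n)

theorem zeta_prim {n : ℕ} (hn : n ≠ 0) : IsPrimitiveRoot (zeta n) n :=
  Complex.isPrimitiveRoot_exp n hn

theorem zeta_pow_left {p q : ℕ} (hp : p ≠ 0) (hq : q ≠ 0) : zeta (q * p) ^ q = zeta p := by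
  unfold zeta
  rw [← Complex.exp_nat_mul]
  congr 1
  have h1 : (p : ℂ) ≠ 0 := Nat.cast_ne_zero.mpr hp
  have h2 : (q : ℂ) ≠ 0 := Nat.cast_ne_zero.mpr hq
  push_cast
  field_simp

theorem zeta_pow_right {p q : ℕ} (hp : p ≠ 0) (hq : q ≠ 0) : zeta (q * p) ^ p = zeta q := by
  rw [mul_comm q p]
  exact zeta_pow_left hq hp

theorem zeta_norm (n : ℕ) : ‖zeta n‖ = 1 := by
  unfold zeta
  have : (2 * Real.pi * Complex.I / n : ℂ) = ((2 * Real.pi / n : ℝ) : ℂ) * Complex.I := by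
    push_cast; ring
  rw [this]
  exact Complex.norm_exp_ofReal_mul_I _

theorem zeta_pow_norm (n k : ℕ) : ‖zeta n ^ k‖ = 1 := by
  rw [norm_pow, zeta_norm, one_pow]

theorem zeta_pow_mem (n k : ℕ) : zeta n ^ k ∈ rootsU := by
  rcases Nat.eq_zero_or_pos n with rfl | hn
  · refine ⟨1, one_pos, ?_⟩
    have : zeta 0 = 1 := by simp [zeta]
    rw [this, one_pow, one_pow]
  · refine ⟨n, hn, ?_⟩
    rw [← pow_mul, mul_comm, pow_mul, (zeta_prim hn.ne').pow_eq_one, one_pow]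

theorem dft_def (n : ℕ) (j : Fin n) (x : Fin n → ℂ) :
    dft n j x = ∑ k : Fin n, zeta n ^ ((j : ℕ) * (k : ℕ)) * x k := rfl

/-- Transforms of a family of vectors. -/
noncomputable def dftI (I : Type) (n : ℕ) (p : I × Fin n) (x : I × Fin n → ℂ) : ℂ :=
  dft n p.2 fun k => x (p.1, k)

theorem zero_mem_inputs (ι : Type) : ((0 : ℕ), (0 : (ι → ℂ) → ℂ)) ∈ inputs ι := ⟨rfl, Or.inl rfl⟩

theorem mem_inputs {ι : Type} (k : ι) : ((0 : ℕ), (fun x : ι → ℂ => x k)) ∈ inputs ι :=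
  ⟨rfl, Or.inr ⟨k, rfl⟩⟩

/-- Change of index of a block: inputs are renamed or set to `0`. -/
theorem Blk.rename {ι κ ι' κ' : Type} {F : κ → (ι → ℂ) → ℂ} {F' : κ' → (ι' → ℂ) → ℂ} {s d : ℕ}
    (h : Blk Λ F s d) (f : ι → Option ι') (g : κ' → κ)
    (hF : ∀ j x, F' j x = F (g j) fun k => (f k).elim 0 x) : Blk Λ F' s d := by
  have h1 := h.use (S := inputs ι') (d₀ := 0) (fun k x => (f k).elim 0 x)
    (by
      rintro p rfl
      exact ⟨0, le_rfl, zero_mem_inputs _⟩)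
    (by
      rintro ⟨p1, p2⟩ ⟨hp1, k, hp2⟩
      simp only at hp1 hp2
      subst hp1 hp2
      refine ⟨0, le_rfl, ?_⟩
      cases hk : f k with
      | none => exact zero_mem_inputs _
      | some k' => exact mem_inputs k')
  refine h1.mono_right (Avail.of_subset ?_)
  rintro ⟨p1, p2⟩ ⟨hp1, j, hp2⟩
  simp only at hp1 hp2
  subst hp1 hp2
  refine ⟨rfl, g j, ?_⟩
  funext x
  exact hF j x

theorem Blk.mono {ι κ : Type} {F : κ → (ι → ℂ) → ℂ} {s d s' d' : ℕ} (h : Blk Λ F s d)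
    (hs : s ≤ s') (hd : d ≤ d') : Blk Λ F s' d' := by
  refine (Can.mono_gates hs h).mono_right ?_
  rintro ⟨p1, p2⟩ ⟨hp1, j, hp2⟩
  simp only at hp1 hp2
  subst hp1 hp2
  exact ⟨d, hd, mem_tg j⟩

theorem Blk.mono_coeff {ι κ : Type} {F : κ → (ι → ℂ) → ℂ} {s d : ℕ} (hΛ : Λ ⊆ Λ')
    (h : Blk Λ F s d) : Blk Λ' F s d := Can.mono_coeff hΛ h

/-- Batches of `N` transforms handle any number `M` of transforms. -/
theorem batch {N n s d : ℕ} (hN : 0 < N) (h : Blk Λ (dftI (Fin N) n) s d) (M : ℕ) :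
    Blk Λ (dftI (Fin M) n) ((M / N + 1) * s) d := by
  have key : ∀ a : Fin (M / N + 1), Can Λ (inputs (Fin M × Fin n)) s
      (tg d fun (p : {p : Fin M × Fin n // p.1.val / N = a.val}) x => dftI (Fin M) n p.1 x) := by
    intro a
    have h1 := h.use (S := inputs (Fin M × Fin n)) (d₀ := 0)
      (fun k x => if hk : N * a.val + k.1.val < M then x (⟨N * a.val + k.1.val, hk⟩, k.2) else 0)
      (by
        rintro p rfl
        exact ⟨0, le_rfl, zero_mem_inputs _⟩)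
      (by
        rintro ⟨p1, p2⟩ ⟨hp1, k, hp2⟩
        simp only at hp1 hp2
        subst hp1 hp2
        refine ⟨0, le_rfl, ?_⟩
        by_cases hk : N * a.val + k.1.val < M
        · simp only [hk, dite_true]
          exact mem_inputs (ι := Fin M × Fin n) (⟨N * a.val + k.1.val, hk⟩, k.2)
        · simp only [hk, dite_false]
          exact zero_mem_inputs _)
    refine h1.mono_right (Avail.of_subset ?_)
    rintro ⟨p1, p2⟩ ⟨hp1, ⟨⟨i, j⟩, hij⟩, hp2⟩
    simp only at hp1 hp2 hij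
    subst hp1 hp2
    refine ⟨rfl, (⟨i.val % N, Nat.mod_lt _ hN⟩, j), ?_⟩
    funext x
    simp only [dftI]
    congr 1
    funext k
    have hval : N * a.val + i.val % N = i.val := by
      rw [← hij]; exact Nat.div_add_mod _ _
    have hlt : N * a.val + i.val % N < M := by rw [hval]; exact i.2
    rw [dif_pos hlt]
    congr 2
    exact Fin.ext hval.symm
  have h2 := Can.family s _ key
  rw [Fintype.card_fin] at h2
  refine h2.mono_right (Avail.of_subset ?_)
  rintro ⟨p1, p2⟩ ⟨hp1, ⟨i, j⟩, hp2⟩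
  simp only at hp1 hp2
  subst hp1 hp2
  have : i.val / N < M / N + 1 := Nat.lt_succ_of_le (Nat.div_le_div_right i.2.le)
  exact mem_iUnion.mpr ⟨⟨i.val / N, this⟩, rfl, ⟨(i, j), rfl⟩, rfl⟩

/-- One layer of scalar multiplications. -/
theorem scale_layer {I : Type} [Fintype I] {S : Set (ℕ × (X → ℂ))} {d₀ : ℕ} (u : I → X → ℂ)
    (c : I → ℂ) (hc : ∀ i, c i ∈ Λ) (hu : Avail S (tg d₀ u)) :
    Can Λ S (Fintype.card I) (tg (d₀ + 1) fun i => c i • u i) := by
  have key : ∀ i, Can Λ S 1 ({(d₀ + 1, c i • u i)} : Set (ℕ × (X → ℂ))) := by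
    intro i
    obtain ⟨d, hd, hV⟩ := hu (d₀, u i) (mem_tg i)
    refine ⟨1, le_rfl, _, .smul (c i) .zero hV (hc i), ?_⟩
    rintro p rfl
    exact ⟨d + 1, Nat.succ_le_succ hd, mem_insert _ _⟩
  have h2 := Can.family 1 _ key
  rw [mul_one] at h2
  refine h2.mono_right (Avail.of_subset ?_)
  rintro ⟨p1, p2⟩ ⟨hp1, i, hp2⟩
  simp only at hp1 hp2
  subst hp1 hp2
  exact mem_iUnion.mpr ⟨i, rfl⟩

theorem zeta_split {p q : ℕ} (hp : p ≠ 0) (hq : q ≠ 0) (j k1 k2 : ℕ) :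
    zeta (q * p) ^ (j * (k1 + p * k2)) =
      zeta p ^ (j / q * k1) * (zeta (q * p) ^ (j % q * k1) * zeta q ^ (j % q * k2)) := by
  have h1 : zeta (q * p) ^ (q * p) = 1 := (zeta_prim (Nat.mul_ne_zero hq hp)).pow_eq_one
  conv_lhs => rw [← Nat.div_add_mod j q]
  have h2 : (q * (j / q) + j % q) * (k1 + p * k2) =
      q * (j / q * k1) + j % q * k1 + p * (j % q * k2) + (q * p) * (j / q * k2) := by ring
  rw [h2, pow_add, pow_add, pow_add, pow_mul _ (q * p), h1, one_pow, mul_one,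
    pow_mul _ q, zeta_pow_left hp hq, pow_mul _ p, zeta_pow_right hp hq]
  ring

theorem dft_split {p q : ℕ} (hp : p ≠ 0) (hq : q ≠ 0) (j : Fin (q * p)) (x : Fin (q * p) → ℂ) :
    dft (q * p) j x = dft p ⟨j.val / q, Nat.div_lt_of_lt_mul j.2⟩ fun k1 =>
      zeta (q * p) ^ (j.val % q * k1.val) *
        dft q ⟨j.val % q, Nat.mod_lt _ (Nat.pos_of_ne_zero hq)⟩ fun k2 =>
          x (finProdFinEquiv (k2, k1)) := by
  simp only [dft_def, Finset.mul_sum]
  rw [← finProdFinEquiv.sum_comp, Fintype.sum_prod_type_right]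
  refine Finset.sum_congr rfl fun k1 _ => Finset.sum_congr rfl fun k2 _ => ?_
  have : ((finProdFinEquiv (k2, k1) : Fin (q * p)) : ℕ) = k1.val + p * k2.val := rfl
  rw [this, zeta_split hp hq]
  ring

/-- Cooley–Tukey for a family of vectors. -/
theorem cooley_tukey {I : Type} [Fintype I] {p q s1 s2 d1 d2 : ℕ} (hp : p ≠ 0) (hq : q ≠ 0)
    (hΛ : rootsU ⊆ Λ)
    (h1 : Blk Λ (dftI (I × Fin p) q) s1 d1) (h2 : Blk Λ (dftI (I × Fin q) p) s2 d2) :
    Blk Λ (dftI I (q * p)) (s1 + Fintype.card I * (q * p) + s2) (d2 + (d1 + 1)) := by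
  -- first layer
  set X := I × Fin (q * p) → ℂ with hX
  let g1 : (I × Fin p) × Fin q → X → ℂ := fun a x => x (a.1.1, finProdFinEquiv (a.2, a.1.2))
  have c1 := h1.use (S := inputs (I × Fin (q * p))) (d₀ := 0) g1
    (by
      rintro p rfl
      exact ⟨0, le_rfl, zero_mem_inputs _⟩)
    (by
      rintro ⟨p1, p2⟩ ⟨hp1, k, hp2⟩
      simp only at hp1 hp2
      subst hp1 hp2
      exact ⟨0, le_rfl, mem_inputs _⟩)
  rw [Nat.add_zero] at c1
  -- twiddle factors
  have c2 := scale_layer (Λ := Λ)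
    (S := inputs (I × Fin (q * p)) ∪
      tg d1 fun (j : (I × Fin p) × Fin q) (x : X) => dftI (I × Fin p) q j fun k => g1 k x)
    (d₀ := d1) (fun (j : (I × Fin p) × Fin q) (x : X) => dftI (I × Fin p) q j fun k => g1 k x)
    (fun j => zeta (q * p) ^ (j.2.val * j.1.2.val)) (fun j => hΛ (zeta_pow_mem _ _))
    (Avail.of_subset subset_union_right)
  have c12 := c1.trans c2
  -- second layer
  let g2 : (I × Fin q) × Fin p → X → ℂ := fun a =>
    (fun j : (I × Fin p) × Fin q => zeta (q * p) ^ (j.2.val * j.1.2.val) •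
      fun x : X => dftI (I × Fin p) q j fun k => g1 k x) ((a.1.1, a.2), a.1.2)
  have c3 := h2.use (S := inputs (I × Fin (q * p)) ∪
      ((tg d1 fun (j : (I × Fin p) × Fin q) (x : X) => dftI (I × Fin p) q j fun k => g1 k x) ∪
      (tg (d1 + 1) fun j : (I × Fin p) × Fin q => zeta (q * p) ^ (j.2.val * j.1.2.val) •
      fun x : X => dftI (I × Fin p) q j fun k => g1 k x))) (d₀ := d1 + 1) g2
    (by
      rintro p rfl
      exact ⟨0, Nat.zero_le _, Or.inl (zero_mem_inputs _)⟩)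
    (by
      rintro ⟨p1, p2⟩ ⟨hp1, k, hp2⟩
      simp only at hp1 hp2
      subst hp1 hp2
      exact ⟨d1 + 1, le_rfl, Or.inr (Or.inr (mem_tg ((k.1.1, k.2), k.1.2)))⟩)
  have c := c12.trans' c3
  have hcard : Fintype.card ((I × Fin p) × Fin q) = Fintype.card I * (q * p) := by
    simp only [Fintype.card_prod, Fintype.card_fin]; ring
  rw [hcard] at c
  refine c.mono_right (Avail.of_subset ?_)
  rintro ⟨p1, p2⟩ ⟨hp1, ⟨i, j⟩, hp2⟩
  simp only at hp1 hp2
  subst hp1 hp2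
  refine ⟨rfl, ((i, ⟨j.val % q, Nat.mod_lt _ (Nat.pos_of_ne_zero hq)⟩),
    ⟨j.val / q, Nat.div_lt_of_lt_mul j.2⟩), ?_⟩
  funext x
  simp only [dftI, g2, g1, Pi.smul_apply, smul_eq_mul]
  rw [dft_split hp hq]

/-- A linear combination of available values. -/
theorem can_sum {I : Type*} {S : Set (ℕ × (X → ℂ))} {d₀ : ℕ} (A : Finset I)
    (u : I → X → ℂ) (c : I → ℂ) (hc : ∀ i, c i ∈ Λ) (h0 : Avail S {(d₀, (0 : X → ℂ))})
    (hu : Avail S (tg d₀ u)) :
    Can Λ S (2 * A.card) {(d₀ + 1 + A.card, ∑ i ∈ A, c i • u i)} := by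
  classical
  induction A using Finset.induction_on with
  | empty =>
    refine Can.of_avail ?_ _
    rintro p rfl
    obtain ⟨d, hd, hV⟩ := h0 _ rfl
    exact ⟨d, by simp only [Finset.card_empty]; omega, by simpa using hV⟩
  | insert a A ha ih =>
    rw [Finset.card_insert_of_notMem ha, Finset.sum_insert ha]
    obtain ⟨d, hd, hV⟩ := hu (d₀, u a) (mem_tg a)
    have h1 : Can Λ S 1 ({(d₀ + 1, c a • u a)} : Set (ℕ × (X → ℂ))) := by
      refine ⟨1, le_rfl, _, .smul (c a) .zero hV (hc a), ?_⟩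
      rintro p rfl
      exact ⟨d + 1, Nat.succ_le_succ hd, mem_insert _ _⟩
    have h2 := ih.union h1
    have h3 : Can Λ (S ∪ ({(d₀ + 1 + A.card, ∑ i ∈ A, c i • u i)} ∪ {(d₀ + 1, c a • u a)})) 1
        ({(d₀ + 1 + (A.card + 1), c a • u a + ∑ i ∈ A, c i • u i)} : Set (ℕ × (X → ℂ))) := by
      refine ⟨1, le_rfl, _, .add (d := d₀ + 1) (e := d₀ + 1 + A.card) .zero
        (Or.inr (Or.inr rfl)) (Or.inr (Or.inl rfl)), ?_⟩
      rintro p rfl
      refine ⟨_, ?_, mem_insert _ _⟩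
      simp only
      omega
    exact (h2.trans' h3).mono_gates (by omega)

/-- The naive transform. -/
theorem naive (hΛ : rootsU ⊆ Λ) (n : ℕ) :
    Blk Λ (dft n) (2 * n * n) (n + 1) := by
  have key : ∀ j : Fin n, Can Λ (inputs (Fin n)) (2 * n)
      ({(n + 1, dft n j)} : Set (ℕ × ((Fin n → ℂ) → ℂ))) := by
    intro j
    have h := can_sum (Λ := Λ) (S := inputs (Fin n)) (d₀ := 0) (Finset.univ : Finset (Fin n))
      (fun k x => x k) (fun k => zeta n ^ ((j : ℕ) * (k : ℕ))) (fun k => hΛ (zeta_pow_mem _ _))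
      (by
        rintro p rfl
        exact ⟨0, le_rfl, zero_mem_inputs _⟩)
      (by
        rintro ⟨p1, p2⟩ ⟨hp1, k, hp2⟩
        simp only at hp1 hp2
        subst hp1 hp2
        exact ⟨0, le_rfl, mem_inputs _⟩)
    rw [Finset.card_univ, Fintype.card_fin] at h
    convert h using 2
    · congr 1
      · ring
      · funext x
        simp [dft_def, Finset.sum_apply]
  have h2 := Can.family (2 * n) _ key
  rw [Fintype.card_fin] at h2
  refine (h2.mono_right (Avail.of_subset ?_)).mono_gates (le_of_eq (by ring))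
  rintro ⟨p1, p2⟩ ⟨hp1, i, hp2⟩
  simp only at hp1 hp2
  subst hp1 hp2
  exact mem_iUnion.mpr ⟨i, rfl⟩

end Vale.Agent.P344
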