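import Vale.Agent.P344.H952.CFrame

/-!
# Wires, diagonal matrices and families
-/

set_option linter.unusedSectionVars false

namespace Vale.Agent.P344

open Finset

variable {ι κ μ J : Type} [Fintype ι] [DecidableEq ι] [Fintype κ] [DecidableEq κ] [Fintype μ]
  [DecidableEq μ] [Fintype J] [DecidableEq J] {Λ : Set ℂ} {c a : ℝ} {s d : ℕ}

/-- The matrix of a partial renaming. -/
def wireM (σ : κ → Option ι) : Matrix κ ι ℂ := fun j i => if σ j = some i then 1 else 0

theorem op_wire {σ : κ → Option ι}
    (hσ : ∀ j j' i, σ j = some i → σ j' = some i → j = j') : Op 1 (wireM σ) := by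
  intro v
  rw [one_mul]
  refine nrm_le_of_sq_le (nrm_nn _) ?_
  rw [nrm_sq]
  have h1 : ∀ j, ‖(wireM σ).mulVec v j‖ ^ 2 = ∑ i, if σ j = some i then ‖v i‖ ^ 2 else 0 := by
    intro j
    simp only [Matrix.mulVec, dotProduct, wireM, ite_mul, one_mul, zero_mul]
    cases h : σ j with
    | none => simp
    | some i => simp
  simp only [h1]
  rw [Finset.sum_comm]
  refine Finset.sum_le_sum fun i _ => ?_
  by_cases hi : ∃ j, σ j = some i
  · obtain ⟨j₀, hj₀⟩ := hi
    rw [Finset.sum_eq_single j₀]
    · rw [if_pos hj₀]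
    · intro j _ hj
      rw [if_neg]
      intro h
      exact hj (hσ j j₀ i h hj₀)
    · intro h
      exact absurd (Finset.mem_univ _) h
  · push Not at hi
    rw [Finset.sum_eq_zero fun j _ => if_neg (hi j)]
    positivity

theorem op_wire' {σ : κ → Option ι}
    (hσ : ∀ j j' i, σ j = some i → σ j' = some i → j = j') : Op 1 (wireM σ).transpose := by
  intro v
  rw [one_mul]
  refine nrm_le_of_sq_le (nrm_nn _) ?_
  rw [nrm_sq]
  have h1 : ∀ i, ‖(wireM σ).transpose.mulVec v i‖ ^ 2 ≤
      ∑ j, if σ j = some i then ‖v j‖ ^ 2 else 0 := by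
    intro i
    simp only [Matrix.mulVec, dotProduct, wireM, Matrix.transpose_apply, ite_mul, one_mul,
      zero_mul]
    by_cases hi : ∃ j, σ j = some i
    · obtain ⟨j₀, hj₀⟩ := hi
      have hne : ∀ j, j ≠ j₀ → ¬ σ j = some i := fun j hj h => hj (hσ j j₀ i h hj₀)
      rw [Finset.sum_eq_single j₀ (fun j _ hj => if_neg (hne j hj))
        (fun h => absurd (Finset.mem_univ _) h), if_pos hj₀]
      rw [Finset.sum_eq_single j₀ (fun j _ hj => if_neg (hne j hj))
        (fun h => absurd (Finset.mem_univ _) h), if_pos hj₀]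
    · push Not at hi
      rw [Finset.sum_eq_zero fun j _ => if_neg (hi j)]
      rw [Finset.sum_eq_zero fun j _ => if_neg (hi j)]
      simp
  refine (Finset.sum_le_sum fun i _ => h1 i).trans ?_
  rw [Finset.sum_comm]
  refine Finset.sum_le_sum fun j _ => ?_
  cases h : σ j with
  | none => simp
  | some i => simp

/-- Wires cost nothing. -/
theorem Cc.wire {σ : κ → Option ι}
    (hσ : ∀ j j' i, σ j = some i → σ j' = some i → j = j') : Cc Λ c 1 (wireM σ) 0 0 := by
  let C : Circuit ι κ :=
    { G := Empty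
      fin := inferInstance
      dec := inferInstance
      gate := fun g => g.elim
      depth := fun g => g.elim
      depth_pos := fun g => g.elim
      depth_lt := fun g => g.elim
      out := fun j => Sum.inl (σ j) }
  refine ⟨op_wire hσ, op_wire' hσ, C, fun g => g.elim, fun g => g.elim, fun g => g.elim,
    fun g => g.elim, ?_, ?_, fun g => g.elim, fun g => g.elim, fun g => g.elim⟩
  · intro j i
    change C.cell _ (Sum.inl (σ j)) i = _
    unfold wireM
    cases h : σ j with
    | none => simp [Circuit.cell]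
    | some i' =>
      simp only [Circuit.cell, Option.some.injEq, Pi.single_apply]
      by_cases hi : i = i'
      · subst hi; simp
      · rw [if_neg hi, if_neg (fun h => hi h.symm)]
  · simp [C]

theorem op_diag {d : ι → ℂ} (ha : 0 ≤ a) (hd : ∀ i, ‖d i‖ ≤ a) : Op a (Matrix.diagonal d) := by
  intro v
  refine nrm_le_of_sq_le (mul_nonneg ha (nrm_nn _)) ?_
  rw [mul_pow, nrm_sq, Finset.mul_sum]
  refine Finset.sum_le_sum fun i _ => ?_
  rw [Matrix.mulVec_diagonal, norm_mul, mul_pow]
  exact mul_le_mul_of_nonneg_right (pow_le_pow_left₀ (norm_nonneg _) (hd i) 2) (by positivity)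

/-- A diagonal matrix: one multiplication per input. -/
theorem Cc.diag {e : ι → ℂ} (hc : 0 ≤ c) (ha : 0 ≤ a) (he : ∀ i, ‖e i‖ ≤ a)
    (hΛ : ∀ i, e i ∈ Λ) : Cc Λ c a (Matrix.diagonal e) (Fintype.card ι) 1 := by
  refine ⟨op_diag ha he, ?_, ?_⟩
  · rw [Matrix.diagonal_transpose]
    exact op_diag ha he
  let C : Circuit ι ι :=
    { G := ι
      fin := inferInstance
      dec := inferInstance
      gate := fun i => .smul (e i) (.inl (some i))
      depth := fun _ => 1
      depth_pos := fun _ => one_pos
      depth_lt := by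
        intro g g' h
        simp [Gate.args] at h
      out := fun i => Sum.inr i }
  obtain ⟨h, hh⟩ := C.exists_sens
  refine ⟨C, fun i => e i • Pi.single i 1, h, ?_, hh, ?_, le_rfl, fun _ => le_rfl, ?_, ?_⟩
  · intro g
    rfl
  · intro j i
    change (e j • (Pi.single j (1 : ℂ) : ι → ℂ)) i = _
    simp only [Pi.smul_apply, Pi.single_apply, smul_eq_mul, Matrix.diagonal_apply]
    by_cases hi : i = j
    · subst hi; simp
    · rw [if_neg hi, if_neg (fun h => hi h.symm), mul_zero]
  · intro g z p hg
    have : e g = z := by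
      have h1 : (Gate.smul (e g) (.inl (some g)) : Gate (Option ι ⊕ ι)) = .smul z p := hg
      simp only [Gate.smul.injEq] at h1
      exact h1.1
    rw [← this]
    exact hΛ g
  · intro g
    change nrm (h g) * 0 ≤ c * a
    rw [mul_zero]
    exact mul_nonneg hc ha

/-- The matrix of a family of independent copies. -/
def famM (J : Type) [DecidableEq J] (A : Matrix κ ι ℂ) : Matrix (J × κ) (J × ι) ℂ :=
  fun p q => if q.1 = p.1 then A p.2 q.2 else 0

theorem famM_transpose (A : Matrix κ ι ℂ) : (famM J A).transpose = famM J A.transpose := by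
  ext p q
  simp only [famM, Matrix.transpose_apply]
  by_cases h : p.1 = q.1
  · rw [if_pos h, if_pos h.symm]
  · rw [if_neg h, if_neg (fun h' => h h'.symm)]

theorem famM_mulVec (A : Matrix κ ι ℂ) (v : J × ι → ℂ) (p : J × κ) :
    (famM J A).mulVec v p = A.mulVec (fun i => v (p.1, i)) p.2 := by
  simp only [Matrix.mulVec, dotProduct, famM, Fintype.sum_prod_type, ite_mul, zero_mul]
  rw [Finset.sum_comm]
  simp

theorem op_fam {A : Matrix κ ι ℂ} (ha : 0 ≤ a) (hA : Op a A) : Op a (famM J A) := by
  intro v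
  refine nrm_le_of_sq_le (mul_nonneg ha (nrm_nn _)) ?_
  rw [mul_pow, nrm_sq, Fintype.sum_prod_type, Fintype.sum_prod_type, Finset.mul_sum]
  refine Finset.sum_le_sum fun b _ => ?_
  have h1 := hA fun i => v (b, i)
  have h2 := pow_le_pow_left₀ (nrm_nn _) h1 2
  rw [mul_pow, nrm_sq, nrm_sq] at h2
  refine le_trans (le_of_eq ?_) h2
  refine Finset.sum_congr rfl fun j _ => ?_
  rw [famM_mulVec]

/-- Independent copies of a circuit. -/
theorem Cc.fam {A : Matrix κ ι ℂ} (ha : 0 ≤ a) (H : Cc Λ c a A s d) :
    Cc Λ c a (famM J A) (Fintype.card J * s) d := by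
  obtain ⟨hA, hA', C₀, f₀, h₀, hf, hh, hout, hcard, hdep, hcoef, hcond⟩ := H
  refine ⟨op_fam ha hA, ?_, ?_⟩
  · rw [famM_transpose]
    exact op_fam ha hA'
  let φ : J → Option ι ⊕ C₀.G → Option (J × ι) ⊕ (J × C₀.G) := fun b =>
    Sum.elim (fun o => o.elim (Sum.inl none) fun i => Sum.inl (some (b, i)))
      fun g => Sum.inr (b, g)
  let C : Circuit (J × ι) (J × κ) :=
    { G := J × C₀.G
      fin := inferInstance
      dec := inferInstance
      gate := fun g => (C₀.gate g.2).map (φ g.1)
      depth := fun g => C₀.depth g.2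
      depth_pos := fun g => C₀.depth_pos g.2
      depth_lt := by
        rintro ⟨b, g⟩ ⟨b', g'⟩ hg'
        simp only [Gate.args_map, List.mem_map] at hg'
        obtain ⟨p, hp, hpg⟩ := hg'
        rcases p with (_ | p) | p
        · simp [φ] at hpg
        · simp [φ] at hpg
        · simp only [φ, Sum.elim_inr, Sum.inr.injEq, Prod.mk.injEq] at hpg
          obtain ⟨_, rfl⟩ := hpg
          exact C₀.depth_lt g p hp
      out := fun p => φ p.1 (C₀.out p.2) }
  let f : C.G → J × ι → ℂ := fun g q => if q.1 = g.1 then f₀ g.2 q.2 else 0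
  let h : C.G → J × κ → ℂ := fun g q => if q.1 = g.1 then h₀ g.2 q.2 else 0
  have cell : ∀ b p, C.cell f (φ b p) = fun q => if q.1 = b then C₀.cell f₀ p q.2 else 0 := by
    rintro b ((_ | p) | p)
    · funext q
      change (0 : ℂ) = if q.1 = b then 0 else 0
      simp
    · funext q
      change (Pi.single (b, p) (1 : ℂ) : J × ι → ℂ) q =
        if q.1 = b then (Pi.single p (1 : ℂ) : ι → ℂ) q.2 else 0
      simp only [Pi.single_apply, Prod.ext_iff]
      by_cases h1 : q.1 = b <;> by_cases h2 : q.2 = p <;> simp [h1, h2]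
    · rfl
  have inj : ∀ b b' p g, φ b p = Sum.inr (b', g) ↔ b = b' ∧ p = Sum.inr g := by
    rintro b b' ((_ | p) | p) g
    · simp [φ]
    · simp [φ]
    · simp [φ]
  have nrm_f : ∀ (b : J) (v : ι → ℂ), nrm (fun q : J × ι => if q.1 = b then v q.2 else 0) =
      nrm v := by
    intro b v
    unfold nrm
    congr 1
    rw [Fintype.sum_prod_type, Finset.sum_eq_single b]
    · simp
    · intro b' _ hb'
      simp [hb']
    · intro hb
      exact absurd (Finset.mem_univ _) hb
  have nrm_h : ∀ (b : J) (v : κ → ℂ), nrm (fun q : J × κ => if q.1 = b then v q.2 else 0) =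
      nrm v := by
    intro b v
    unfold nrm
    congr 1
    rw [Fintype.sum_prod_type, Finset.sum_eq_single b]
    · simp
    · intro b' _ hb'
      simp [hb']
    · intro hb
      exact absurd (Finset.mem_univ _) hb
  refine ⟨C, f, h, ?_, ?_, ?_, ?_, fun g => hdep g.2, ?_, ?_⟩
  · rintro ⟨b, g⟩
    funext q
    change (if q.1 = b then f₀ g q.2 else 0) = ((C₀.gate g).map (φ b)).eval (C.cell f) q
    rw [Gate.eval_map, Gate.eval_apply]
    simp only [cell]
    split_ifs with hq
    · rw [hf g, Gate.eval_apply]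
    · rw [Gate.lin_zero]
  · rintro ⟨b, g⟩
    funext q
    change (if q.1 = b then h₀ g q.2 else 0) =
      (if φ q.1 (C₀.out q.2) = Sum.inr (b, g) then (1 : ℂ) else 0) +
      ∑ g' : J × C₀.G, ((C₀.gate g'.2).map (φ g'.1)).coef (Sum.inr (b, g)) *
        (if q.1 = g'.1 then h₀ g'.2 q.2 else 0)
    have hc : ∀ g' : J × C₀.G, ((C₀.gate g'.2).map (φ g'.1)).coef (Sum.inr (b, g)) =
        if g'.1 = b then (C₀.gate g'.2).coef (Sum.inr g) else 0 := by
      rintro ⟨b', g'⟩
      rw [Gate.coef_eq_lin, Gate.lin_map]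
      simp only [inj]
      by_cases hb : b' = b
      · simp [hb, Gate.coef_eq_lin]
      · simp [hb, Gate.lin_zero]
    simp only [hc, inj]
    rw [Fintype.sum_prod_type]
    by_cases hq : q.1 = b
    · simp only [hq, true_and, if_true]
      rw [Finset.sum_eq_single b]
      · simp only [if_true]
        have := congrFun (hh g) q.2
        rw [this]
        rfl
      · intro b' _ hb'
        simp [hb']
      · intro hb
        exact absurd (Finset.mem_univ _) hb
    · simp only [hq, false_and, if_false, zero_add]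
      symm
      refine Finset.sum_eq_zero fun b' _ => Finset.sum_eq_zero fun g' _ => ?_
      by_cases hb : b' = b
      · subst hb
        simp [hq]
      · simp [hb]
  · rintro ⟨b, l⟩ q
    change C.cell f (φ b (C₀.out l)) q = _
    rw [cell]
    simp only [famM, hout]
  · change Fintype.card (J × C₀.G) ≤ _
    rw [Fintype.card_prod]
    exact Nat.mul_le_mul_left _ hcard
  · rintro ⟨b, g⟩ z p hg
    obtain ⟨q, hq⟩ := Gate.map_eq_smul (g := C₀.gate g) (φ := φ b) hg
    exact hcoef g z q hq
  · rintro ⟨b, g⟩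
    change nrm (fun q : J × κ => if q.1 = b then h₀ g q.2 else 0) *
      ((C₀.gate g).map (φ b)).size (C.cell f) ≤ _
    rw [nrm_h, Gate.size_map]
    simp only [cell]
    refine le_trans (le_of_eq ?_) (hcond g)
    unfold Circuit.cond
    congr 1
    cases C₀.gate g with
    | add p q => simp only [Gate.size, nrm_f]
    | sub p q => simp only [Gate.size, nrm_f]
    | smul z p => rfl

end Vale.Agent.P344
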