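import Mathlib

/-!
# Linear circuits and the discrete Fourier transform

Definitions used by the hand-ins of `P344`.
-/

namespace Vale.Agent.P344

/-- `Steps Λ S s V`: from the set `S` of available values, `s` gates of a linear circuit whose
scalar coefficients lie in `Λ` produce the set `V` of values.  A value is a pair `(d, u)`, where
`u` is a function of the input `x : X` and `d` is its depth.  A gate computes `u + v`, `u - v` or
`c • u` from values computed before (which may be reused), and its depth is one more than the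
largest depth of its arguments. -/
inductive Steps (Λ : Set ℂ) {X : Type} (S : Set (ℕ × (X → ℂ))) :
    ℕ → Set (ℕ × (X → ℂ)) → Prop
  | zero : Steps Λ S 0 S
  | add {s : ℕ} {V : Set (ℕ × (X → ℂ))} {d e : ℕ} {u v : X → ℂ} :
      Steps Λ S s V → (d, u) ∈ V → (e, v) ∈ V →
        Steps Λ S (s + 1) (insert (max d e + 1, u + v) V)
  | sub {s : ℕ} {V : Set (ℕ × (X → ℂ))} {d e : ℕ} {u v : X → ℂ} :
      Steps Λ S s V → (d, u) ∈ V → (e, v) ∈ V →
        Steps Λ S (s + 1) (insert (max d e + 1, u - v) V)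
  | smul {s : ℕ} {V : Set (ℕ × (X → ℂ))} {d : ℕ} {u : X → ℂ} (c : ℂ) :
      Steps Λ S s V → (d, u) ∈ V → c ∈ Λ →
        Steps Λ S (s + 1) (insert (d + 1, c • u) V)

/-- The inputs `x_k` (`k : ι`) and the constant `0`, all of depth `0`. -/
def inputs (ι : Type) : Set (ℕ × ((ι → ℂ) → ℂ)) :=
  {p | p.1 = 0 ∧ (p.2 = 0 ∨ ∃ k : ι, p.2 = fun x => x k)}

/-- Some linear circuit with inputs `x_k` (`k : ι`) and `0`, with exactly `s` gates, with all
scalar coefficients in `Λ`, has every `F j` (`j : κ`) among its computed values, at depth at most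
`D`. -/
def Computes (Λ : Set ℂ) (D : ℕ∞) {ι κ : Type} (F : κ → (ι → ℂ) → ℂ) (s : ℕ) : Prop :=
  ∃ V : Set (ℕ × ((ι → ℂ) → ℂ)), Steps Λ (inputs ι) s V ∧
    ∀ j : κ, ∃ d : ℕ, (d : ℕ∞) ≤ D ∧ (d, F j) ∈ V

/-- Output `j` of the unnormalized discrete Fourier transform `F_n`:
`x ↦ ∑_k e^{2πijk/n} x_k`. -/
noncomputable def dft (n : ℕ) (j : Fin n) (x : Fin n → ℂ) : ℂ :=
  ∑ k : Fin n, Complex.exp (2 * Real.pi * Complex.I / n) ^ ((j : ℕ) * (k : ℕ)) * x k

/-- `N` transforms `F_n` of `N` independent input vectors. -/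
noncomputable def dfts (N n : ℕ) (p : Fin N × Fin n) (x : Fin N × Fin n → ℂ) : ℂ :=
  dft n p.2 fun k => x (p.1, k)

/-- `L(n)`: the least number of gates of a linear circuit for `F_n`; coefficients and depth are
unrestricted. -/
noncomputable def L (n : ℕ) : ℕ := sInf {s | Computes Set.univ ⊤ (dft n) s}

/-- The least number of gates of a linear circuit for `N` simultaneous transforms `F_n`;
coefficients and depth are unrestricted. -/
noncomputable def LMany (N n : ℕ) : ℕ := sInf {s | Computes Set.univ ⊤ (dfts N n) s}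

/-- All roots of unity. -/
def rootsU : Set ℂ := {c | ∃ t : ℕ, 0 < t ∧ c ^ t = 1}

/-- The algebraic numbers of modulus at most `C`. -/
def algBall (C : ℝ) : Set ℂ := {c | ‖c‖ ≤ C ∧ IsAlgebraic ℚ c}

end Vale.Agent.P344
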