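import Vale.Agent.P344.H952.Defs

/-!
# A calculus for building linear circuits
-/

namespace Vale.Agent.P344

open Set

variable {Λ Λ' : Set ℂ} {X Y : Type}

theorem Steps.subset {S V : Set (ℕ × (X → ℂ))} {s : ℕ} (h : Steps Λ S s V) : S ⊆ V := by
  induction h with
  | zero => exact Subset.rfl
  | add _ _ _ ih => exact ih.trans (subset_insert _ _)
  | sub _ _ _ ih => exact ih.trans (subset_insert _ _)
  | smul c _ _ _ ih => exact ih.trans (subset_insert _ _)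

theorem Steps.mono_coeff {S V : Set (ℕ × (X → ℂ))} {s : ℕ} (hΛ : Λ ⊆ Λ')
    (h : Steps Λ S s V) : Steps Λ' S s V := by
  induction h with
  | zero => exact .zero
  | add _ h1 h2 ih => exact .add ih h1 h2
  | sub _ h1 h2 ih => exact .sub ih h1 h2
  | smul c _ h1 hc ih => exact .smul c ih h1 (hΛ hc)

theorem Steps.trans {S V W : Set (ℕ × (X → ℂ))} {s t : ℕ} (h : Steps Λ S s V)
    (h' : Steps Λ V t W) : Steps Λ S (s + t) W := by
  induction h' with
  | zero => exact h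
  | add _ h1 h2 ih => exact .add ih h1 h2
  | sub _ h1 h2 ih => exact .sub ih h1 h2
  | smul c _ h1 hc ih => exact .smul c ih h1 hc

/-- `W` is available from `V`: every value of `W` occurs in `V` with at most the same depth. -/
def Avail (V W : Set (ℕ × (X → ℂ))) : Prop :=
  ∀ p ∈ W, ∃ d ≤ p.1, (d, p.2) ∈ V

theorem Avail.rfl {V : Set (ℕ × (X → ℂ))} : Avail V V := fun p hp => ⟨p.1, le_rfl, hp⟩

theorem Avail.of_subset {V W : Set (ℕ × (X → ℂ))} (h : W ⊆ V) : Avail V W :=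
  fun p hp => ⟨p.1, le_rfl, h hp⟩

theorem Avail.trans {U V W : Set (ℕ × (X → ℂ))} (h : Avail U V) (h' : Avail V W) :
    Avail U W := by
  intro p hp
  obtain ⟨d, hd, hdV⟩ := h' p hp
  obtain ⟨e, he, heU⟩ := h _ hdV
  exact ⟨e, he.trans hd, heU⟩

theorem Avail.union {V W W' : Set (ℕ × (X → ℂ))} (h : Avail V W) (h' : Avail V W') :
    Avail V (W ∪ W') := by
  rintro p (hp | hp)
  · exact h p hp
  · exact h' p hp

theorem Avail.insert {V W : Set (ℕ × (X → ℂ))} {d e : ℕ} {u : X → ℂ} (h : Avail V W)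
    (hde : d ≤ e) : Avail (insert (d, u) V) (insert (e, u) W) := by
  rintro p (rfl | hp)
  · exact ⟨d, hde, mem_insert _ _⟩
  · obtain ⟨d', hd', hV⟩ := h p hp
    exact ⟨d', hd', mem_insert_of_mem _ hV⟩

/-- If `W` is available from `V`, a circuit that starts from `W` can be run from `V`. -/
theorem Steps.simulate {V W W' : Set (ℕ × (X → ℂ))} {t : ℕ} (hVW : Avail V W)
    (h : Steps Λ W t W') : ∃ V', Steps Λ V t V' ∧ Avail V' W' := by
  induction h with
  | zero => exact ⟨V, .zero, hVW⟩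
  | add _ h1 h2 ih =>
    obtain ⟨V', hV', hA⟩ := ih
    obtain ⟨d1, hd1, m1⟩ := hA _ h1
    obtain ⟨d2, hd2, m2⟩ := hA _ h2
    refine ⟨_, .add hV' m1 m2, hA.insert ?_⟩
    exact Nat.succ_le_succ (max_le_max hd1 hd2)
  | sub _ h1 h2 ih =>
    obtain ⟨V', hV', hA⟩ := ih
    obtain ⟨d1, hd1, m1⟩ := hA _ h1
    obtain ⟨d2, hd2, m2⟩ := hA _ h2
    refine ⟨_, .sub hV' m1 m2, hA.insert ?_⟩
    exact Nat.succ_le_succ (max_le_max hd1 hd2)
  | smul c _ h1 hc ih =>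
    obtain ⟨V', hV', hA⟩ := ih
    obtain ⟨d1, hd1, m1⟩ := hA _ h1
    refine ⟨_, .smul c hV' m1 hc, hA.insert ?_⟩
    exact Nat.succ_le_succ hd1

/-- `Can Λ S s W`: at most `s` gates suffice to make `W` available from `S`. -/
def Can (Λ : Set ℂ) (S : Set (ℕ × (X → ℂ))) (s : ℕ) (W : Set (ℕ × (X → ℂ))) : Prop :=
  ∃ s' ≤ s, ∃ V, Steps Λ S s' V ∧ Avail V W

theorem Can.of_avail {S W : Set (ℕ × (X → ℂ))} (h : Avail S W) (s : ℕ) : Can Λ S s W :=
  ⟨0, Nat.zero_le _, S, .zero, h⟩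

theorem Can.mono_coeff {S W : Set (ℕ × (X → ℂ))} {s : ℕ} (hΛ : Λ ⊆ Λ') (h : Can Λ S s W) :
    Can Λ' S s W := by
  obtain ⟨s', hs', V, hV, hA⟩ := h
  exact ⟨s', hs', V, hV.mono_coeff hΛ, hA⟩

theorem Can.mono_gates {S W : Set (ℕ × (X → ℂ))} {s t : ℕ} (hst : s ≤ t) (h : Can Λ S s W) :
    Can Λ S t W := by
  obtain ⟨s', hs', V, hV, hA⟩ := h
  exact ⟨s', hs'.trans hst, V, hV, hA⟩

theorem Can.mono_right {S W W' : Set (ℕ × (X → ℂ))} {s : ℕ} (hA' : Avail W W')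
    (h : Can Λ S s W) : Can Λ S s W' := by
  obtain ⟨s', hs', V, hV, hA⟩ := h
  exact ⟨s', hs', V, hV, hA.trans hA'⟩

theorem Can.mono_left {S S' W : Set (ℕ × (X → ℂ))} {s : ℕ} (hA : Avail S' S)
    (h : Can Λ S s W) : Can Λ S' s W := by
  obtain ⟨s', hs', V, hV, hAV⟩ := h
  obtain ⟨V', hV', hA'⟩ := hV.simulate hA
  exact ⟨s', hs', V', hV', hA'.trans hAV⟩

/-- Sequential composition. -/
theorem Can.trans {S W W' : Set (ℕ × (X → ℂ))} {s t : ℕ} (h : Can Λ S s W)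
    (h' : Can Λ (S ∪ W) t W') : Can Λ S (s + t) (W ∪ W') := by
  obtain ⟨s', hs', V, hV, hA⟩ := h
  obtain ⟨t', ht', V', hV', hA'⟩ := h'
  have hAV : Avail V (S ∪ W) := (Avail.of_subset hV.subset).union hA
  obtain ⟨V'', hV'', hA''⟩ := hV'.simulate hAV
  refine ⟨s' + t', Nat.add_le_add hs' ht', V'', hV.trans hV'', ?_⟩
  exact (Avail.trans (Avail.of_subset hV''.subset) hA).union (hA''.trans hA')

theorem Can.trans' {S W W' : Set (ℕ × (X → ℂ))} {s t : ℕ} (h : Can Λ S s W)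
    (h' : Can Λ (S ∪ W) t W') : Can Λ S (s + t) W' :=
  (h.trans h').mono_right (Avail.of_subset subset_union_right)

/-- Two tasks one after the other. -/
theorem Can.union {S W W' : Set (ℕ × (X → ℂ))} {s t : ℕ} (h : Can Λ S s W)
    (h' : Can Λ S t W') : Can Λ S (s + t) (W ∪ W') :=
  h.trans (h'.mono_left (Avail.of_subset subset_union_left))

/-- A finite family of tasks. -/
theorem Can.iUnion {I : Type*} (A : Finset I) {S : Set (ℕ × (X → ℂ))} (f : I → ℕ)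
    (W : I → Set (ℕ × (X → ℂ))) (h : ∀ i ∈ A, Can Λ S (f i) (W i)) :
    Can Λ S (∑ i ∈ A, f i) (⋃ i ∈ A, W i) := by
  classical
  induction A using Finset.induction_on with
  | empty =>
    refine Can.of_avail ?_ _
    intro p hp
    simp at hp
  | insert a A ha ih =>
    rw [Finset.sum_insert ha]
    have h1 := h a (Finset.mem_insert_self _ _)
    have h2 := ih fun i hi => h i (Finset.mem_insert_of_mem hi)
    refine (h1.union h2).mono_right (Avail.of_subset ?_)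
    intro p hp
    simp only [Finset.mem_insert, mem_iUnion, exists_prop] at hp
    obtain ⟨i, hi, hp⟩ := hp
    rcases hi with rfl | hi
    · exact Or.inl hp
    · right
      simp only [mem_iUnion, exists_prop]
      exact ⟨i, hi, hp⟩

/-- A finite family of tasks with equal cost, over a fintype. -/
theorem Can.family {I : Type*} [Fintype I] {S : Set (ℕ × (X → ℂ))} (f : ℕ)
    (W : I → Set (ℕ × (X → ℂ))) (h : ∀ i, Can Λ S f (W i)) :
    Can Λ S (Fintype.card I * f) (⋃ i, W i) := by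
  have := Can.iUnion (Λ := Λ) (Finset.univ : Finset I) (fun _ => f) W (fun i _ => h i)
  simpa using this

/-- Pull back along a map of input spaces and shift all depths by `d₀`. -/
def pull (φ : X → Y) (d₀ : ℕ) (V : Set (ℕ × (Y → ℂ))) : Set (ℕ × (X → ℂ)) :=
  {p | ∃ q ∈ V, p = (q.1 + d₀, fun x => q.2 (φ x))}

theorem mem_pull {φ : X → Y} {d₀ d : ℕ} {V : Set (ℕ × (Y → ℂ))} {u : Y → ℂ} (h : (d, u) ∈ V) :
    (d + d₀, fun x => u (φ x)) ∈ pull φ d₀ V := ⟨_, h, rfl⟩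

theorem pull_insert (φ : X → Y) (d₀ d : ℕ) (V : Set (ℕ × (Y → ℂ))) (u : Y → ℂ) :
    pull φ d₀ (insert (d, u) V) = insert (d + d₀, fun x => u (φ x)) (pull φ d₀ V) := by
  ext p
  constructor
  · rintro ⟨q, rfl | hq, rfl⟩
    · exact Or.inl rfl
    · exact Or.inr ⟨q, hq, rfl⟩
  · rintro (rfl | ⟨q, hq, rfl⟩)
    · exact ⟨(d, u), Or.inl rfl, rfl⟩
    · exact ⟨q, Or.inr hq, rfl⟩

theorem Steps.pull {V W : Set (ℕ × (Y → ℂ))} {t : ℕ} (h : Steps Λ V t W) (φ : X → Y) (d₀ : ℕ) :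
    Steps Λ (pull φ d₀ V) t (pull φ d₀ W) := by
  induction h with
  | zero => exact .zero
  | @add s V' d e u v _ h1 h2 ih =>
    have := Steps.add ih (mem_pull (φ := φ) (d₀ := d₀) h1) (mem_pull (φ := φ) (d₀ := d₀) h2)
    rw [pull_insert]
    convert this using 3
    · omega
    · rfl
  | @sub s V' d e u v _ h1 h2 ih =>
    have := Steps.sub ih (mem_pull (φ := φ) (d₀ := d₀) h1) (mem_pull (φ := φ) (d₀ := d₀) h2)
    rw [pull_insert]
    convert this using 3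
    · omega
    · rfl
  | @smul s V' d u c _ h1 hc ih =>
    have := Steps.smul c ih (mem_pull (φ := φ) (d₀ := d₀) h1) hc
    rw [pull_insert]
    convert this using 3
    · omega
    · rfl

theorem Avail.pull {V W : Set (ℕ × (Y → ℂ))} (h : Avail V W) (φ : X → Y) (d₀ : ℕ) :
    Avail (pull φ d₀ V) (Vale.Agent.P344.pull φ d₀ W) := by
  rintro p ⟨q, hq, rfl⟩
  obtain ⟨d, hd, hV⟩ := h q hq
  exact ⟨d + d₀, Nat.add_le_add_right hd _, mem_pull hV⟩

theorem Can.pull {V W : Set (ℕ × (Y → ℂ))} {t : ℕ} (h : Can Λ V t W) (φ : X → Y) (d₀ : ℕ) :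
    Can Λ (pull φ d₀ V) t (Vale.Agent.P344.pull φ d₀ W) := by
  obtain ⟨s', hs', V', hV', hA⟩ := h
  exact ⟨s', hs', _, hV'.pull φ d₀, hA.pull φ d₀⟩

/-- The values `F j`, all at depth `d`. -/
def tg {κ : Type*} (d : ℕ) (F : κ → X → ℂ) : Set (ℕ × (X → ℂ)) := {p | p.1 = d ∧ ∃ j, p.2 = F j}

theorem mem_tg {κ : Type*} {d : ℕ} {F : κ → X → ℂ} (j : κ) : (d, F j) ∈ tg d F := ⟨rfl, j, rfl⟩

/-- `Blk Λ F s d`: the family `F` has circuits with at most `s` gates and depth at most `d`. -/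
def Blk (Λ : Set ℂ) {ι κ : Type} (F : κ → (ι → ℂ) → ℂ) (s d : ℕ) : Prop :=
  Can Λ (inputs ι) s (tg d F)

/-- Use of a block on available values `g k`, all of depth at most `d₀`. -/
theorem Blk.use {ι κ : Type} {F : κ → (ι → ℂ) → ℂ} {s d : ℕ} (h : Blk Λ F s d)
    {S : Set (ℕ × (X → ℂ))} {d₀ : ℕ} (g : ι → X → ℂ)
    (h0 : Avail S {(d₀, (0 : X → ℂ))}) (hg : Avail S (tg d₀ g)) :
    Can Λ S s (tg (d + d₀) fun j x => F j fun k => g k x) := by
  have h1 := Can.pull h (fun (x : X) (k : ι) => g k x) d₀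
  have hA : Avail S (Vale.Agent.P344.pull (fun (x : X) (k : ι) => g k x) d₀ (inputs ι)) := by
    rintro p ⟨⟨q1, q2⟩, ⟨hq1, hq2⟩, rfl⟩
    simp only at hq1 hq2
    subst hq1
    rcases hq2 with rfl | ⟨k, rfl⟩
    · have := h0 (d₀, (0 : X → ℂ)) rfl
      rw [Nat.zero_add]
      exact this
    · simpa using hg (d₀, g k) (mem_tg k)
  refine (h1.mono_left hA).mono_right ?_
  rintro ⟨p1, p2⟩ ⟨hp1, j, hp2⟩
  simp only at hp1 hp2
  subst hp1 hp2
  exact ⟨d + d₀, le_rfl, ⟨(d, F j), mem_tg j, rfl⟩⟩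

end Vale.Agent.P344
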