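import Vale.Agent.P344.H952.Bluestein

/-!
# Towers of transforms and their cost
-/

namespace Vale.Agent.P344

open Set

variable {Λ Λ' : Set ℂ} {X Y : Type}

theorem Steps.depth_le {S V : Set (ℕ × (X → ℂ))} {s : ℕ} (hS : ∀ p ∈ S, p.1 = 0)
    (h : Steps Λ S s V) : ∀ p ∈ V, p.1 ≤ s := by
  induction h with
  | zero => intro p hp; exact (hS p hp).le
  | add _ h1 h2 ih =>
    rintro p (rfl | hp)
    · have a := ih _ h1
      have b := ih _ h2
      simp only at a b ⊢
      omega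
    · exact (ih p hp).trans (Nat.le_succ _)
  | sub _ h1 h2 ih =>
    rintro p (rfl | hp)
    · have a := ih _ h1
      have b := ih _ h2
      simp only at a b ⊢
      omega
    · exact (ih p hp).trans (Nat.le_succ _)
  | smul c _ h1 _ ih =>
    rintro p (rfl | hp)
    · have a := ih _ h1
      simp only at a ⊢
      omega
    · exact (ih p hp).trans (Nat.le_succ _)

/-- A circuit uses finitely many coefficients. -/
theorem Steps.finite_coeff {S V : Set (ℕ × (X → ℂ))} {s : ℕ} (h : Steps Λ S s V) :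
    ∃ Λ₀ : Set ℂ, Λ₀.Finite ∧ Λ₀ ⊆ Λ ∧ Steps Λ₀ S s V := by
  induction h with
  | zero => exact ⟨∅, finite_empty, empty_subset _, .zero⟩
  | add _ h1 h2 ih =>
    obtain ⟨Λ₀, hf, hs, hst⟩ := ih
    exact ⟨Λ₀, hf, hs, .add hst h1 h2⟩
  | sub _ h1 h2 ih =>
    obtain ⟨Λ₀, hf, hs, hst⟩ := ih
    exact ⟨Λ₀, hf, hs, .sub hst h1 h2⟩
  | smul c _ h1 hc ih =>
    obtain ⟨Λ₀, hf, hs, hst⟩ := ih
    exact ⟨insert c Λ₀, hf.insert c, insert_subset hc hs,
      .smul c (hst.mono_coeff (subset_insert _ _)) h1 (mem_insert _ _)⟩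

theorem Computes.blk {ι κ : Type} {F : κ → (ι → ℂ) → ℂ} {s : ℕ} {D : ℕ∞}
    (h : Computes Λ D F s) : Blk Λ F s s := by
  obtain ⟨V, hV, hF⟩ := h
  refine ⟨s, le_rfl, V, hV, ?_⟩
  rintro ⟨p1, p2⟩ ⟨hp1, j, hp2⟩
  simp only at hp1 hp2
  subst hp1 hp2
  obtain ⟨d, _, hd⟩ := hF j
  exact ⟨d, hV.depth_le (fun p hp => hp.1) _ hd, hd⟩

theorem Blk.computes {ι κ : Type} {F : κ → (ι → ℂ) → ℂ} {s d : ℕ} (h : Blk Λ F s d) {D : ℕ∞}
    (hD : (d : ℕ∞) ≤ D) : ∃ s' ≤ s, Computes Λ D F s' := by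
  obtain ⟨s', hs', V, hV, hA⟩ := h
  refine ⟨s', hs', V, hV, fun j => ?_⟩
  obtain ⟨d', hd', hm⟩ := hA (d, F j) (mem_tg j)
  exact ⟨d', le_trans (by exact_mod_cast hd') hD, hm⟩

/-- Renaming the index set of a family of transforms. -/
theorem reindex {I : Type} [Fintype I] {M n s d : ℕ} (hI : Fintype.card I = M)
    (h : Blk Λ (dftI (Fin M) n) s d) : Blk Λ (dftI I n) s d := by
  subst hI
  refine h.rename (fun a => some ((Fintype.equivFin I).symm a.1, a.2))
    (fun j => (Fintype.equivFin I j.1, j.2)) ?_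
  rintro ⟨i, j⟩ x
  simp [dftI]

/-- One transform is the same as a family of one transform. -/
theorem single {n s d : ℕ} (h : Blk Λ (dft n) s d) : Blk Λ (dftI (Fin 1) n) s d := by
  refine h.rename (fun k => some (0, k)) (fun j => j.2) ?_
  rintro ⟨i, j⟩ x
  have : i = 0 := Subsingleton.elim _ _
  subst this
  simp [dftI]

theorem single' {n s d : ℕ} (h : Blk Λ (dftI (Fin 1) n) s d) : Blk Λ (dft n) s d := by
  refine h.rename (fun k => some k.2) (fun j => (0, j)) ?_
  intro j x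
  simp [dftI]

/-- A family of transforms computed one after the other. -/
theorem copies {I : Type} [Fintype I] {n s d : ℕ} (h : Blk Λ (dft n) s d) :
    Blk Λ (dftI I n) (Fintype.card I * s) d := by
  have key : ∀ i : I, Can Λ (inputs (I × Fin n)) s
      (tg d fun (j : Fin n) (x : I × Fin n → ℂ) => dft n j fun k => x (i, k)) := by
    intro i
    have h1 := h.use (S := inputs (I × Fin n)) (d₀ := 0) (fun k x => x (i, k))
      (by
        rintro p rfl
        exact ⟨0, le_rfl, zero_mem_inputs _⟩)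
      (by
        rintro ⟨p1, p2⟩ ⟨hp1, k, hp2⟩
        simp only at hp1 hp2
        subst hp1 hp2
        exact ⟨0, le_rfl, mem_inputs _⟩)
    exact h1
  refine (Can.family s _ key).mono_right (Avail.of_subset ?_)
  rintro ⟨p1, p2⟩ ⟨hp1, ⟨i, j⟩, hp2⟩
  simp only at hp1 hp2
  subst hp1 hp2
  exact mem_iUnion.mpr ⟨i, rfl, j, rfl⟩

/-- The naive bound for families. -/
theorem naive_family (hΛ : rootsU ⊆ Λ) (M n : ℕ) :
    Blk Λ (dftI (Fin M) n) (M * (2 * n * n)) (n + 1) := by
  have := copies (I := Fin M) (naive hΛ n)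
  rwa [Fintype.card_fin] at this

/-- A tower: from blocks of `N` transforms `F_m` with `s` gates, circuits for `M` transforms of
order `r m^k`. -/
theorem tower {N m s d : ℕ} (hN : 0 < N) (hm : 2 ≤ m) (hΛ : rootsU ⊆ Λ)
    (h : Blk Λ (dftI (Fin N) m) s d) {r : ℕ} (hr : 0 < r) (k : ℕ) :
    ∀ M : ℕ, ∃ c : ℕ, Blk Λ (dftI (Fin M) (r * m ^ k)) c (r + 1 + k * (d + 1)) ∧
      (c : ℝ) ≤ M * (r * m ^ k) * (2 * r + k * ((s : ℝ) / (N * m) + 1)) + k * s := by
  induction k with
  | zero =>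
    intro M
    refine ⟨M * (2 * r * r), ?_, ?_⟩
    · have := naive_family (Λ := Λ) hΛ M r
      rw [pow_zero, mul_one, Nat.zero_mul, Nat.add_zero]
      exact this
    · push_cast
      apply le_of_eq
      ring
  | succ k ih =>
    intro M
    have hm0 : 0 < m := by omega
    obtain ⟨c, hc, hcb⟩ := ih (M * m)
    have h1 : Blk Λ (dftI (Fin M × Fin m) (r * m ^ k)) c (r + 1 + k * (d + 1)) :=
      reindex (by simp) hc
    have h2 : Blk Λ (dftI (Fin M × Fin (r * m ^ k)) m) ((M * (r * m ^ k) / N + 1) * s) d :=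
      reindex (by simp) (batch hN h (M * (r * m ^ k)))
    have hq : r * m ^ k ≠ 0 := by positivity
    have h3 := cooley_tukey (p := m) (q := r * m ^ k) (by omega) hq hΛ h1 h2
    have e1 : r * m ^ (k + 1) = r * m ^ k * m := by rw [pow_succ]; ring
    refine ⟨c + M * (r * m ^ k * m) + (M * (r * m ^ k) / N + 1) * s, ?_, ?_⟩
    · rw [e1]
      refine Blk.mono h3 (by simp) ?_
      apply le_of_eq
      ring
    · push_cast at hcb ⊢
      have hNr : (0 : ℝ) < N := by exact_mod_cast hN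
      have hmr : (0 : ℝ) < m := by exact_mod_cast hm0
      have hdiv : ((M * (r * m ^ k) / N : ℕ) : ℝ) ≤ (M * (r * m ^ k)) / N := by
        refine Nat.cast_div_le.trans (le_of_eq ?_)
        push_cast
        ring
      have hs : (0 : ℝ) ≤ s := Nat.cast_nonneg _
      set P : ℝ := (m : ℝ) ^ k with hPdef
      set A : ℝ := (s : ℝ) / (N * m) with hA
      have hsA : (s : ℝ) = A * (N * m) := by rw [hA]; field_simp
      have e2 : (m : ℝ) ^ (k + 1) = P * m := by rw [pow_succ]
      have hstep1 : ((M * (r * m ^ k) / N : ℕ) : ℝ) * s ≤ (M * (r * P)) / N * s :=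
        mul_le_mul_of_nonneg_right hdiv hs
      have hstep2 : (M * (r * P)) / N * (s : ℝ) = M * r * P * m * A := by
        rw [hsA]; field_simp
      rw [e2]
      calc (c : ℝ) + M * (r * P * m) + (((M * (r * m ^ k) / N : ℕ) : ℝ) + 1) * s
          ≤ (M * m * (r * P) * (2 * r + k * (A + 1)) + k * s) + M * (r * P * m) +
            (M * r * P * m * A + s) := by linarith
        _ = M * (r * (P * m)) * (2 * r + (k + 1) * (A + 1)) + (k + 1) * s := by ring

end Vale.Agent.P344
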